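import Vale.Agent.P283R.Co.St

/-!
# P283R, CORE: the twist of an integral arc
-/

open PowerSeries

namespace Vale.Agent.P283R.Co

namespace Tw

variable {κ : Type} [Field κ] [Algebra ℂ κ] {N : ℕ}

theorem cw_pow (δ : Derivation ℂ κ κ) (n : ℕ) (a : κ⟦X⟧) :
    (mk fun d => δ (coeff d (X ^ n * a))) = X ^ n * mk fun d => δ (coeff d a) := by
  ext d
  simp only [coeff_mk, coeff_X_pow_mul']
  split_ifs <;> simp

theorem cw_exp (δ : Derivation ℂ κ κ) {r : ℕ} (hr : r ≠ 0) (a : κ⟦X⟧) :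
    (mk fun d => δ (coeff d (expand r hr a))) = expand r hr (mk fun d => δ (coeff d a)) := by
  ext d
  simp only [coeff_mk, coeff_expand]
  split_ifs <;> simp

theorem det_pow (δ : Fin N → Derivation ℂ κ κ) (n : Fin N → ℕ) (y : Fin N → κ⟦X⟧) :
    (Matrix.of fun i j => mk fun d => δ j (coeff d (X ^ n i * y i))).det =
      X ^ (∑ i, n i) * (Matrix.of fun i j => mk fun d => δ j (coeff d (y i))).det := by
  rw [← Finset.prod_pow_eq_pow_sum, ← Matrix.det_mul_column]
  exact congrArg Matrix.det (Matrix.ext fun i j => cw_pow _ _ _)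

theorem det_exp (δ : Fin N → Derivation ℂ κ κ) {r : ℕ} (hr : r ≠ 0) (y : Fin N → κ⟦X⟧) :
    (Matrix.of fun i j => mk fun d => δ j (coeff d (expand r hr (y i)))).det =
      expand r hr (Matrix.of fun i j => mk fun d => δ j (coeff d (y i))).det := by
  rw [AlgHom.map_det]
  exact congrArg Matrix.det (Matrix.ext fun i j => cw_exp _ _ _)

omit [Algebra ℂ κ] in
theorem dvd_iff {n : ℕ} {a : κ⟦X⟧} : X ^ n ∣ a ↔ (n : ℕ∞) ≤ a.order := by
  rw [order_eq_emultiplicity_X, pow_dvd_iff_le_emultiplicity]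

theorem aeval_mon (n : Fin N → ℕ) (y : Fin N → κ⟦X⟧) (m : Fin N →₀ ℕ) (c : ℂ) :
    MvPolynomial.aeval (fun j => X ^ n j * y j) (MvPolynomial.monomial m c) =
      X ^ (∑ j, n j * m j) * MvPolynomial.aeval y (MvPolynomial.monomial m c) := by
  rw [MvPolynomial.aeval_monomial, MvPolynomial.aeval_monomial,
    Finsupp.prod_fintype _ _ fun _ => pow_zero _, Finsupp.prod_fintype _ _ fun _ => pow_zero _]
  simp only [mul_pow, Finset.prod_mul_distrib, ← pow_mul, Finset.prod_pow_eq_pow_sum]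
  ring

theorem aeval_exp {r : ℕ} (hr : r ≠ 0) (y : Fin N → κ⟦X⟧) (p : MvPolynomial (Fin N) ℂ) :
    MvPolynomial.aeval (fun j => expand r hr (y j)) p = expand r hr (MvPolynomial.aeval y p) :=
  (MvPolynomial.comp_aeval_apply y ((expand r hr).restrictScalars ℂ) p).symm

theorem dvd_aeval {x : Fin N → κ⟦X⟧} (hx : ∀ j, X ∣ x j) {E : ℕ} {p : MvPolynomial (Fin N) ℂ}
    (hp : ∀ m, p.coeff m ≠ 0 → E ≤ m.degree) : X ^ E ∣ MvPolynomial.aeval x p := by
  choose y hy using hx
  obtain rfl : x = fun j => X ^ (1 : ℕ) * y j := funext fun j => by rw [hy, pow_one]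
  rw [p.as_sum, map_sum]
  refine Finset.dvd_sum fun m hm => ?_
  rw [aeval_mon (fun _ => 1)]
  refine Dvd.dvd.mul_right (pow_dvd_pow _ ?_) _
  simpa [Finsupp.degree_eq_sum] using hp m (MvPolynomial.mem_support_iff.1 hm)

theorem cong {r : ℕ} (hr : r ≠ 0) (n : Fin N → ℕ) (y : Fin N → κ⟦X⟧) (c : ℤ)
    {p : MvPolynomial (Fin N) ℂ} (hp : ∀ m, p.coeff m ≠ 0 → (r : ℤ) ∣ (∑ j, n j * m j : ℕ) - c)
    {d : ℕ} (hd : coeff d (MvPolynomial.aeval (fun j => X ^ n j * expand r hr (y j)) p) ≠ 0) :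
    (r : ℤ) ∣ d - c := by
  rw [p.as_sum, map_sum, map_sum] at hd
  obtain ⟨m, hm, h⟩ := Finset.exists_ne_zero_of_sum_ne_zero hd
  rw [aeval_mon, aeval_exp, coeff_X_pow_mul', coeff_expand] at h
  split_ifs at h with h1 h2
  · have h3 := Int.natCast_dvd_natCast.2 h2
    rw [Nat.cast_sub h1] at h3
    simpa using h3.add (hp m (MvPolynomial.mem_support_iff.1 hm))
  all_goals exact (h rfl).elim

theorem shift {r : ℕ} (hr : r ≠ 0) (n w : Fin N → ℕ) (y : Fin N → κ⟦X⟧) (s t : ℕ)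
    {p : MvPolynomial (Fin N) ℂ}
    (hp : ∀ m, p.coeff m ≠ 0 → s + ∑ j, n j * m j = t + r * ∑ j, w j * m j) :
    X ^ s * MvPolynomial.aeval (fun j => X ^ n j * expand r hr (y j)) p =
      X ^ t * expand r hr (MvPolynomial.aeval (fun j => X ^ w j * y j) p) := by
  rw [p.as_sum, map_sum, map_sum, map_sum, Finset.mul_sum, Finset.mul_sum]
  refine Finset.sum_congr rfl fun m hm => ?_
  rw [aeval_mon, aeval_mon, aeval_exp, map_mul, map_pow, expand_X, ← pow_mul, ← mul_assoc,
    ← mul_assoc, ← pow_add, ← pow_add, hp m (MvPolynomial.mem_support_iff.1 hm)]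

end Tw

open Tw in
theorem tw_of (ap : AP) : TW := by
  rintro N f a E w hN ⟨κ, _, _, x, δ, ⟨pos, dvd, jac⟩, hE⟩ M b χ r k hr hk hM hw hf
  have hx : ∀ j, X ∣ x j := fun j => (dvd_pow_self _ (pos j).ne').trans (dvd j)
  choose y hy using dvd
  obtain rfl : x = fun j => X ^ w j * y j := funext hy
  obtain ⟨n, hn⟩ : ∃ n : Fin N → ℕ, ∀ j, (n j : ℤ) = r * w j + χ j :=
    ⟨fun j => ((r : ℤ) * w j + χ j).toNat, fun j => Int.toNat_of_nonneg (hw j).le⟩
  have hs : ∀ m : Fin N → ℕ, ((∑ j, n j * m j : ℕ) : ℤ) =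
      r * (∑ j, w j * m j : ℕ) + ∑ j, χ j * m j := fun m => by
    push_cast
    rw [Finset.mul_sum, ← Finset.sum_add_distrib]
    exact Finset.sum_congr rfl fun j _ => by rw [hn]; ring
  rw [det_pow, dvd_iff, order_mul, order_X_pow, not_le] at jac
  set D := (Matrix.of fun i j => mk fun d => δ j (coeff d (y i))).det with hD
  obtain ⟨d, hd⟩ : ∃ d : ℕ, D.order = d :=
    (ENat.ne_top_iff_exists.1 fun e => by simp [e] at jac).imp fun _ => Eq.symm
  have hda : ∑ j, w j + d ≤ a := by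
    rw [hd] at jac
    exact Nat.lt_succ_iff.1 (by exact_mod_cast jac)
  obtain ⟨P, e, he, hA, hp⟩ := ap N κ (fun j => X ^ n j * expand r hr.ne' (y j)) δ
    (∑ j, n j + r * d) n hN ⟨fun j => by have := hw j; have := hn j; omega,
      fun j => dvd_mul_right _ _, by
        rw [det_pow, det_exp, dvd_iff, order_mul, order_X_pow, order_expand, ← hD, hd, not_le,
          nsmul_eq_mul]
        exact_mod_cast Nat.lt_succ_self _⟩
  have hv : ∀ j, ∃ v : ℕ, w j ≤ v ∧ (e : ℤ) * P.ord (z0 N j) = r * v + χ j := fun j => by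
    obtain ⟨c, h1, h2⟩ := hp (MvPolynomial.X j) (MvPolynomial.X_ne_zero j)
    rw [MvPolynomial.aeval_X] at h1 h2
    rw [order_mul, order_X_pow, order_expand] at h1
    obtain ⟨u, hu⟩ : ∃ u : ℕ, (y j).order = u :=
      (ENat.ne_top_iff_exists.1 fun e => by simp [e, hr.ne'] at h1).imp fun _ => Eq.symm
    rw [hu, nsmul_eq_mul] at h1
    have h3 : n j + r * u = c := by exact_mod_cast h1
    refine ⟨w j + u, Nat.le_add_right _ _, ?_⟩
    rw [h2, ← h3]
    push_cast
    rw [hn]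
    ring
  choose v hv hv' using hv
  refine ⟨P, e, v, he, fun c p p0 hc => ?_, hv, hv', hA.trans ?_, ?_⟩
  · obtain ⟨u, h1, h2⟩ := hp p p0
    have h3 := cong hr.ne' n y (∑ j, χ j * c j) (p := p) (fun m hm => by
      have := hM _ (hc m (by rwa [MvPolynomial.coeff_coe]))
      simp only [mul_sub, Finset.sum_sub_distrib] at this
      rw [hs, add_sub_assoc]
      exact (dvd_mul_right _ _).add this) (order_eq_nat.1 h1).1
    have h4 : (e : ℤ) * ∑ j, c j * P.ord (z0 N j) = r * ∑ j, c j * v j + ∑ j, χ j * c j := by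
      rw [Finset.mul_sum, Finset.mul_sum, ← Finset.sum_add_distrib]
      exact Finset.sum_congr rfl fun j _ => by linear_combination c j * hv' j
    rw [mul_sub, h2, h4, show (u : ℤ) - (r * ∑ j, c j * v j + ∑ j, χ j * c j) =
      (u - ∑ j, χ j * c j) - r * ∑ j, c j * v j by ring]
    exact h3.sub (dvd_mul_right _ _)
  · have h1 := hs fun _ => 1
    simp only [mul_one, Nat.cast_one] at h1
    have h2 : ((∑ j, n j + r * d : ℕ) : ℤ) ≤ r * a + ∑ j, χ j := by
      have : ((∑ j, w j : ℕ) : ℤ) + d ≤ a := by exact_mod_cast hda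
      rw [Nat.cast_add, h1, Nat.cast_mul]
      nlinarith [Int.natCast_nonneg r]
    exact_mod_cast h2
  · refine or_iff_not_imp_left.2 fun p0 => ?_
    obtain ⟨u, h1, h2⟩ := hp _ p0
    have h3 : X ^ E ∣ MvPolynomial.aeval (fun j => X ^ w j * y j)
        (MvPowerSeries.truncTotal k f) := by
      rw [← sub_add_cancel (MvPowerSeries.truncTotal k f) (MvPowerSeries.truncTotal E f), map_add]
      refine (dvd_aeval hx fun m hm => not_lt.1 fun h => hm ?_).add hE
      rw [MvPolynomial.coeff_sub, MvPowerSeries.coeff_truncTotal _ h,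
        MvPowerSeries.coeff_truncTotal _ (h.trans_le hk), sub_self]
    have h4 := congrArg order (shift hr.ne' n w y (-∑ j, χ j * b j).toNat (∑ j, χ j * b j).toNat
      (p := MvPowerSeries.truncTotal k f) fun m hm => by
        have h5 : m.degree < k := not_le.1 fun h => hm (MvPowerSeries.coeff_truncTotal_eq_zero _ h)
        have h6 := hf m h5 (by rwa [MvPowerSeries.coeff_truncTotal _ h5] at hm)
        have h7 := hs m
        have h8 := Int.toNat_sub_toNat_neg (∑ j, χ j * b j)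
        have h9 : ((r * ∑ j, w j * m j : ℕ) : ℤ) = r * (∑ j, w j * m j : ℕ) := Nat.cast_mul _ _
        omega)
    rw [order_mul, order_mul, order_X_pow, order_X_pow, h1, order_expand] at h4
    have h5 : (((∑ j, χ j * b j).toNat + r * E : ℕ) : ℕ∞) ≤ ((-∑ j, χ j * b j).toNat + u : ℕ) := by
      rw [Nat.cast_add, Nat.cast_add, h4, Nat.cast_mul, nsmul_eq_mul]
      gcongr
      exact dvd_iff.1 h3
    have h6 := Int.ofNat_le.2 (Nat.cast_le.1 h5)
    have h8 := Int.toNat_sub_toNat_neg (∑ j, χ j * b j)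
    push_cast at h6
    rw [h2]
    linarith

end Vale.Agent.P283R.Co
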