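import Vale.Agent.P283R.Co.Ev0
import Mathlib.RingTheory.HahnSeries.HEval
import Mathlib.RingTheory.PowerSeries.Binomial
import Mathlib.FieldTheory.IsAlgClosed.Basic
import Mathlib.LinearAlgebra.Matrix.Determinant.Basic
import Mathlib.Algebra.BigOperators.WithTop

/-!
# Evaluation at Hahn series: substitution, derivations, units, roots
-/

open MvPowerSeries

namespace Vale.Agent.P283R.Co

variable {R : Type*} [CommRing R] {σ τ : Type*}

section

variable [Finite σ] {x : σ → HahnSeries ℝ R}

theorem ge_ev_one {δ : ℝ} (hδ : 0 < δ) (h : ∀ j, Ge δ (x j)) {F : MvPowerSeries σ R}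
    (hF : constantCoeff F = 0) : Ge δ (ev x F) := by
  simpa using ge_ev hδ h (F := F) (k := 1) (by
    exact_mod_cast (one_le_order_iff_constCoeff_eq_zero).2 hF)

theorem pos_ev (hx : Pos x) {G : τ → MvPowerSeries σ R} (hG : ∀ j, constantCoeff (G j) = 0) :
    Pos fun j => ev x (G j) := by
  obtain ⟨δ, hδ, h⟩ := hx.exists_ge
  exact pos_of_ge hδ fun j => ge_ev_one hδ h (hG j)

omit [Finite σ] in
theorem order_subst [Finite τ] {G : τ → MvPowerSeries σ R} (hG : ∀ j, constantCoeff (G j) = 0)
    (F : MvPowerSeries τ R) : F.order ≤ (F.subst G).order := by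
  refine le_trans ?_ (le_order_subst (hasSubst_of_constantCoeff_zero hG) F)
  have : (1 : ℕ∞) ≤ ⨅ i, (G i).order :=
    le_iInf fun i => (one_le_order_iff_constCoeff_eq_zero).2 (hG i)
  simpa using mul_le_mul_left this F.order

/-- evaluation of a substitution -/
theorem ev_subst [Finite τ] (hx : Pos x) {G : τ → MvPowerSeries σ R}
    (hG : ∀ j, constantCoeff (G j) = 0) (F : MvPowerSeries τ R) :
    ev x (F.subst G) = ev (fun j => ev x (G j)) F := by
  obtain ⟨δ, hδ, h⟩ := hx.exists_ge
  have ha := hasSubst_of_constantCoeff_zero hG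
  refine ext_poly (φ := (evA x).comp (substAlgHom ha).toRingHom.toAddMonoidHom)
    (ψ := evA fun j => ev x (G j)) 0 hδ (fun k F hF => ?_) (fun k F hF => ?_) (fun p => ?_) F
      |> Eq.trans (by simp [evA])
  · rw [sub_zero]
    have := ge_ev hδ h (hF.trans (order_subst hG F))
    simpa [evA, substAlgHom_apply] using this
  · rw [sub_zero]; exact ge_ev hδ (fun j => ge_ev_one hδ h (hG j)) hF
  · change ev x (substAlgHom ha (p : MvPowerSeries τ R)) = ev _ _
    rw [substAlgHom_coe, ev_coe (pos_ev hx hG), ← evH_apply hx, ← AlgHom.comp_apply,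
      MvPolynomial.comp_aeval]
    rfl

theorem ge_ev_sub_const {δ : ℝ} (hδ : 0 < δ) (h : ∀ j, Ge δ (x j)) (F : MvPowerSeries σ R) :
    Ge δ (ev x F - algebraMap R _ (constantCoeff F)) := by
  rw [← ev_C (pos_of_ge hδ h), ← ev_sub]
  exact ge_ev_one hδ h (by simp)

theorem coeff_zero_ev (hx : Pos x) (F : MvPowerSeries σ R) :
    (ev x F).coeff 0 = constantCoeff F := by
  obtain ⟨δ, hδ, h⟩ := hx.exists_ge
  have := ge_iff.1 (ge_ev_sub_const hδ h F) 0 hδ
  rw [HahnSeries.coeff_sub, sub_eq_zero] at this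
  rw [this, Algebra.algebraMap_eq_smul_one]; simp

/-- a series with a nonzero constant term has a value of order zero -/
theorem orderTop_ev_unit (hx : Pos x) {F : MvPowerSeries σ R} (hF : constantCoeff F ≠ 0) :
    (ev x F).orderTop = 0 :=
  le_antisymm (HahnSeries.orderTop_le_of_coeff_ne_zero (by rwa [coeff_zero_ev hx])) (ge_ev_zero F)

theorem orderTop_prod [IsDomain R] {ι : Type*} (s : Finset ι) (a : ι → HahnSeries ℝ R) :
    (∏ i ∈ s, a i).orderTop = ∑ i ∈ s, (a i).orderTop := by
  classical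
  induction s using Finset.induction_on with
  | empty => simp
  | insert i s hi ih => rw [Finset.sum_insert hi, Finset.prod_insert hi, HahnSeries.orderTop_mul, ih]

theorem orderTop_pow [IsDomain R] (a : HahnSeries ℝ R) (n : ℕ) :
    (a ^ n).orderTop = n • a.orderTop := by
  simpa using orderTop_prod (Finset.range n) fun _ => a

/-- the order of the value of a unit times a monomial -/
theorem orderTop_ev_mon [IsDomain R] (hx : Pos x) {U : MvPowerSeries σ R}
    (hU : constantCoeff U ≠ 0) (m : σ →₀ ℕ) {w : σ → ℝ} (hw : ∀ j, (x j).orderTop = w j) :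
    (ev x (U * monomial m 1)).orderTop = (m.sum fun j e => e * w j : ℝ) := by
  rw [ev_mul hx, HahnSeries.orderTop_mul, orderTop_ev_unit hx hU, zero_add, ev_monomial hx,
    one_smul, Finsupp.prod, orderTop_prod, Finsupp.sum, WithTop.coe_sum]
  refine Finset.sum_congr rfl fun j _ => ?_
  rw [orderTop_pow, hw, ← WithTop.coe_nsmul, nsmul_eq_mul]

end

section

variable {A k : Type*} [CommRing A] [CommRing k] [Algebra k (HahnSeries ℝ R)]

/-- the derivation `θ` does not lower the order -/
def Ctr (θ : Derivation k (HahnSeries ℝ R) (HahnSeries ℝ R)) : Prop :=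
  ∀ a, a.orderTop ≤ (θ a).orderTop

theorem Ctr.ge {θ : Derivation k (HahnSeries ℝ R) (HahnSeries ℝ R)} (h : Ctr θ) {r : ℝ}
    {a : HahnSeries ℝ R} (ha : Ge r a) : Ge r (θ a) := le_trans ha (h a)

theorem map_pderiv (s : A →+* R) (j : σ) (F : MvPowerSeries σ A) :
    map s (pderiv A j F) = pderiv R j (map s F) := by
  ext n; simp [coeff_pderiv]

theorem order_pderiv (j : σ) {F : MvPowerSeries σ A} {n : ℕ} (hF : ((n + 1 : ℕ) : ℕ∞) ≤ F.order) :
    (n : ℕ∞) ≤ (pderiv A j F).order :=
  nat_le_order fun d hd => by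
    rw [coeff_pderiv, coeff_of_lt_order (lt_of_lt_of_le _ hF), zero_mul]
    rw [map_add, Finsupp.degree_single]
    exact_mod_cast Nat.succ_lt_succ hd

variable [Fintype σ] {x : σ → HahnSeries ℝ R}

/-- the chain rule -/
theorem der_ev (hx : Pos x) (s : A →+* R) {θ : Derivation k (HahnSeries ℝ R) (HahnSeries ℝ R)}
    (hθ : Ctr θ) (hs : ∀ c, θ (algebraMap R _ (s c)) = 0) (F : MvPowerSeries σ A) :
    θ (ev x (map s F)) = ∑ j, ev x (map s (pderiv A j F)) * θ (x j) := by
  obtain ⟨δ, hδ, h⟩ := hx.exists_ge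
  let φ : MvPowerSeries σ A →+ HahnSeries ℝ R :=
    θ.toLinearMap.toAddMonoidHom.comp ((evA x).comp (map s).toAddMonoidHom)
  let ψ : MvPowerSeries σ A →+ HahnSeries ℝ R := AddMonoidHom.mk'
    (fun F => ∑ j, ev x (map s (pderiv A j F)) * θ (x j)) fun F G => by
      simp only [map_add, ev_add, add_mul, Finset.sum_add_distrib]
  refine ext_poly (φ := φ) (ψ := ψ) 0 hδ (fun n F hF => ?_) (fun n F hF => ?_) (fun p => ?_) F
  · rw [sub_zero]; exact hθ.ge (ge_ev hδ h (hF.trans (le_order_map s)))
  · refine Ge.sum fun j _ => ?_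
    rcases n with _ | n
    · simpa using (ge_ev_zero _).mul0 ((hθ.ge (h j)).mono hδ.le)
    · have := (ge_ev hδ h ((order_pderiv j hF).trans (le_order_map s))).mul (hθ.ge (h j))
      refine this.mono (le_of_eq ?_)
      push_cast; ring
  · change θ (ev x (map s (p : MvPowerSeries σ A))) =
      ∑ j, ev x (map s (pderiv A j (p : MvPowerSeries σ A))) * θ (x j)
    induction p using MvPolynomial.induction_on with
    | C c => simp [MvPolynomial.coe_C, ev_C hx, hs, ev_zero]
    | add p q hp hq =>
      simp only [MvPolynomial.coe_add, map_add, ev_add, hp, hq, add_mul, Finset.sum_add_distrib]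
    | mul_X p i hp =>
      classical
      simp only [MvPolynomial.coe_mul, MvPolynomial.coe_X, map_mul, map_X, ev_mul hx, ev_X hx,
        Derivation.leibniz, smul_eq_mul, hp, map_add, ev_add, add_mul, Finset.sum_add_distrib,
        Finset.mul_sum]
      congr 1
      · rw [Finset.sum_eq_single i]
        · rw [pderiv_X_self, map_one, ← evH_apply hx 1, map_one, mul_one]
        · intro j _ hj
          rw [pderiv_X_of_ne hj.symm, map_zero, ev_zero, mul_zero, zero_mul]
        · simp
      · exact Finset.sum_congr rfl fun j _ => (mul_assoc _ _ _).symm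

/-- the chain rule for the Jacobian determinant -/
theorem det_der_ev [DecidableEq σ] (hx : Pos x) (s : A →+* R)
    {θ : σ → Derivation k (HahnSeries ℝ R) (HahnSeries ℝ R)} (hθ : ∀ l, Ctr (θ l))
    (hs : ∀ l c, θ l (algebraMap R _ (s c)) = 0) (G : σ → MvPowerSeries σ A) :
    (Matrix.of fun i l => θ l (ev x (map s (G i)))).det =
      ev x (map s (Matrix.of fun i j => pderiv A j (G i)).det) *
        (Matrix.of fun j l => θ l (x j)).det := by
  have := ((evH hx).toRingHom.comp (map s)).map_det (Matrix.of fun i j => pderiv A j (G i))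
  rw [show ev x (map s _) = _ from this, ← Matrix.det_mul]
  congr 1
  ext1 i l
  rw [Matrix.of_apply, der_ev hx s (hθ l) (hs l), Matrix.mul_apply]
  rfl

omit [Fintype σ] in
theorem ge_det [Fintype τ] [DecidableEq τ] {M : Matrix τ τ (HahnSeries ℝ R)} {w : τ → ℝ}
    (h : ∀ i l, Ge (w i) (M i l)) : Ge (∑ i, w i) M.det := by
  rw [← Matrix.det_transpose, Matrix.det_apply']
  refine Ge.sum fun p _ => Ge.zero_mul ?_ (Ge.prod fun i _ => h i _)
  simpa using ge_algebraMap (R := R) ((Equiv.Perm.sign p : ℤ) : R)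

end

/-- the derivation `∑ a_g t^g ↦ ∑ (l g * a_g + d a_g) t^g` -/
noncomputable def thl {k : Type*} [CommRing k] [Algebra k R] (l : ℝ →+ R) (d : Derivation k R R) :
    Derivation k (HahnSeries ℝ R) (HahnSeries ℝ R) :=
  have hs (a : HahnSeries ℝ R) :
      (Function.support fun g => l g * a.coeff g + d (a.coeff g)) ⊆ a.support := fun g hg h =>
    hg (by simp [h])
  .mk'
    { toFun a := ⟨fun g => l g * a.coeff g + d (a.coeff g), a.isPWO_support.mono (hs a)⟩
      map_add' a b := by ext g; simp; ring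
      map_smul' c a := by ext g; simp }
    fun a b => by
      ext g
      simp only [LinearMap.coe_mk, AddHom.coe_mk, smul_eq_mul, HahnSeries.coeff_add]
      rw [mul_comm b, HahnSeries.coeff_mul_right' (y := ⟨_, _⟩) b.isPWO_support (hs b),
        HahnSeries.coeff_mul_left' (x := ⟨_, _⟩) a.isPWO_support (hs a), HahnSeries.coeff_mul,
        map_sum,
        Finset.mul_sum, ← Finset.sum_add_distrib, ← Finset.sum_add_distrib]
      refine Finset.sum_congr rfl fun ij hij => ?_
      rw [← (Finset.mem_antidiagonal.1 hij).2.2, map_add, Derivation.leibniz]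
      simp only [smul_eq_mul]; ring

theorem coeff_thl {k : Type*} [CommRing k] [Algebra k R] (l : ℝ →+ R) (d : Derivation k R R)
    (a : HahnSeries ℝ R) (g : ℝ) : (thl l d a).coeff g = l g * a.coeff g + d (a.coeff g) := rfl

theorem ctr_thl {k : Type*} [CommRing k] [Algebra k R] (l : ℝ →+ R) (d : Derivation k R R) :
    Ctr (thl l d) := fun a => HahnSeries.le_orderTop_iff_forall.2 fun g hg => by
  rw [coeff_thl, HahnSeries.coeff_eq_zero_of_lt_orderTop hg]; simp

theorem thl_single {k : Type*} [CommRing k] [Algebra k R] (l : ℝ →+ R) (d : Derivation k R R)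
    (g : ℝ) (c : R) : thl l d (HahnSeries.single g c) = HahnSeries.single g (l g * c + d c) := by
  ext g'
  rw [coeff_thl]
  by_cases h : g' = g
  · simp [h]
  · simp [HahnSeries.coeff_single_of_ne h]

/-- roots of Hahn series -/
theorem exists_root {K : Type*} [Field K] [IsAlgClosed K] [CharZero K] (a : HahnSeries ℝ K) {n : ℕ}
    (hn : 0 < n) : ∃ b, b ^ n = a := by
  by_cases ha : a = 0
  · exact ⟨0, by rw [ha, zero_pow hn.ne']⟩
  have hc : a.leadingCoeff ≠ 0 := HahnSeries.leadingCoeff_ne_zero.2 ha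
  obtain ⟨c, hc'⟩ := IsAlgClosed.exists_pow_nat_eq a.leadingCoeff hn
  have h1 := HahnSeries.unit_aux a (inv_mul_cancel₀ hc) (-a.order) (neg_add_cancel _)
  set y := 1 - HahnSeries.single (-a.order) a.leadingCoeff⁻¹ * a with hy
  have h2 (m : ℕ) : PowerSeries.binomialSeries K (m * (n : ℚ)⁻¹) =
      PowerSeries.binomialSeries K (n : ℚ)⁻¹ ^ m := by
    induction m with
    | zero => simp
    | succ m ih => rw [Nat.cast_succ, add_mul, one_mul, PowerSeries.binomialSeries_add, ih, pow_succ]
  refine ⟨HahnSeries.single (a.order / n) c *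
    PowerSeries.heval (-y) (PowerSeries.binomialSeries K (n : ℚ)⁻¹), ?_⟩
  have hn' : (n : ℝ) ≠ 0 := by exact_mod_cast hn.ne'
  rw [mul_pow, HahnSeries.single_pow, hc', ← map_pow, ← h2,
    mul_inv_cancel₀ (by exact_mod_cast hn.ne'), ← Nat.cast_one,
    PowerSeries.binomialSeries_nat, pow_one, map_add, map_one,
    PowerSeries.heval_X _ (by rwa [HahnSeries.orderTop_neg]),
    nsmul_eq_mul, mul_div_cancel₀ _ hn', hy, neg_sub, add_sub_cancel, ← mul_assoc,
    HahnSeries.single_mul_single, add_neg_cancel, mul_inv_cancel₀ hc, HahnSeries.single_zero_one,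
    one_mul]

end Vale.Agent.P283R.Co
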