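import Vale.Agent.P287D.Defs
import Vale.Agent.P283R.Co.Ev1
import Vale.Agent.P283.H647.Lim2
import Mathlib.Order.Filter.FilterProduct

/-!
# P283R, CORE: the statements
-/

attribute [-instance] HahnSeries.powerSeriesAlgebra

open Filter MvPowerSeries
open Vale.Agent.P287D (Pl FF kap)
open Vale.Agent.P283.H647 (limLat)

noncomputable section

namespace Vale.Agent.P283R.Co

/-- the field of rational functions -/
abbrev K0 (N : ℕ) : Type := FractionRing (MvPolynomial (Fin N) ℂ)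

/-- the coordinates -/
def z0 (N : ℕ) (j : Fin N) : K0 N := algebraMap (MvPolynomial (Fin N) ℂ) _ (MvPolynomial.X j)

/-- Hahn series -/
abbrev HS : Type := HahnSeries ℝ ℂ

variable {N : ℕ}

section place

variable {F : Type} [Field F] [Algebra ℂ F]

/-- the log discrepancy of `P` over the affine space with the coordinates `z` -/
def A0 (z : Fin N → F) (P : Pl F) : ℝ := 1 + kap z P

/-- `μ`, `E`, `B` are lower bounds for the orders along `P` of the maximal ideal, of the ideal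
`(g) + m ^ k` and of the monomial ideal of `C` -/
structure Low (z : Fin N → F) (g : MvPolynomial (Fin N) ℂ) (k : ℕ) (C : Finset (Fin N → ℕ))
    (P : Pl F) (μ E B : ℝ) : Prop where
  pos : 0 < μ
  mu : ∀ j, μ ≤ P.ord (z j)
  ek : E ≤ k * μ
  eg : g = 0 ∨ E ≤ P.ord (MvPolynomial.aeval z g)
  bc : ∀ c ∈ C, B ≤ ∑ j, (c j : ℝ) * P.ord (z j)

end place

/-- the monomials of `p` lie in the coset `a + M` -/
def Cos (M : AddSubgroup (Fin N → ℤ)) (a : Fin N → ℤ) (f : MvPowerSeries (Fin N) ℂ) : Prop :=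
  ∀ m, coeff m f ≠ 0 → (fun j => (m j : ℤ) - a j) ∈ M

/-- `e / r` times the order along `P` is integral on the invariant functions -/
def Zv (M : AddSubgroup (Fin N → ℤ)) (P : Pl (K0 N)) (r e : ℕ) : Prop :=
  ∀ (a : Fin N → ℤ) (p : MvPolynomial (Fin N) ℂ), p ≠ 0 → Cos M a p →
    (r : ℤ) ∣ e * (P.ord (MvPolynomial.aeval (z0 N) p) - ∑ j, a j * P.ord (z0 N j))

/-- the hypothesis (H) -/
def Hy (Q : ℕ) (ε : ℝ) (M : AddSubgroup (Fin N → ℤ)) (f : MvPowerSeries (Fin N) ℂ) : Prop :=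
  ∀ (P : Pl (K0 N)) (r e k : ℕ) (μ E : ℝ), 0 < r → 0 < e →
    Low (z0 N) (truncTotal k f) k ∅ P μ E 0 → Zv M P r e →
    (∃ m ∈ M, ∑ j, m j * P.ord (z0 N j) ≠ 0) → ε * r ≤ e * (A0 (z0 N) P - E / Q)

/-- clause (a) -/
def OutA (Q n : ℕ) (g : MvPolynomial (Fin N) ℂ) (k : ℕ) (C : Finset (Fin N → ℕ)) (c₀ : ℝ) :
    Prop :=
  ∀ (F : Type) [Field F] [Algebra ℂ F], FF F N → ∀ z : Fin N → F, AlgebraicIndependent ℂ z →
    ∀ (P : Pl F) (μ E B : ℝ), Low z g k C P μ E B → E / Q + B / n + c₀ * μ ≤ A0 z P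

/-- clause (b) -/
def OutB (Q n : ℕ) (g : MvPolynomial (Fin N) ℂ) (k : ℕ) (C : Finset (Fin N → ℕ)) (c₀ ρ : ℝ) :
    Prop :=
  ∃ (P : Pl (K0 N)) (μ E B : ℝ), Low (z0 N) g k C P μ E B ∧
    A0 (z0 N) P ≤ E / Q + B / n + c₀ * μ ∧ A0 (z0 N) P ≤ ρ * μ

/-- clause (c) -/
def OutC (n : ℕ) (C : Finset (Fin N → ℕ)) : Prop :=
  ∀ w : Fin N → ℝ, 0 ≤ w → ∃ c ∈ C, ∑ j, (c j : ℝ) * w j ≤ n * ∑ j, w j

/-- the monomials of `C` have the right character -/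
def Chr (Q n : ℕ) (M : AddSubgroup (Fin N → ℤ)) (b : Fin N → ℤ) (C : Finset (Fin N → ℕ)) : Prop :=
  ∀ c ∈ C, (fun j => (c j : ℤ) - n + (n / Q : ℕ) * b j) ∈ M

/-- the conclusion -/
def Out (Q n : ℕ) (M : AddSubgroup (Fin N → ℤ)) (b : Fin N → ℤ) (f : MvPowerSeries (Fin N) ℂ) :
    Prop :=
  ∃ (C : Finset (Fin N → ℕ)) (c₀ ρ : ℝ) (k : ℕ), 0 < c₀ ∧ Q * ρ < k ∧ Chr Q n M b C ∧
    OutA Q n (truncTotal k f) k C c₀ ∧ OutB Q n (truncTotal k f) k C c₀ ρ ∧ OutC n C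

/-- finite index -/
def Fi (M : AddSubgroup (Fin N → ℤ)) : Prop := ∃ r : ℕ, 0 < r ∧ ∀ j, Pi.single j (r : ℤ) ∈ M

/-- **TT**: the end product -/
def TT : Prop := ∀ (N Q : ℕ) (ε : ℝ), 0 < N → 0 < Q → 0 < ε → ∃ n₀ : ℕ, 0 < n₀ ∧ Q ∣ n₀ ∧
  ∀ n : ℕ, 0 < n → n₀ ∣ n → ∀ (M : AddSubgroup (Fin N → ℤ)) (b : Fin N → ℤ)
    (f : MvPowerSeries (Fin N) ℂ), Fi M → Cos M b f → Hy Q ε M f → Out Q n M b f

/-! ### arcs -/

/-- the logarithmic Jacobian of a Hahn arc -/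
def Jd (l : Fin N → ℝ →+ ℂ) (x : Fin N → HS) : HS :=
  (Matrix.of fun i j => thl (l j) (0 : Derivation ℂ ℂ ℂ) (x i)).det

/-- the data `a`, `E`, `w` are realised by a Hahn arc -/
def HR (k : Type) [CommRing k] (f : MvPowerSeries (Fin N) k) (a E : ℝ) (w : Fin N → ℝ) : Prop :=
  ∃ (σ : k →+* ℂ) (x : Fin N → HS) (l : Fin N → ℝ →+ ℂ), Pos x ∧ (∀ j, Ge (w j) (x j)) ∧
    Ge E (ev x (map σ f)) ∧ (Jd l x).orderTop ≤ (a : WithTop ℝ)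

/-- an integral arc -/
structure IA {k κ : Type} [Field k] [Field κ] [Algebra k κ] (x : Fin N → PowerSeries κ)
    (δ : Fin N → Derivation k κ κ) (a : ℕ) (w : Fin N → ℕ) : Prop where
  pos : ∀ j, 0 < w j
  dvd : ∀ j, PowerSeries.X ^ w j ∣ x j
  jac : ¬ PowerSeries.X ^ (a + 1) ∣
    (Matrix.of fun i j => PowerSeries.mk fun n => δ j (PowerSeries.coeff n (x i))).det

/-- the data `a`, `E`, `w` are realised by an integral arc -/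
def IR (k : Type) [Field k] (f : MvPowerSeries (Fin N) k) (a E : ℕ) (w : Fin N → ℕ) : Prop :=
  ∃ (κ : Type) (_ : Field κ) (_ : Algebra k κ) (x : Fin N → PowerSeries κ)
    (δ : Fin N → Derivation k κ κ), IA x δ a w ∧
      PowerSeries.X ^ E ∣ MvPolynomial.aeval x (truncTotal E f)

/-- generic points -/
def Gen {A : Type} [CommRing A] (𝒰 : Ultrafilter ℕ) (s : ℕ → A →+* ℂ) : Prop :=
  ∀ a, (∀ᶠ i in (𝒰 : Filter ℕ), s i a = 0) → a = 0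

/-- a unit times the monomial with the exponent `α` -/
def UM {A : Type} [CommRing A] (F : MvPowerSeries (Fin N) A) (α : Fin N →₀ ℕ) : Prop :=
  ∃ u, IsUnit u ∧ F = u * monomial α 1

/-- a chart which monomialises `F`, the coordinates and the Jacobian -/
structure Cht {A : Type} [CommRing A] (F : MvPowerSeries (Fin N) A)
    (G : Fin N → MvPowerSeries (Fin N) A) (α γ : Fin N →₀ ℕ) (μ : Fin N → Fin N →₀ ℕ) : Prop where
  cc : ∀ j, constantCoeff (G j) = 0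
  g : ∀ j, UM (G j) (μ j)
  f : UM (F.subst G) α
  jac : UM (Matrix.of fun i j => pderiv A j (G i)).det γ

/-- the arc `x'` of the chart, pushed forward at the point `t` -/
def push {A : Type} [CommRing A] (G : Fin N → MvPowerSeries (Fin N) A) (t : A →+* ℂ)
    (x' : Fin N → HS) : Fin N → HS := fun j => ev x' (map t (G j))

/-- the ultrapower -/
abbrev UK (𝒰 : Ultrafilter ℕ) : Type := Germ (𝒰 : Filter ℕ) ℂ

/-- the limit series -/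
def ulim (𝒰 : Ultrafilter ℕ) (f : ℕ → MvPowerSeries (Fin N) ℂ) : MvPowerSeries (Fin N) (UK 𝒰) :=
  fun m => ((fun i => coeff m (f i) : ℕ → ℂ) : UK 𝒰)

/-- the lower bound for Hahn arcs -/
def LB (Q n : ℕ) (C : Finset (Fin N → ℕ)) (c₀ : ℝ) {k : Type} [CommRing k]
    (f : MvPowerSeries (Fin N) k) : Prop :=
  ∀ (a E : ℝ) (w : Fin N → ℝ) (μ B : ℝ), HR k f a E w → 0 < μ → (∀ j, μ ≤ w j) →
    (∀ c ∈ C, B ≤ ∑ j, (c j : ℝ) * w j) → E / Q + B / n + c₀ * μ ≤ a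

/-- the lower bound for the truncated ideal -/
def LT (Q n k : ℕ) (C : Finset (Fin N → ℕ)) (c₀ : ℝ) (g : MvPolynomial (Fin N) ℂ) : Prop :=
  ∀ (a E : ℝ) (w : Fin N → ℝ) (μ B : ℝ), HR ℂ (g : MvPowerSeries (Fin N) ℂ) a E w → 0 < μ →
    (∀ j, μ ≤ w j) → E ≤ k * μ → (∀ c ∈ C, B ≤ ∑ j, (c j : ℝ) * w j) →
    E / Q + B / n + c₀ * μ ≤ a

/-- the inequality (P) -/
def PK (Q : ℕ) (ε : ℝ) (L : AddSubgroup (Fin N → ℤ)) (b : Fin N → ℤ) {k : Type} [Field k]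
    (f : MvPowerSeries (Fin N) k) : Prop :=
  ∀ (a E : ℕ) (w : Fin N → ℕ), IR k f a E w → ∀ ζ : Fin N → ℝ,
    (∀ m ∈ L, ∑ j, ζ j * m j = 0) → (∀ j, 0 ≤ w j + ζ j) →
      ε ≤ a - (E : ℝ) / Q + ∑ j, (1 - (b j : ℝ) / Q) * ζ j

/-- the inequality (P) at the vertices -/
def PV (Q n : ℕ) (ε : ℝ) (C : Finset (Fin N → ℕ)) {k : Type} [Field k]
    (f : MvPowerSeries (Fin N) k) : Prop :=
  ∀ (a E : ℕ) (w : Fin N → ℕ), IR k f a E w →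
    ∃ c ∈ C, ε + (E : ℝ) / Q + (∑ j, (c j : ℝ) * w j) / n ≤ a

/-- an integral arc which attains the bound -/
def AT (Q n : ℕ) (C : Finset (Fin N → ℕ)) (c₀ : ℝ) {k : Type} [Field k]
    (f : MvPowerSeries (Fin N) k) : Prop :=
  ∃ (a E : ℕ) (w : Fin N → ℕ) (μ B : ℝ), IR k f a E w ∧ 0 < μ ∧ (∀ j, μ ≤ w j) ∧
    (∀ c ∈ C, B ≤ ∑ j, (c j : ℝ) * w j) ∧ (a : ℝ) ≤ E / Q + B / n + c₀ * μ

/-! ### the rows -/

/-- **U**: monomialisation along a sequence of arcs -/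
def RU : Prop := ∀ (N : ℕ) (A : Type) [CommRing A] [IsNoetherianRing A] [Algebra ℚ A]
  (𝒰 : Ultrafilter ℕ) (s : ℕ → A →+* ℂ), Gen 𝒰 s → ∀ x : ℕ → Fin N → HS, (∀ i, Pos (x i)) →
  ∀ F : MvPowerSeries (Fin N) A, F ≠ 0 →
    ∃ (A' : Type) (_ : CommRing A') (ι : A →+* A') (s' : ℕ → A' →+* ℂ)
      (G : Fin N → MvPowerSeries (Fin N) A') (α γ : Fin N →₀ ℕ) (μ : Fin N → Fin N →₀ ℕ)
      (x' : ℕ → Fin N → HS), Gen 𝒰 s' ∧ Cht (map ι F) G α γ μ ∧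
      ∀ᶠ i in (𝒰 : Filter ℕ), (s' i).comp ι = s i ∧ Pos (x' i) ∧ x i = push G (s' i) (x' i)

/-- **CH1**: the data of an arc through a chart -/
def CH1 : Prop := ∀ (N : ℕ) (A : Type) [CommRing A] (F : MvPowerSeries (Fin N) A) G α γ μ,
  Cht F G α γ μ → ∀ (t : A →+* ℂ) (x' : Fin N → HS) (l : Fin N → ℝ →+ ℂ) (a : ℝ), Pos x' →
    (Jd l (push G t x')).orderTop ≤ (a : WithTop ℝ) → ∃ w' : Fin N → ℝ, (∀ j, 0 < w' j) ∧
      (∀ j, (push G t x' j).orderTop = (∑ i, (μ j i : ℝ) * w' i : ℝ)) ∧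
      (ev (push G t x') (map t F)).orderTop = (∑ i, (α i : ℝ) * w' i : ℝ) ∧
      ∑ i, ((γ i : ℝ) + 1) * w' i ≤ a

/-- **CH2**: the data do not depend on the point -/
def CH2 : Prop := ∀ (N : ℕ) (A : Type) [CommRing A] (F : MvPowerSeries (Fin N) A) G α γ μ,
  Cht F G α γ μ → ∀ (t t' : A →+* ℂ) (x' : Fin N → HS) (l : Fin N → ℝ →+ ℂ), Pos x' →
    Pos (push G t x') ∧ (∀ j, (push G t x' j).orderTop = (push G t' x' j).orderTop) ∧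
      (ev (push G t x') (map t F)).orderTop = (ev (push G t' x') (map t' F)).orderTop ∧
      (Jd l (push G t x')).orderTop = (Jd l (push G t' x')).orderTop

/-- **CH3**: the integral arcs of a chart -/
def CH3 : Prop := ∀ (N : ℕ) (k A : Type) [Field k] [CommRing A] [IsDomain A] (ι : k →+* A)
  (f : MvPowerSeries (Fin N) k) G α γ μ, Cht (map ι f) G α γ μ → ∀ w : Fin N → ℕ,
    (∀ j, 0 < ∑ i, μ j i * w i) →
      IR k f (∑ i, (γ i + 1) * w i) (∑ i, α i * w i) fun j => ∑ i, μ j i * w i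

/-- **MON**: monomial arcs -/
def MON : Prop := ∀ (N : ℕ) (k : Type) [Field k] (f : MvPowerSeries (Fin N) k) (w : Fin N → ℕ),
  (∀ j, 0 < w j) → IR k f (∑ j, w j) 0 w ∧ ∀ E, IR k (0 : MvPowerSeries (Fin N) k) (∑ j, w j) E w

/-- **HR0**: there is a Hahn arc -/
def HR0 : Prop := ∀ N : ℕ, ∃ (x : Fin N → HS) (l : Fin N → ℝ →+ ℂ), Pos x ∧ Jd l x ≠ 0

/-- **EMB**: the ultrapower embeds into the complex numbers -/
def EMB : Prop := ∀ 𝒰 : Ultrafilter ℕ, Nonempty (UK 𝒰 →+* ℂ)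

/-- **PA**: from a place to a Hahn arc -/
def PA : Prop := ∀ (N : ℕ) (F : Type) [Field F] [Algebra ℂ F], FF F N → ∀ z : Fin N → F,
  AlgebraicIndependent ℂ z → ∀ P : Pl F, (∀ j, 0 < P.ord (z j)) →
    ∀ (g : MvPolynomial (Fin N) ℂ) (E η : ℝ), 0 < η →
      g = 0 ∨ E ≤ P.ord (MvPolynomial.aeval z g) →
      HR ℂ (g : MvPowerSeries (Fin N) ℂ) (A0 z P + η) E fun j => P.ord (z j)

/-- **AP**: from an integral arc to a place -/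
def AP : Prop := ∀ (N : ℕ) (κ : Type) [Field κ] [Algebra ℂ κ] (x : Fin N → PowerSeries κ)
  (δ : Fin N → Derivation ℂ κ κ) (a : ℕ) (w : Fin N → ℕ), 0 < N → IA x δ a w →
    ∃ (P : Pl (K0 N)) (e : ℕ), 0 < e ∧ e * A0 (z0 N) P ≤ a ∧
      ∀ p : MvPolynomial (Fin N) ℂ, p ≠ 0 → ∃ d : ℕ, (MvPolynomial.aeval x p).order = d ∧
        (e : ℤ) * P.ord (MvPolynomial.aeval (z0 N) p) = d

/-- **TD**: from the limit down to the levels -/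
def TD : Prop := ∀ (N : ℕ) (𝒰 : Ultrafilter ℕ) (f : ℕ → MvPowerSeries (Fin N) ℂ) (a E : ℕ)
  (w : Fin N → ℕ), IR (UK 𝒰) (ulim 𝒰 f) a E w → ∀ᶠ i in (𝒰 : Filter ℕ), IR ℂ (f i) a E w

/-- **TW**: the twist of an integral arc -/
def TW : Prop := ∀ (N : ℕ) (f : MvPowerSeries (Fin N) ℂ) (a E : ℕ) (w : Fin N → ℕ), 0 < N →
  IR ℂ f a E w → ∀ (M : AddSubgroup (Fin N → ℤ)) (b χ : Fin N → ℤ) (r k : ℕ), 0 < r → E ≤ k →
    (∀ m ∈ M, (r : ℤ) ∣ ∑ j, χ j * m j) → (∀ j, 0 < (r : ℤ) * w j + χ j) →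
    (∀ m : Fin N →₀ ℕ, m.degree < k → coeff m f ≠ 0 → ∑ j, χ j * m j = ∑ j, χ j * b j) →
    ∃ (P : Pl (K0 N)) (e : ℕ) (v : Fin N → ℕ), 0 < e ∧ Zv M P r e ∧ (∀ j, w j ≤ v j) ∧
      (∀ j, (e : ℤ) * P.ord (z0 N j) = r * v j + χ j) ∧
      e * A0 (z0 N) P ≤ r * a + ∑ j, (χ j : ℝ) ∧
      (truncTotal k f = 0 ∨ (r : ℤ) * E + ∑ j, χ j * b j ≤
        e * P.ord (MvPolynomial.aeval (z0 N) (truncTotal k f)))

/-- **PP**: the inequality (P) for the limit -/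
def PP : Prop := ∀ (N Q : ℕ) (ε : ℝ) (𝒰 : Ultrafilter ℕ) (M : ℕ → AddSubgroup (Fin N → ℤ))
  (f : ℕ → MvPowerSeries (Fin N) ℂ) (b : Fin N → ℤ), 0 < N → 0 < Q → (∀ i, Fi (M i)) →
  (∀ i, Hy Q ε (M i) (f i)) →
  (∀ m, coeff m (ulim 𝒰 f) ≠ 0 → (fun j => (m j : ℤ) - b j) ∈ limLat 𝒰 M) →
    PK Q ε (limLat 𝒰 M) b (ulim 𝒰 f)

/-- **VER**: the vertices -/
def VER : Prop := ∀ (N Q : ℕ) (L : AddSubgroup (Fin N → ℤ)) (b : Fin N → ℤ), 0 < Q →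
  ∃ (n : ℕ) (C : Finset (Fin N → ℕ)), 0 < n ∧ Q ∣ n ∧ Chr Q n L b C ∧
    ∀ (ε : ℝ) (k : Type) [Field k] (f : MvPowerSeries (Fin N) k), PK Q ε L b f → PV Q n ε C f

/-- **OC**: clause (c), and the series is not zero -/
def OC : Prop := ∀ (N Q n : ℕ) (ε : ℝ) (C : Finset (Fin N → ℕ)) (k : Type) [Field k]
  (f : MvPowerSeries (Fin N) k), 0 < Q → 0 < n → 0 < ε → PV Q n ε C f → OutC n C ∧ f ≠ 0

/-- **ATT**: the infimum is attained and positive -/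
def ATT : Prop := ∀ (N Q n : ℕ) (ε : ℝ) (C : Finset (Fin N → ℕ)) (𝒰 : Ultrafilter ℕ)
  (f : MvPowerSeries (Fin N) (UK 𝒰)), 0 < N → 0 < Q → 0 < n → 0 < ε → f ≠ 0 → PV Q n ε C f →
    ∃ c₀ : ℝ, 0 < c₀ ∧ LB Q n C c₀ f ∧ AT Q n C c₀ f

/-- **TU**: from the limit up to the truncated ideals of the levels -/
def TU : Prop := ∀ (N Q n k : ℕ) (C : Finset (Fin N → ℕ)) (c₀ : ℝ) (𝒰 : Ultrafilter ℕ)
  (f : ℕ → MvPowerSeries (Fin N) ℂ), 0 < Q → truncTotal k (ulim 𝒰 f) ≠ 0 →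
    LB Q n C c₀ (ulim 𝒰 f) → ∀ᶠ i in (𝒰 : Filter ℕ), LT Q n k C c₀ (truncTotal k (f i))

/-- **OA**: clause (a) -/
def OA : Prop := ∀ (N Q n k : ℕ) (C : Finset (Fin N → ℕ)) (c₀ : ℝ) (g : MvPolynomial (Fin N) ℂ),
  LT Q n k C c₀ g → OutA Q n g k C c₀

/-- **OB**: clause (b) -/
def OB : Prop := ∀ (N Q n : ℕ) (C : Finset (Fin N → ℕ)) (c₀ : ℝ) (𝒰 : Ultrafilter ℕ)
  (f : ℕ → MvPowerSeries (Fin N) ℂ), 0 < N → 0 < Q → 0 < n → 0 ≤ c₀ → AT Q n C c₀ (ulim 𝒰 f) →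
    ∃ (ρ : ℝ) (k₀ : ℕ), ∀ k, k₀ ≤ k →
      ∀ᶠ i in (𝒰 : Filter ℕ), OutB Q n (truncTotal k (f i)) k C c₀ ρ

/-- **SCL**: multiples -/
def SCL : Prop := ∀ (N Q n r : ℕ) (M : AddSubgroup (Fin N → ℤ)) (b : Fin N → ℤ)
  (f : MvPowerSeries (Fin N) ℂ), 0 < n → 0 < r → Q ∣ n → Out Q n M b f → Out Q (r * n) M b f

/-- **LIM**: from (P) for the limit to the conclusion at the levels (any subgroups) -/
def LIM : Prop := ∀ (N Q : ℕ) (ε : ℝ) (𝒰 : Ultrafilter ℕ) (M : ℕ → AddSubgroup (Fin N → ℤ))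
  (f : ℕ → MvPowerSeries (Fin N) ℂ) (b : Fin N → ℤ), 0 < N → 0 < Q → 0 < ε →
  PK Q ε (limLat 𝒰 M) b (ulim 𝒰 f) →
    ulim 𝒰 f ≠ 0 ∧ ∃ n : ℕ, 0 < n ∧ Q ∣ n ∧ ∀ᶠ i in (𝒰 : Filter ℕ), Out Q n (M i) b (f i)

end Vale.Agent.P283R.Co
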