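import Vale.Agent.P287D.Cb.Kap
import Vale.Agent.P287D.Pb.Abh0

/-!
# From arcs to places: a discrete valuation with a finite logarithmic Jacobian is divisorial
-/

open Set IsLocalRing Polynomial
open Vale.Agent.P297 (Place)
open Vale.Agent.P285N.Brep (jac Fr)
open Vale.Agent.P297Z Vale.Agent.P287D Vale.Agent.P287D.Cb

noncomputable section

namespace Vale.Agent.P283R.Ap

variable {K F : Type} [Field K] [Field F] {v : AddValuation F (WithTop ℝ)} {φ : K →+* F}

theorem exists_val (v : AddValuation F (WithTop ℝ)) {a : F} (h : a ≠ 0) : ∃ r : ℝ, v a = r :=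
  (WithTop.ne_top_iff_exists.1 (v.ne_top_iff.2 h)).imp fun _ => Eq.symm

theorem val_inv {a : F} {r : ℝ} (h : v a = r) : v a⁻¹ = (-r : ℝ) := by
  have a0 : a ≠ 0 := v.ne_top_iff.1 (h ▸ WithTop.coe_ne_top)
  obtain ⟨s, hs⟩ := exists_val v (inv_ne_zero a0)
  have := v.map_mul a a⁻¹
  rw [mul_inv_cancel₀ a0, v.map_one, h, hs, ← WithTop.coe_add, ← WithTop.coe_zero,
    WithTop.coe_inj] at this
  rw [hs, WithTop.coe_inj]
  linarith

theorem val_zpow {a : F} {r : ℝ} (h : v a = r) (n : ℤ) : v (a ^ n) = (r * n : ℝ) := by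
  have k : ∀ m : ℕ, v (a ^ m) = (r * m : ℝ) := fun m => by
    rw [v.map_pow, h, ← WithTop.coe_nsmul, nsmul_eq_mul, mul_comm]
  obtain ⟨m, rfl | rfl⟩ := n.eq_nat_or_neg
  · rw [zpow_natCast, k, Int.cast_natCast]
  · rw [zpow_neg, zpow_natCast, val_inv (k m), Int.cast_neg, Int.cast_natCast, mul_neg]

theorem val_prod (v : AddValuation F (WithTop ℝ)) {ι : Type} (s : Finset ι) (a : ι → F) :
    v (∏ i ∈ s, a i) = ∑ i ∈ s, v (a i) := by
  classical
  induction s using Finset.induction_on with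
  | empty => simp
  | insert i s hi ih => rw [Finset.sum_insert hi, Finset.prod_insert hi, v.map_mul, ih]

theorem val_int (v : AddValuation F (WithTop ℝ)) (n : ℤ) : 0 ≤ v n := by
  have k : ∀ m : ℕ, 0 ≤ v m := fun m => by
    induction m with
    | zero => simp
    | succ m ih => rw [Nat.cast_succ]; exact v.map_le_add ih (by simp)
  obtain ⟨m, rfl | rfl⟩ := n.eq_nat_or_neg
  · simpa using k m
  · simpa using k m

theorem le_det {ι : Type} [Fintype ι] [DecidableEq ι] {a : Matrix ι ι F} {w : ι → WithTop ℝ}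
    (h : ∀ i j, w j ≤ v (a i j)) : ∑ j, w j ≤ v a.det := by
  rw [Matrix.det_apply']
  refine v.map_le_sum fun σ _ => ?_
  rw [v.map_mul, val_prod]
  exact le_trans (Finset.sum_le_sum fun j _ => h _ j) (le_add_of_nonneg_left (val_int v _))

variable (v φ) in
/-- the valuation ring of the restriction -/
def vr : ValuationSubring K where
  carrier := {x | 0 ≤ v (φ x)}
  mul_mem' := fun {a b} (ha : 0 ≤ v _) (hb : 0 ≤ v _) => by
    change 0 ≤ v _
    rw [map_mul, v.map_mul]
    exact add_nonneg ha hb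
  one_mem' := by change 0 ≤ v _; simp
  add_mem' := fun {a b} (ha : 0 ≤ v _) (hb : 0 ≤ v _) => by
    change 0 ≤ v _
    rw [map_add]
    exact v.map_le_add ha hb
  zero_mem' := by change 0 ≤ v _; simp
  neg_mem' := fun {a} (ha : 0 ≤ v _) => by
    change 0 ≤ v _
    rwa [map_neg, v.map_neg]
  mem_or_inv_mem' a := by
    change 0 ≤ v _ ∨ 0 ≤ v _
    by_cases a0 : a = 0
    · simp [a0]
    obtain ⟨r, hr⟩ := exists_val v ((map_ne_zero φ).2 a0)
    rw [map_inv₀, val_inv hr, hr]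
    rcases le_total 0 r with h | h
    · exact Or.inl (by exact_mod_cast h)
    · exact Or.inr (by exact_mod_cast neg_nonneg.2 h)

theorem mem_vr {x : K} : x ∈ vr v φ ↔ 0 ≤ v (φ x) := Iff.rfl

theorem dvr {δ : ℝ} (hδ : 0 < δ) (hd : ∀ g, g ≠ 0 → ∃ n : ℤ, v (φ g) = (n * δ : ℝ))
    (hn : ∃ g, g ≠ 0 ∧ 0 < v (φ g)) : IsDiscreteValuationRing (vr v φ) := by
  classical
  have hN : ∀ a : vr v φ, a ≠ 0 → ∃ n : ℕ, v (φ a) = (n * δ : ℝ) := fun a h0 => by
    obtain ⟨n, hn⟩ := hd a fun h => h0 (Subtype.ext h)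
    have h1 : 0 ≤ v (φ a) := a.2
    rw [hn] at h1
    have h2 : (0 : ℝ) ≤ n := nonneg_of_mul_nonneg_left (by exact_mod_cast h1) hδ
    lift n to ℕ using by exact_mod_cast h2
    exact ⟨n, by simpa using hn⟩
  have hp : IsPrincipalIdealRing (vr v φ) := ⟨fun I => by
    by_cases hI : I = ⊥
    · rw [hI]; exact bot_isPrincipal
    have hex : ∃ n : ℕ, ∃ a ∈ I, a ≠ 0 ∧ v (φ a) = (n * δ : ℝ) := by
      obtain ⟨a, ha, h0⟩ := (Submodule.ne_bot_iff I).1 hI
      obtain ⟨n, hn⟩ := hN a h0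
      exact ⟨n, a, ha, h0, hn⟩
    obtain ⟨a, ha, h0, hn⟩ := Nat.find_spec hex
    have ha0 : (a : K) ≠ 0 := fun h => h0 (Subtype.ext h)
    refine ⟨a, le_antisymm (fun b hb => ?_) ((Submodule.span_singleton_le_iff_mem _ _).2 ha)⟩
    by_cases hb0 : b = 0
    · rw [hb0]; exact Submodule.zero_mem _
    obtain ⟨m, hm⟩ := hN b hb0
    have h1 : ((Nat.find hex : ℕ) : ℝ) ≤ m := by exact_mod_cast Nat.find_min' hex ⟨b, hb, hb0, hm⟩
    have h3 : (b : K) / a ∈ vr v φ := by
      rw [mem_vr, div_eq_mul_inv, map_mul, map_inv₀, v.map_mul, val_inv hn, hm,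
        ← WithTop.coe_add, ← WithTop.coe_zero, WithTop.coe_le_coe]
      nlinarith
    exact Submodule.mem_span_singleton.2 ⟨⟨_, h3⟩, Subtype.ext (div_mul_cancel₀ _ ha0)⟩⟩
  obtain ⟨g, g0, hg⟩ := hn
  refine { not_a_field' := fun hb => ?_ }
  have h1 : (⟨g, hg.le⟩ : vr v φ) ∈ maximalIdeal (vr v φ) := by
    rw [mem_maximalIdeal, mem_nonunits_iff]
    intro hu
    obtain ⟨b, hb⟩ := hu.exists_right_inv
    have h1 : g * b = 1 := congrArg (fun z : vr v φ => (z : K)) hb
    have h2 := congrArg (fun z => v (φ z)) h1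
    simp only [map_mul, map_one, v.map_mul, v.map_one] at h2
    exact (add_pos_of_pos_of_nonneg hg b.2).ne' h2
  rw [hb, Ideal.mem_bot] at h1
  exact g0 (congrArg Subtype.val h1)

theorem val_eq {P : Place K} (hP : ∀ x, x ∈ P.ring ↔ 0 ≤ v (φ x)) :
    ∃ e : ℝ, 0 < e ∧ ∀ g, g ≠ 0 → v (φ g) = (e * P.ord g : ℝ) := by
  obtain ⟨t, t0, ht⟩ := Pl.exists_ord_eq_one P
  obtain ⟨e, he⟩ := exists_val v ((map_ne_zero φ).2 t0)
  refine ⟨e, ?_, fun g g0 => ?_⟩
  · by_contra h
    have : t⁻¹ ∈ P.ring := by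
      rw [hP, map_inv₀, val_inv he]
      exact_mod_cast neg_nonneg.2 (not_lt.1 h)
    have := Pl.ord_nonneg_of_mem _ this
    rw [Pl.ord_inv, ht] at this
    omega
  · have hz : t ^ P.ord g ≠ 0 := zpow_ne_zero _ t0
    have hu : P.ord (g / t ^ P.ord g) = 0 := by
      rw [Pl.ord_div _ g0 hz, Pl.ord_zpow, ht]; ring
    obtain ⟨h1, h2⟩ := (Pl.ord_eq_zero_iff _ (div_ne_zero g0 hz)).1 hu
    obtain ⟨r, hr⟩ := exists_val v ((map_ne_zero φ).2 (div_ne_zero g0 hz))
    rw [hP, hr] at h1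
    rw [hP, map_inv₀, val_inv hr] at h2
    have r0 : r = 0 := le_antisymm (neg_nonneg.1 (by exact_mod_cast h2)) (by exact_mod_cast h1)
    rw [← div_mul_cancel₀ g hz, map_mul, v.map_mul, hr, r0, map_zpow₀, val_zpow he,
      div_mul_cancel₀ g hz]
    simp

theorem sep {R κ : Type} [CommRing R] [Field κ] [CharZero κ] (ρ : R →+* κ) (c : κ) (p : R[X])
    (h0 : p.map ρ ≠ 0) (h : p.eval₂ ρ c = 0) :
    ∃ q : R[X], q.eval₂ ρ c = 0 ∧ (derivative q).eval₂ ρ c ≠ 0 := by
  induction hm : p.natDegree using Nat.strong_induction_on generalizing p with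
  | _ m ih =>
  by_cases h1 : (derivative p).eval₂ ρ c = 0
  swap
  · exact ⟨p, h, h1⟩
  have k : (p.map ρ).natDegree ≠ 0 := fun e => by
    rw [eval₂_eq_eval_map, eq_C_of_natDegree_eq_zero e, eval_C] at h
    exact h0 (by rw [eq_C_of_natDegree_eq_zero e, h, map_zero])
  refine ih _ ?_ (derivative p) ?_ h1 rfl
  · exact hm ▸ natDegree_derivative_lt fun e => k (Nat.le_zero.1 (e ▸ natDegree_map_le))
  · rw [← derivative_map]
    exact fun e => k (derivative_eq_zero.1 e)

theorem der_eval {R : Type} [CommRing R] {D : K → F} (h : Dr φ D) (i : R →+* K)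
    (hi : ∀ a, D (i a) = 0) (c : K) (p : R[X]) :
    D (p.eval₂ i c) = φ ((derivative p).eval₂ i c) * D c := by
  have := h.aeval c (p.map (i.codRestrict h.ker hi))
  rwa [derivative_map, aeval_def, aeval_def, eval₂_map, eval₂_map] at this

variable [Algebra ℂ K]

/-- a bounded derivation which kills a uniformizer and lifts of a transcendence basis of the
residue field is zero -/
theorem kill {P : Place K} (hP : ∀ x, x ∈ P.ring ↔ 0 ≤ v (φ x))
    (con : ∀ c, algebraMap ℂ K c ∈ P.ring) [Algebra ℂ (ResidueField P.ring)]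
    (ha : ∀ a, algebraMap ℂ _ a = residue P.ring ⟨algebraMap ℂ K a, con a⟩) {ι : Type}
    {y : ι → P.ring} (hy : IsTranscendenceBasis ℂ fun i => residue P.ring (y i)) {D : K → F}
    (h : Dr φ D) (hc : ∀ c, D (algebraMap ℂ K c) = 0) (h1 : ∀ i, D (y i) = 0) {t : K}
    (ht : P.ord t = 1) (h2 : D t = 0) {C : ℝ} (hb : ∀ x ∈ P.ring, (C : WithTop ℝ) ≤ v (D x))
    (x : K) : D x = 0 := by
  have : CharZero (ResidueField P.ring) :=
    charZero_of_injective_algebraMap (algebraMap ℂ _).injective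
  obtain ⟨e, e0, he⟩ := val_eq hP
  have t0 : t ≠ 0 := fun e => by simp [e] at ht
  let R : Subring P.ring := h.ker.toSubring.comap P.ring.subtype
  let ρ : R →+* ResidueField P.ring := (residue P.ring).comp R.subtype
  have sur : ∀ a ∈ Algebra.adjoin ℂ (range fun i => residue P.ring (y i)), a ∈ ρ.range := by
    intro a ha'
    induction ha' using Algebra.adjoin_induction with
    | mem a k => obtain ⟨i, rfl⟩ := k; exact ⟨⟨y i, h1 i⟩, rfl⟩
    | algebraMap a => exact ⟨⟨⟨_, con a⟩, hc a⟩, (ha a).symm⟩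
    | add a b _ _ ha hb => exact add_mem ha hb
    | mul a b _ _ ha hb => exact mul_mem ha hb
  have step : ∀ c ∈ P.ring, ∃ c' ∈ P.ring, v (D c) = e + v (D c') := fun c hc => by
    obtain ⟨p, p0, hp⟩ := hy.isAlgebraic.isAlgebraic (residue P.ring ⟨c, hc⟩)
    obtain ⟨q, hq⟩ : ∃ q : R[X], q.map ρ = p.map (algebraMap _ _) := by
      rw [← mem_lifts, lifts_iff_coeff_lifts]
      intro n
      rw [coeff_map]
      exact sur _ (p.coeff n).2
    obtain ⟨r, r0, r1⟩ := sep ρ (residue P.ring ⟨c, hc⟩) q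
      (hq ▸ (Polynomial.map_ne_zero_iff Subtype.val_injective).2 p0)
      (by rw [eval₂_eq_eval_map, hq, eval_map_algebraMap, hp])
    have ev : ∀ s : R[X], s.eval₂ ρ (residue P.ring ⟨c, hc⟩) =
        residue P.ring (s.eval₂ R.subtype ⟨c, hc⟩) := fun s => (hom_eval₂ _ _ _ _).symm
    have ev' : ∀ s : R[X], ((s.eval₂ R.subtype ⟨c, hc⟩ : P.ring) : K) =
        s.eval₂ (P.ring.subtype.comp R.subtype) c := fun s => hom_eval₂ _ _ P.ring.subtype _
    have k := der_eval h (P.ring.subtype.comp R.subtype) (fun a => a.2) c r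
    rw [← ev', ← ev'] at k
    rw [ev] at r0 r1
    generalize r.eval₂ R.subtype ⟨c, hc⟩ = a at r0 k
    generalize (derivative r).eval₂ R.subtype ⟨c, hc⟩ = b at r1 k
    rw [residue_eq_zero_iff, Pl.mem_maximalIdeal_iff] at r0
    rw [Ne, residue_eq_zero_iff, Pl.mem_maximalIdeal_iff, not_or] at r1
    have b0 : P.ord (b : K) = 0 := le_antisymm (not_lt.1 r1.2) (Pl.ord_nonneg_of_mem _ b.2)
    refine ⟨a / t, ?_, ?_⟩
    · by_cases a0 : (a : K) = 0
      · simp [a0, zero_mem]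
      · rw [← Pl.ord_nonneg_iff _ (div_ne_zero a0 t0), Pl.ord_div _ a0 t0, ht]
        have := r0.resolve_left a0
        omega
    · have k2 := h.mul t (a / t)
      rw [mul_div_cancel₀ _ t0, h2, mul_zero, add_zero, k] at k2
      have k3 := congrArg v k2
      rw [v.map_mul, v.map_mul, he _ r1.1, he _ t0, b0, ht] at k3
      simpa using k3
  have all : ∀ m : ℕ, ∀ c ∈ P.ring, ((m * e + C : ℝ) : WithTop ℝ) ≤ v (D c) := fun m => by
    induction m with
    | zero => simpa using hb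
    | succ m ih =>
      intro c hc
      obtain ⟨c', k1, k2⟩ := step c hc
      rw [k2, show ((m + 1 : ℕ) * e + C : ℝ) = e + (m * e + C) by push_cast; ring,
        WithTop.coe_add]
      exact add_le_add_right (ih c' k1) _
  have z : ∀ c ∈ P.ring, D c = 0 := fun c hc => by
    by_contra k
    obtain ⟨r, hr⟩ := exists_val v k
    obtain ⟨m, hm⟩ := exists_nat_gt ((r - C) / e)
    have := all m c hc
    rw [hr, WithTop.coe_le_coe] at this
    rw [div_lt_iff₀ e0] at hm
    linarith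
  rcases P.ring.mem_or_inv_mem x with k | k
  · exact z x k
  · exact inv_inv x ▸ h.ker.inv_mem (z _ k)

variable {N : ℕ}

/-- **arcs give places** -/
theorem arc_place (hK : FF K N) (z : Fin N → K) {d : Fin N → K → F} (hd : ∀ k, Dr φ (d k))
    (hc : ∀ k c, d k (algebraMap ℂ K c) = 0) (hl : ∀ k x, v (φ x) ≤ v (d k x))
    (con : ∀ c, 0 ≤ v (φ (algebraMap ℂ K c))) {δ : ℝ} (hδ : 0 < δ)
    (dis : ∀ g, g ≠ 0 → ∃ n : ℤ, v (φ g) = (n * δ : ℝ)) (hn : ∃ g, g ≠ 0 ∧ 0 < v (φ g))
    (h0 : (Matrix.of fun k j => d k (z j)).det ≠ 0) :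
    ∃ (P : Pl K) (e : ℝ), 0 < e ∧ (∀ g, g ≠ 0 → v (φ g) = (e * P.ord g : ℝ)) ∧
      ((e * (1 + kap z P) : ℝ) : WithTop ℝ) ≤ v (Matrix.of fun k j => d k (z j)).det := by
  classical
  let P₀ : Place K := ⟨vr v φ, dvr hδ dis hn⟩
  have hP : ∀ x, x ∈ P₀.ring ↔ 0 ≤ v (φ x) := fun _ => Iff.rfl
  obtain ⟨e, e0, he⟩ := val_eq hP
  let _ : Algebra ℂ (ResidueField P₀.ring) := (cst P₀ con).toAlgebra
  have dvl : Algebra.trdeg ℂ (ResidueField P₀.ring) + 1 = Algebra.trdeg ℂ K := by
    have le := Pb.res_lt (Pl.ring_ne_top P₀) con fun _ => rfl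
    refine le.antisymm (not_lt.1 fun lt => h0 ?_)
    obtain ⟨s, hs⟩ := exists_isTranscendenceBasis ℂ (ResidueField P₀.ring)
    rw [← hs.cardinalMk_eq_trdeg, hK.trdeg, ← Cardinal.mk_option] at lt
    have : Finite (Option s) :=
      Cardinal.lt_aleph0_iff_finite.1 (lt.trans Cardinal.natCast_lt_aleph0)
    have := Fintype.ofFinite (Option s)
    rw [Cardinal.mk_fintype, Nat.cast_lt] at lt
    choose y hy using fun i : s => residue_surjective (i : ResidueField P₀.ring)
    obtain ⟨t, -, ht⟩ := Pl.exists_ord_eq_one P₀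
    have dep : ¬ LinearIndependent F fun (k : Fin N) (o : Option s) =>
        d k (o.elim t fun i => y i) := fun li => by
      have := li.fintype_card_le_finrank
      rw [Module.finrank_fintype_fun_eq_card, Fintype.card_fin] at this
      exact not_le.2 lt (this.trans_eq (Fintype.card_congr (Equiv.refl _)))
    obtain ⟨l, l0, k, lk⟩ := Fintype.not_linearIndependent_iff.1 dep
    have l1 : ∀ o : Option s, ∑ k, l k * d k (o.elim t fun i => y i) = 0 := fun o => by
      simpa using congrFun l0 o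
    obtain ⟨C, hC⟩ : ∃ C : ℝ, ∀ k, (C : WithTop ℝ) ≤ v (l k) := by
      have : ∀ k, ∃ C : ℝ, (C : WithTop ℝ) ≤ v (l k) := fun k => by
        by_cases a : l k = 0
        · exact ⟨0, by simp [a]⟩
        · exact (exists_val v a).imp fun _ h => h.ge
      choose c hc using this
      obtain ⟨C, hC⟩ := (finite_range c).bddBelow
      exact ⟨C, fun k => le_trans (WithTop.coe_le_coe.2 (hC ⟨k, rfl⟩)) (hc k)⟩
    have z0 := kill hP con (fun _ => rfl) (y := y) (funext hy ▸ hs)
      (D := fun x => ∑ k, l k * d k x)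
      ⟨fun x y => by simp only [(hd _).add, mul_add, Finset.sum_add_distrib], fun x y => by
        simp only [(hd _).mul, mul_add, Finset.sum_add_distrib, Finset.mul_sum, mul_left_comm]⟩
      (fun c => by simp [hc]) (fun i => l1 (some i)) ht (l1 none) (C := C) fun x hx =>
        v.map_le_sum fun k _ => by
          rw [v.map_mul]
          exact le_trans (hC k) (le_add_of_nonneg_right (le_trans hx (hl k x)))
    rw [← Matrix.exists_vecMul_eq_zero_iff]
    exact ⟨l, fun e => lk (congrFun e k), funext fun j => z0 (z j)⟩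
  let P : Pl K := ⟨P₀, con, dvl⟩
  refine ⟨P, e, e0, he, ?_⟩
  rcases N with _ | n
  · exact (no_pl hK P).elim
  obtain ⟨u, a⟩ := exists_ada hK P
  obtain ⟨D, h⟩ := a.ad hK
  have ch : (Matrix.of fun k j => d k (z j)).det =
      (Matrix.of fun k j => d k ((Fin.cons P.t u : Fin (n + 1) → K) j)).det * φ (jac D z) := by
    rw [jac, RingHom.map_det, ← Matrix.det_mul]
    congr 1
    ext i j
    rw [Matrix.mul_apply]
    exact expand (hd i) (hc i) h.fr (z j)
  rw [ch] at h0 ⊢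
  have k := le_det (v := v) (a := Matrix.of fun k j => d k ((Fin.cons P.t u : Fin (n + 1) → K) j))
    (w := fun j => v (φ ((Fin.cons P.t u : Fin (n + 1) → K) j))) fun i j => hl i _
  rw [Fin.sum_univ_succ, Fin.cons_zero, he _ a.ne] at k
  rw [v.map_mul, he _ ((map_ne_zero φ).1 (right_ne_zero_of_mul h0)), kap_eq h, mul_add,
    WithTop.coe_add]
  refine add_le_add_left (le_trans ?_ k) _
  have o : P₀.ord P.t = 1 := a.ord
  rw [o, Int.cast_one]
  exact le_add_of_nonneg_right (Finset.sum_nonneg fun i _ => a.mem i)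

theorem exists_hom [Algebra ℂ F] {ι : Type} {z : ι → K} (hz : AlgebraicIndependent ℂ z)
    (hg : IntermediateField.adjoin ℂ (range z) = ⊤) {x : ι → F}
    (hx : AlgebraicIndependent ℂ x) : ∃ ψ : K →ₐ[ℂ] F, ∀ j, ψ (z j) = x j := by
  let a := hz.aevalEquivField.trans (IntermediateField.equivOfEq hg) |>.trans
    IntermediateField.topEquiv
  let b := (IntermediateField.adjoin ℂ (range x)).val.comp hx.aevalEquivField.toAlgHom
  refine ⟨b.comp a.symm.toAlgHom, fun j => ?_⟩
  have e : a (algebraMap (MvPolynomial ι ℂ) _ (MvPolynomial.X j)) = z j := by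
    exact (hz.aevalEquivField_algebraMap_apply_coe _).trans (MvPolynomial.aeval_X _ _)
  change b (a.symm (z j)) = x j
  rw [← e, a.symm_apply_apply]
  exact (hx.aevalEquivField_algebraMap_apply_coe _).trans (MvPolynomial.aeval_X _ _)

theorem ff_of_top {z : Fin N → K} (hz : AlgebraicIndependent ℂ z)
    (hg : IntermediateField.adjoin ℂ (range z) = ⊤) : FF K N :=
  ⟨z, hz, hg ▸ Module.Finite.of_surjective (Algebra.linearMap _ K) fun a => ⟨⟨a, trivial⟩, rfl⟩⟩

/-- **arcs give places**, for the field of rational functions -/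
theorem arc_place' [Algebra ℂ F] {z : Fin N → K} (hz : AlgebraicIndependent ℂ z)
    (hg : IntermediateField.adjoin ℂ (range z) = ⊤) (x : Fin N → F)
    (θ : Fin N → Derivation ℂ F F) (hl : ∀ k a, v a ≤ v (θ k a))
    (con : ∀ c, 0 ≤ v (algebraMap ℂ F c)) {δ : ℝ} (hδ : 0 < δ)
    (dis : ∀ p : MvPolynomial (Fin N) ℂ, MvPolynomial.aeval x p ≠ 0 →
      ∃ n : ℤ, v (MvPolynomial.aeval x p) = (n * δ : ℝ))
    (hn : ∃ j, 0 < v (x j)) (h0 : (Matrix.of fun k j => θ k (x j)).det ≠ 0) :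
    ∃ (P : Pl K) (e : ℝ), 0 < e ∧
      (∀ p : MvPolynomial (Fin N) ℂ, p ≠ 0 →
        v (MvPolynomial.aeval x p) = (e * P.ord (MvPolynomial.aeval z p) : ℝ)) ∧
      ((e * (1 + kap z P) : ℝ) : WithTop ℝ) ≤ v (Matrix.of fun k j => θ k (x j)).det := by
  have : CharZero F := charZero_of_injective_algebraMap (algebraMap ℂ F).injective
  have hx : AlgebraicIndependent ℂ x := P285N.Brep.TbAux.ind θ x h0
  obtain ⟨ψ, hψ⟩ := exists_hom hz hg hx
  have ev : ∀ p : MvPolynomial (Fin N) ℂ, (ψ : K →+* F) (MvPolynomial.aeval z p) = MvPolynomial.aeval x p := fun p => by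
    rw [RingHom.coe_coe, ← AlgHom.comp_apply, MvPolynomial.comp_aeval, funext hψ]
  have e : (fun k j => θ k ((ψ : K →+* F) (z j))) = fun k j => θ k (x j) := by
    simp only [RingHom.coe_coe, hψ]
  obtain ⟨P, e', e0, h1, h2⟩ := arc_place (v := v) (φ := (ψ : K →+* F)) (ff_of_top hz hg) z
    (d := fun k y => θ k ((ψ : K →+* F) y))
    (fun k => ⟨fun a b => by rw [map_add, map_add], fun a b => by
      rw [map_mul, Derivation.leibniz, smul_eq_mul, smul_eq_mul]⟩)
    (fun k c => by simp) (fun k y => hl k _) (fun c => by simpa using con c) hδ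
    (fun g g0 => by
      obtain ⟨r, s, rfl⟩ := (IntermediateField.mem_adjoin_range_iff ℂ z g).1 (hg ▸ trivial)
      obtain ⟨r0, s0⟩ := div_ne_zero_iff.1 g0
      obtain ⟨a, ha⟩ := dis r (ev r ▸ (_root_.map_ne_zero _).2 r0)
      obtain ⟨b, hb⟩ := dis s (ev s ▸ (_root_.map_ne_zero _).2 s0)
      refine ⟨a - b, ?_⟩
      rw [div_eq_mul_inv, map_mul, map_inv₀, ev, ev, v.map_mul, val_inv hb, ha, ← WithTop.coe_add,
        WithTop.coe_inj]
      push_cast
      ring)
    (hn.elim fun j hj => ⟨z j, hz.ne_zero j, by rwa [RingHom.coe_coe, hψ]⟩) (by rwa [e])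
  refine ⟨P, e', e0, fun p hp => ?_, by rwa [e] at h2⟩
  rw [← ev]
  exact h1 _ fun k => hp (algebraicIndependent_iff.1 hz p k)

end Vale.Agent.P283R.Ap
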