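import Vale.Agent.P283R.Co.St
import Vale.Agent.P283R.Lp.A
import Vale.Agent.P283M.U.Alg

/-!
# P283R, CORE: the infimum over the Hahn arcs is positive and attained by an integral arc
-/

attribute [-instance] HahnSeries.powerSeriesAlgebra

open Filter MvPowerSeries

noncomputable section

namespace Vale.Agent.P283R.Co

/-- a minimising sequence -/
theorem exists_minseq (S : Set ℝ) : ∃ u : ℕ → ℝ, (S.Nonempty → ∀ i, u i ∈ S) ∧
    ∀ c : ℝ, (∀ᶠ i in (hyperfilter ℕ : Filter ℕ), c ≤ u i) → ∀ s ∈ S, c ≤ s := by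
  rcases S.eq_empty_or_nonempty with rfl | hS
  · exact ⟨fun _ => 0, fun h => absurd h (by simp), fun _ _ _ h => h.elim⟩
  have hf : (hyperfilter ℕ : Filter ℕ) ≤ atTop := Nat.hyperfilter_le_atTop
  by_cases hb : BddBelow S
  · choose u hu hu' using fun i : ℕ =>
      Real.lt_sInf_add_pos hS (ε := 1 / ((i : ℝ) + 1)) (by positivity)
    refine ⟨u, fun _ => hu, fun c hc s hs => le_trans ?_ (csInf_le hb hs)⟩
    refine le_of_forall_pos_le_add fun δ hδ => ?_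
    have h1 : ∀ᶠ i : ℕ in atTop, 1 / ((i : ℝ) + 1) < δ :=
      tendsto_one_div_add_atTop_nhds_zero_nat.eventually (gt_mem_nhds hδ)
    obtain ⟨i, h2, h3⟩ := (hc.and (hf h1)).exists
    linarith [hu' i]
  · have : ∀ i : ℕ, ∃ s ∈ S, s < -(i : ℝ) := fun i => not_bddBelow_iff.1 hb _
    choose u hu hu' using this
    refine ⟨u, fun _ => hu, fun c hc s _ => ?_⟩
    have h1 : ∀ᶠ i : ℕ in atTop, -c ≤ (i : ℝ) :=
      tendsto_natCast_atTop_atTop.eventually (eventually_ge_atTop _)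
    obtain ⟨i, h2, h3⟩ := (hc.and (hf h1)).exists
    linarith [hu' i]

theorem Cht.ne_zero {N : ℕ} {A : Type} [CommRing A] [Nontrivial A]
    {F : MvPowerSeries (Fin N) A} {G α γ μ} (h : Cht F G α γ μ) (j : Fin N) :
    (fun i => μ j i) ≠ 0 := fun e => by
  obtain ⟨u, hu, e'⟩ := h.g j
  have h0 : μ j = 0 := by ext i; exact congrFun e i
  have := h.cc j
  rw [e', h0, monomial_zero_one, mul_one] at this
  exact (hu.map constantCoeff).ne_zero this

theorem sum_key {N : ℕ} {R : Type} [CommRing R] (p q : R) (γ α c w : Fin N → R)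
    (μ : Fin N → Fin N → R) :
    ∑ k, (p * q * (γ k + 1) - p * α k - q * ∑ j, c j * μ j k) * w k =
      p * q * ∑ k, (γ k + 1) * w k - p * ∑ k, α k * w k - q * ∑ j, c j * ∑ k, μ j k * w k := by
  simp only [sub_mul, Finset.sum_sub_distrib, Finset.mul_sum, Finset.sum_mul, mul_assoc]
  rw [Finset.sum_comm (f := fun j k => q * (c j * (μ j k * w k)))]

theorem att_of (hU : RU) (h1 : CH1) (h3 : CH3) (hE : EMB) : ATT := by
  intro N Q n ε C 𝒰 f hN hQ hn hε hf hP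
  have hQ' : (0 : ℝ) < Q := by exact_mod_cast hQ
  have hn' : (0 : ℝ) < n := by exact_mod_cast hn
  obtain ⟨u, hu, hu'⟩ := exists_minseq {c | ∃ (a E : ℝ) (w : Fin N → ℝ) (μ B : ℝ),
    HR (UK 𝒰) f a E w ∧ 0 < μ ∧ (∀ j, μ ≤ w j) ∧ (∀ c ∈ C, B ≤ ∑ j, (c j : ℝ) * w j) ∧
      a < E / Q + B / n + c * μ}
  set S := {c : ℝ | ∃ (a E : ℝ) (w : Fin N → ℝ) (μ B : ℝ),
    HR (UK 𝒰) f a E w ∧ 0 < μ ∧ (∀ j, μ ≤ w j) ∧ (∀ c ∈ C, B ≤ ∑ j, (c j : ℝ) * w j) ∧
      a < E / Q + B / n + c * μ} with hS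
  have key : ∀ i, ∃ (σ : UK 𝒰 →+* ℂ) (x : Fin N → HS), Pos x ∧ (S.Nonempty →
      ∃ (l : Fin N → ℝ →+ ℂ) (a E : ℝ) (w : Fin N → ℝ) (μ B : ℝ), (∀ j, Ge (w j) (x j)) ∧
        Ge E (ev x (map σ f)) ∧ (Jd l x).orderTop ≤ (a : WithTop ℝ) ∧ 0 < μ ∧ (∀ j, μ ≤ w j) ∧
        (∀ c ∈ C, B ≤ ∑ j, (c j : ℝ) * w j) ∧ a < E / Q + B / n + u i * μ) := fun i => by
    by_cases h : S.Nonempty
    · obtain ⟨a, E, w, μ, B, ⟨σ, x, l, p, q, r, s⟩, t⟩ := hu h i
      exact ⟨σ, x, p, fun _ => ⟨l, a, E, w, μ, B, q, r, s, t⟩⟩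
    · exact ⟨(hE 𝒰).some, fun _ => 0, fun j => by simp, fun h' => absurd h' h⟩
  choose s x hx hk using key
  have : CharZero (UK 𝒰) := (hE 𝒰).some.charZero
  obtain ⟨A, _, ι, s', G, α, γ, μ, x', hg, hc, hev⟩ := hU N (UK 𝒰) (hyperfilter ℕ) s
    (fun a ha => by
      obtain ⟨i, hi⟩ := ha.exists
      exact (s i).injective (hi.trans (map_zero _).symm)) x hx f hf
  have : IsDomain A := P283M.U.isDomain_of_gen _ s' hg
  obtain ⟨w₀, c, c0, hw, hle, hge⟩ := Lp.att (α := C) (J := Fin N) (σ := Fin N)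
    (fun v k => (n : ℤ) * Q * (γ k + 1) - n * α k - Q * ∑ j, (v.1 j : ℤ) * μ j k)
    (fun j k => μ j k) (fun w hw => by
      obtain ⟨v, hv, h⟩ := hP _ _ _ (h3 N _ A ι f G α γ μ hc w hw)
      refine ⟨⟨v, hv⟩, ?_⟩
      have : (0 : ℝ) < ∑ k, ((n : ℝ) * Q * (γ k + 1) - n * α k - Q * ∑ j, (v j : ℝ) * μ j k) *
          w k := by
        rw [sum_key]
        push_cast at h
        have h2 := mul_le_mul_of_nonneg_left h (mul_pos hn' hQ').le
        have h3 := mul_pos (mul_pos hn' hQ') hε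
        field_simp at h2
        nlinarith
      exact_mod_cast this) hc.ne_zero
  refine ⟨c / (n * Q), by positivity, ?_, ?_⟩
  · intro a E w m B hr m0 hm hB
    by_contra hlt
    push Not at hlt
    have hs : c / (n * Q) - (E / Q + B / n + c / (n * Q) * m - a) / (2 * m) ∈ S :=
      ⟨a, E, w, m, B, hr, m0, hm, hB, by field_simp at hlt ⊢; nlinarith⟩
    have := hu' (c / (n * Q)) (hev.mono fun i hi => ?_) _ hs
    · have h4 : 0 < (E / Q + B / n + c / (n * Q) * m - a) / (2 * m) := by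
        apply div_pos <;> linarith
      linarith
    obtain ⟨l, a, E, w, m, B, p, q, r, m0, hm, hB, hlt⟩ := hk i ⟨_, hs⟩
    rw [hi.2.2] at p q r
    obtain ⟨w', w0, e1, e2, e3⟩ := h1 N A _ G α γ μ hc (s' i) (x' i) l a hi.2.1 r
    have e4 : map (s' i) (map ι f) = map (s i) f := by
      rw [← hi.1]; ext m; simp
    rw [e4] at e2
    have p' : ∀ j, w j ≤ ∑ k, (μ j k : ℝ) * w' k := fun j => by
      have := p j
      rw [Ge, e1] at this
      exact_mod_cast this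
    have q' : E ≤ ∑ k, (α k : ℝ) * w' k := by
      rw [Ge, e2] at q
      exact_mod_cast q
    obtain ⟨v, hv⟩ := hge w' m (fun k => (w0 k).le) m0.le fun j => (hm j).trans (p' j)
    push_cast at hv
    rw [sum_key] at hv
    have hB' : B ≤ ∑ j, (v.1 j : ℝ) * ∑ k, (μ j k : ℝ) * w' k :=
      (hB _ v.2).trans (Finset.sum_le_sum fun j _ =>
        mul_le_mul_of_nonneg_left (p' j) (Nat.cast_nonneg _))
    have h5 : c * m ≤ n * Q * a - n * E - Q * B := by
      nlinarith [mul_le_mul_of_nonneg_left e3 (mul_pos hn' hQ').le,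
        mul_le_mul_of_nonneg_left q' hn'.le, mul_le_mul_of_nonneg_left hB' hQ'.le]
    rw [div_le_iff₀ (mul_pos hn' hQ')]
    refine le_of_mul_le_mul_right ?_ m0
    field_simp at hlt
    nlinarith
  · obtain ⟨v₀, -⟩ := hge 0 0 (fun _ => le_rfl) le_rfl fun j => by simp
    have : Nonempty C := ⟨v₀⟩
    have : Nonempty (Fin N) := ⟨⟨0, hN⟩⟩
    obtain ⟨j, hj⟩ := Finite.exists_min fun j => ∑ i, μ j i * w₀ i
    obtain ⟨v, hv⟩ := Finite.exists_min fun v : C =>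
      ∑ j, (v.1 j : ℝ) * ((∑ i, μ j i * w₀ i : ℕ) : ℝ)
    refine ⟨_, _, _, (∑ i, μ j i * w₀ i : ℕ), _, h3 N _ A ι f G α γ μ hc w₀ hw,
      by exact_mod_cast hw j, fun j => by exact_mod_cast hj j, fun c hc => hv ⟨c, hc⟩, ?_⟩
    have := hle v j
    push_cast at this ⊢
    rw [sum_key] at this
    field_simp
    nlinarith

end Vale.Agent.P283R.Co
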