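import Vale.Agent.P283R.Co.Ap
import Vale.Agent.P283R.Co.St

/-!
# From integral arcs to places
-/

attribute [-instance] HahnSeries.powerSeriesAlgebra

open Set
open Vale.Agent.P287D Vale.Agent.P297Z

noncomputable section

namespace Vale.Agent.P283R

namespace Ap

open Co

variable {k : Type} [Field k] [Algebra ℂ k] {N : ℕ}

/-- power series as Hahn series -/
def em : PowerSeries k →ₐ[ℂ] HahnSeries ℝ k := HahnSeries.ofPowerSeriesAlg ℝ ℂ

theorem em_nat (a : PowerSeries k) (n : ℕ) : (em a).coeff n = PowerSeries.coeff n a :=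
  HahnSeries.ofPowerSeries_apply_coeff a n

theorem em_not (a : PowerSeries k) {g : ℝ} (h : ∀ n : ℕ, g ≠ n) : (em a).coeff g = 0 :=
  HahnSeries.embDomain_of_notMem_range (f := Nat.castOrderEmbedding) fun ⟨n, e⟩ => h n e.symm

theorem em_inj : Function.Injective (em : PowerSeries k → _) :=
  HahnSeries.ofPowerSeries_injective

theorem orderTop_em {a : PowerSeries k} {d : ℕ} (h : a.order = d) :
    (em a).orderTop = (d : ℝ) := by
  obtain ⟨h1, h2⟩ := PowerSeries.order_eq_nat.1 h
  refine le_antisymm (HahnSeries.orderTop_le_of_coeff_ne_zero (by rwa [em_nat]))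
    (ge_iff.2 fun g hg => ?_)
  by_cases e : ∃ n : ℕ, g = n
  · obtain ⟨n, rfl⟩ := e
    rw [em_nat, h2 n (by exact_mod_cast hg)]
  · exact em_not a fun n k => e ⟨n, k⟩

theorem thl_em (δ : Derivation ℂ k k) (a : PowerSeries k) :
    thl 0 δ (em a) = em (PowerSeries.mk fun n => δ (PowerSeries.coeff n a)) := by
  ext g
  rw [coeff_thl, AddMonoidHom.zero_apply, zero_mul, zero_add]
  by_cases e : ∃ n : ℕ, g = n
  · obtain ⟨n, rfl⟩ := e
    rw [em_nat, em_nat, PowerSeries.coeff_mk]
  · rw [em_not a fun n k => e ⟨n, k⟩, em_not _ fun n k => e ⟨n, k⟩, map_zero]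

omit [Algebra ℂ k] in
theorem exists_order {a : PowerSeries k} (h : a ≠ 0) : ∃ d : ℕ, a.order = d :=
  ⟨_, (PowerSeries.coe_toNat_order h).symm⟩

theorem z0_ind : AlgebraicIndependent ℂ (z0 N) :=
  (MvPolynomial.algebraicIndependent_X (Fin N) ℂ).map'
    (f := IsScalarTower.toAlgHom ℂ (MvPolynomial (Fin N) ℂ) (K0 N))
    (IsFractionRing.injective _ _)

theorem aeval_z0 (p : MvPolynomial (Fin N) ℂ) :
    MvPolynomial.aeval (z0 N) p = algebraMap _ (K0 N) p := by
  have := MvPolynomial.comp_aeval MvPolynomial.X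
    (IsScalarTower.toAlgHom ℂ (MvPolynomial (Fin N) ℂ) (K0 N))
  rw [MvPolynomial.aeval_X_left, AlgHom.comp_id] at this
  exact (DFunLike.congr_fun this p).symm

theorem z0_top : IntermediateField.adjoin ℂ (range (z0 N)) = ⊤ := eq_top_iff.2 fun g _ => by
  obtain ⟨r, s, -, rfl⟩ := IsFractionRing.div_surjective (A := MvPolynomial (Fin N) ℂ) g
  exact (IntermediateField.mem_adjoin_range_iff ℂ _ _).2 ⟨r, s, by rw [aeval_z0, aeval_z0]⟩

theorem ff0 : FF (K0 N) N := ff_of_top z0_ind z0_top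

end Ap

namespace Co

open Ap

/-- **AP** -/
theorem ap : AP := fun N κ _ _ x δ a w hN h => by
  have ev : ∀ p : MvPolynomial (Fin N) ℂ,
      MvPolynomial.aeval (fun j => em (x j)) p = em (MvPolynomial.aeval x p) := fun p => by
    rw [← MvPolynomial.comp_aeval, AlgHom.comp_apply]
  have dt : (Matrix.of fun l j => thl 0 (δ l) (em (x j))).det = em (Matrix.of fun i j =>
      PowerSeries.mk fun n => δ j (PowerSeries.coeff n (x i))).det := by
    rw [AlgHom.map_det, ← Matrix.det_transpose]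
    congr 1
    ext1 i j
    exact thl_em _ _
  have j0 : (Matrix.of fun i j => PowerSeries.mk fun n =>
      δ j (PowerSeries.coeff n (x i))).det ≠ 0 := fun e => h.jac (e ▸ dvd_zero _)
  obtain ⟨d, hd⟩ := exists_order j0
  obtain ⟨P, e, e0, h1, h2⟩ := arc_place' (v := HahnSeries.addVal ℝ κ) z0_ind z0_top
    (fun j => em (x j)) (fun l => thl 0 (δ l)) (fun l => ctr_thl _ _)
    (fun c => by
      rw [← em.commutes, HahnSeries.addVal_apply]
      by_cases c0 : algebraMap ℂ (PowerSeries κ) c = 0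
      · simp [c0]
      · obtain ⟨d, hd⟩ := exists_order c0
        rw [orderTop_em hd]
        exact_mod_cast d.cast_nonneg) one_pos
    (fun p hp => by
      rw [ev] at hp ⊢
      obtain ⟨d, hd⟩ := exists_order (a := MvPolynomial.aeval x p) fun e =>
        hp (by rw [e, map_zero])
      exact ⟨d, by rw [HahnSeries.addVal_apply, orderTop_em hd]; simp⟩)
    ⟨⟨0, hN⟩, by
      rw [HahnSeries.addVal_apply]
      by_cases c0 : x ⟨0, hN⟩ = 0
      · simp [c0]
      · obtain ⟨d, hd⟩ := exists_order c0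
        rw [orderTop_em hd]
        have : d ≠ 0 := fun e => (PowerSeries.order_eq_nat.1 hd).1
          (PowerSeries.X_pow_dvd_iff.1 (h.dvd _) _ (e.trans_lt (h.pos _)))
        exact_mod_cast Nat.pos_of_ne_zero this⟩
    (by rw [dt]; exact fun e => j0 (em_inj (e.trans (map_zero _).symm)))
  have k : ∀ p : MvPolynomial (Fin N) ℂ, p ≠ 0 → ∃ d : ℕ, (MvPolynomial.aeval x p).order = d ∧
      e * P.ord (MvPolynomial.aeval (z0 N) p) = d := fun p hp => by
    have h3 := h1 p hp
    rw [ev, HahnSeries.addVal_apply] at h3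
    obtain ⟨d, hd⟩ := exists_order (a := MvPolynomial.aeval x p) fun e => by
      rw [e, map_zero, HahnSeries.orderTop_zero] at h3
      exact WithTop.top_ne_coe h3
    rw [orderTop_em hd] at h3
    exact ⟨d, hd, (WithTop.coe_inj.1 h3).symm⟩
  obtain ⟨m, rfl⟩ : ∃ m : ℤ, e = m := by
    obtain ⟨r, s, q⟩ := (IntermediateField.mem_adjoin_range_iff ℂ (z0 N) P.t).1 (z0_top ▸ trivial)
    obtain ⟨r0, s0⟩ := div_ne_zero_iff.1 (q ▸ Pb.t_ne P)
    obtain ⟨b, -, hb⟩ := k r fun e => r0 (by rw [e, map_zero])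
    obtain ⟨c, -, hc⟩ := k s fun e => s0 (by rw [e, map_zero])
    have o := Pb.ord_t P
    rw [q, Pl.ord_div _ r0 s0] at o
    have o' := congrArg (Int.cast : ℤ → ℝ) o
    refine ⟨b - c, ?_⟩
    push_cast at o' ⊢
    rw [← hb, ← hc, ← mul_sub, o', mul_one]
  lift m to ℕ using by exact_mod_cast e0.le
  refine ⟨P, m, by exact_mod_cast e0, ?_, fun p hp => (k p hp).imp fun d hd =>
    ⟨hd.1, by exact_mod_cast hd.2⟩⟩
  rw [dt, HahnSeries.addVal_apply, orderTop_em hd, WithTop.coe_le_coe] at h2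
  have : d ≤ a := not_lt.1 fun l => h.jac (PowerSeries.X_pow_dvd_iff.2 fun i hi =>
    (PowerSeries.order_eq_nat.1 hd).2 i (by omega))
  exact le_trans (by exact_mod_cast h2) (Nat.cast_le.2 this)

end Co

end Vale.Agent.P283R
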