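import Mathlib

/-! Descent of arcs with logarithmic derivations from an ultrapower to the single levels. -/

namespace Vale.Agent.P283R.Td

open MvPolynomial Filter TensorProduct
open scoped PowerSeries

noncomputable section

/-- A minimal prime over a differential ideal is differential (characteristic zero). -/
theorem der_min {k A : Type} [Field k] [CharZero k] [CommRing A] [Algebra k A]
    (D : Derivation k A A) {I q : Ideal A} (hq : q ∈ I.minimalPrimes) (hI : ∀ g ∈ I, D g ∈ I)
    {g : A} (hg : g ∈ q) : D g ∈ q := by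
  have hp : q.IsPrime := hq.1.1
  have h0 : ∃ n, ∃ s, s ∉ q ∧ s * g ^ n ∈ I := by
    have h1 : algebraMap A (Localization.AtPrime q) g ∈
        (I.map (algebraMap A (Localization.AtPrime q))).radical := by
      rw [IsLocalization.AtPrime.radical_map_of_mem_minimalPrimes (Localization.AtPrime q) q I hq]
      exact Ideal.mem_map_of_mem _ hg
    obtain ⟨n, hn⟩ := h1
    rw [IsLocalization.mem_map_algebraMap_iff (M := q.primeCompl)] at hn
    obtain ⟨⟨a, b⟩, hn⟩ := hn
    rw [← map_pow, ← map_mul, IsLocalization.eq_iff_exists q.primeCompl] at hn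
    obtain ⟨t, ht⟩ := hn
    refine ⟨n, t * b, (t * b).2, ?_⟩
    simp only at ht
    have : (t.1 * b.1) * g ^ n = t.1 * a.1 := by rw [← ht]; ring
    rw [this]
    exact I.mul_mem_left _ a.2
  by_contra hD
  have key : ∀ n, ∀ s, s ∉ q → (∃ h, s * g ^ n + h * g ^ (n + 1) ∈ I) → False := by
    intro n
    induction n with
    | zero =>
      rintro s hs ⟨h, hh⟩
      apply hs
      have h2 := hq.1.2 hh
      rw [pow_zero, mul_one, zero_add, pow_one] at h2
      exact (q.add_mem_iff_left (q.mul_mem_left h hg)).1 h2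
    | succ n ih =>
      rintro s hs ⟨h, hh⟩
      refine ih (((n + 1 : ℕ) : A) * s * D g) ?_
        ⟨D s + ((n + 2 : ℕ) : A) * h * D g + g * D h, ?_⟩
      · intro h3
        rcases hp.mem_or_mem h3 with h4 | h4
        · rcases hp.mem_or_mem h4 with h5 | h5
          · have hu : IsUnit ((n + 1 : ℕ) : A) := by
              rw [← map_natCast (algebraMap k A)]
              exact (IsUnit.mk0 _ (Nat.cast_ne_zero.2 (Nat.succ_ne_zero n))).map _
            exact hp.ne_top (q.eq_top_of_isUnit_mem h5 hu)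
          · exact hs h5
        · exact hD h4
      · have h3 := hI _ hh
        have h4 : D (s * g ^ (n + 1) + h * g ^ (n + 1 + 1)) =
            ((n + 1 : ℕ) : A) * s * D g * g ^ n +
              (D s + ((n + 2 : ℕ) : A) * h * D g + g * D h) * g ^ (n + 1) := by
          simp only [map_add, Derivation.leibniz, Derivation.leibniz_pow, smul_eq_mul,
            nsmul_eq_mul, Nat.add_sub_cancel]
          push_cast
          ring
        rwa [h4] at h3
  obtain ⟨n, s, hs, hn⟩ := h0
  exact key n s hs ⟨0, by simpa using hn⟩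

/-- Derivations extend to the fraction field. -/
theorem der_frac {k P : Type} [Field k] [CommRing P] [IsDomain P] [Algebra k P]
    (D₀ : Derivation k P P) : ∃ D : Derivation k (FractionRing P) (FractionRing P),
      ∀ x : P, D (algebraMap P (FractionRing P) x) = algebraMap P (FractionRing P) (D₀ x) := by
  let F := FractionRing P
  have : Algebra.FormallyEtale P F := Algebra.FormallyEtale.of_isLocalization (nonZeroDivisors P)
  let L : Ω[P⁄k] →ₗ[P] F := ((Algebra.linearMap P F).compDer D₀).liftKaehlerDifferential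
  let L' : F ⊗[P] Ω[P⁄k] →ₗ[F] F := L.liftBaseChange F
  let L'' : Ω[F⁄k] →ₗ[F] F :=
    L' ∘ₗ (KaehlerDifferential.tensorKaehlerEquivOfFormallyEtale k P F).symm.toLinearMap
  refine ⟨L''.compDer (KaehlerDifferential.D k F), fun x => ?_⟩
  show L' ((KaehlerDifferential.tensorKaehlerEquivOfFormallyEtale k P F).symm
    (KaehlerDifferential.D k F (algebraMap P F x))) = _
  rw [KaehlerDifferential.tensorKaehlerEquivOfFormallyEtale_symm_D_algebraMap]
  simp [L', L, F]

theorem map_mkDer {σ R S : Type} [CommRing R] [CommRing S] (f : R →+* S)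
    (V : σ → MvPolynomial σ R) (g : MvPolynomial σ R) :
    map f (mkDerivation R V g) = mkDerivation S (fun s => map f (V s)) (map f g) := by
  induction g using MvPolynomial.induction_on with
  | C a => simp [derivation_C]
  | add p q hp hq => simp [hp, hq]
  | mul_X p s hp =>
    simp only [map_mul, map_X, Derivation.leibniz, mkDerivation_X, smul_eq_mul, map_add, hp]

theorem chain {σ k A : Type} [Fintype σ] [CommRing k] [CommRing A] [Algebra k A]
    (D : Derivation k A A) (z : σ → A) (g : MvPolynomial σ k) :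
    D (aeval z g) = ∑ s, aeval z (pderiv s g) * D (z s) := by
  classical
  induction g using MvPolynomial.induction_on with
  | C a => simp
  | add p q hp hq => simp [hp, hq, add_mul, Finset.sum_add_distrib]
  | mul_X p s hp =>
    simp only [map_mul, aeval_X, Derivation.leibniz, smul_eq_mul, hp, map_add, add_mul,
      Finset.sum_add_distrib, Finset.mul_sum, pderiv_X, mul_assoc]
    congr 1
    rw [Finset.sum_eq_single s] <;> simp +contextual [eq_comm]

theorem mkDer_eq {σ k : Type} [Fintype σ] [CommRing k] (V : σ → MvPolynomial σ k)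
    (g : MvPolynomial σ k) : mkDerivation k V g = ∑ s, pderiv s g * V s := by
  have := chain (mkDerivation k V) X g
  simpa using this

section desc

variable {ι R K : Type} [CommRing R] [Field K] {π : R →+* K} {ev : ι → R →+* ℂ} {U : Filter ι}

theorem ev_ne (hπ : Function.Surjective π) (hU : ∀ r, π r = 0 → ∀ᶠ i in U, ev i r = 0) {r : R}
    (hr : π r ≠ 0) : ∀ᶠ i in U, ev i r ≠ 0 := by
  obtain ⟨s, hs⟩ := hπ (π r)⁻¹
  have h := hU (r * s - 1) (by rw [map_sub, map_mul, hs, mul_inv_cancel₀ hr, map_one, sub_self])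
  filter_upwards [h] with i hi h0
  rw [map_sub, map_mul, h0, zero_mul, map_one] at hi
  simp at hi

theorem ev_map {σ : Type} (hU : ∀ r, π r = 0 → ∀ᶠ i in U, ev i r = 0) {H : MvPolynomial σ R}
    (hH : map π H = 0) : ∀ᶠ i in U, map (ev i) H = 0 := by
  have h : ∀ᶠ i in U, ∀ m ∈ H.support, ev i (coeff m H) = 0 := by
    rw [eventually_all_finset]
    intro m _
    apply hU
    rw [← coeff_map, hH, coeff_zero]
  filter_upwards [h] with i hi
  ext m
  rw [coeff_map, coeff_zero]
  by_cases hm : m ∈ H.support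
  · exact hi m hm
  · rw [notMem_support_iff.1 hm, map_zero]

/-- Descent of a point with tangent vector fields. -/
theorem desc [IsAlgClosed K] (hπ : Function.Surjective π)
    (hU : ∀ r, π r = 0 → ∀ᶠ i in U, ev i r = 0) {σ τ ν κ : Type} [Finite σ] [Finite τ] [Finite ν]
    [Field κ] [Algebra K κ] (y : σ → κ) (Z : τ → MvPolynomial σ R)
    (hZ : ∀ a, aeval y (map π (Z a)) = 0) (c : MvPolynomial σ R) (hc : aeval y (map π c) ≠ 0)
    (V : ν → σ → MvPolynomial σ R)
    (hV : ∀ k g, aeval y g = 0 → aeval y (mkDerivation K (fun s => map π (V k s)) g) = 0) :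
    ∀ᶠ i in U, ∃ (k' : Type) (_ : Field k') (_ : Algebra ℂ k') (y' : σ → k')
      (D : ν → Derivation ℂ k' k'), (∀ a, aeval y' (map (ev i) (Z a)) = 0) ∧
      aeval y' (map (ev i) c) ≠ 0 ∧ ∀ k s, D k (y' s) = aeval y' (map (ev i) (V k s)) := by
  classical
  let p : Ideal (MvPolynomial σ K) := RingHom.ker (aeval y : MvPolynomial σ K →ₐ[K] κ)
  have hp : p.IsPrime := RingHom.ker_isPrime _
  obtain ⟨n, g, hg⟩ := Submodule.fg_iff_exists_fin_generating_family.1
    (IsNoetherian.noetherian p)
  choose G hG using fun m => map_surjective π hπ (g m)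
  have hgp : ∀ m, aeval y (g m) = 0 := fun m => by
    have : g m ∈ p := hg ▸ Submodule.subset_span ⟨m, rfl⟩
    exact this
  have Zl : ∀ H : MvPolynomial σ R, aeval y (map π H) = 0 →
      ∀ᶠ i in U, map (ev i) H ∈ Ideal.span (Set.range fun m => map (ev i) (G m)) := by
    intro H hH
    have h1 : map π H ∈ Ideal.span (Set.range g) := by
      have : map π H ∈ p := hH
      rw [← hg] at this
      exact this
    obtain ⟨u, hu⟩ := Ideal.mem_span_range_iff_exists_fun.1 h1
    choose u' hu' using fun m => map_surjective π hπ (u m)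
    have h2 : map π (H - ∑ m, u' m * G m) = 0 := by
      simp only [map_sub, map_sum, map_mul, hu', hG, hu, sub_self]
    filter_upwards [ev_map hU h2] with i hi
    rw [map_sub, sub_eq_zero] at hi
    rw [hi, map_sum]
    refine Ideal.sum_mem _ fun m _ => ?_
    rw [map_mul]
    exact Ideal.mul_mem_left _ _ (Ideal.subset_span ⟨m, rfl⟩)
  obtain ⟨P, hP, hPc⟩ : ∃ P ∈ zeroLocus K p, aeval P (map π c) ≠ 0 := by
    by_contra h
    push Not at h
    have h1 : map π c ∈ vanishingIdeal K (zeroLocus K p) := mem_vanishingIdeal_iff.2 h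
    rw [IsPrime.vanishingIdeal_zeroLocus] at h1
    exact hc h1
  choose P' hP' using fun s => hπ (P s)
  have hev : ∀ {S : Type} [CommRing S] (f : R →+* S) (H : MvPolynomial σ R),
      f (eval P' H) = eval (fun s => f (P' s)) (map f H) := fun f H => by
    rw [eval_map, ← coe_eval₂Hom, eval, map_eval₂Hom]; rfl
  have hPP : (fun s => π (P' s)) = P := funext hP'
  have h1 : ∀ᶠ i in U, ∀ m, ev i (eval P' (G m)) = 0 := by
    rw [eventually_all]
    intro m
    apply hU
    rw [hev, hPP, hG]
    exact hP (g m) (hgp m)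
  have h2 : ∀ᶠ i in U, ev i (eval P' c) ≠ 0 := ev_ne hπ hU (by rw [hev, hPP]; exact hPc)
  have h3 : ∀ᶠ i in U, ∀ a, map (ev i) (Z a) ∈ Ideal.span (Set.range fun m => map (ev i) (G m)) :=
    eventually_all.2 fun a => Zl _ (hZ a)
  have h4 : ∀ᶠ i in U, ∀ k m, map (ev i) (mkDerivation R (V k) (G m)) ∈
      Ideal.span (Set.range fun m => map (ev i) (G m)) :=
    eventually_all.2 fun k => eventually_all.2 fun m => Zl _ (by
      rw [map_mkDer, hG]; exact hV k _ (hgp m))
  filter_upwards [h1, h2, h3, h4] with i h1 h2 h3 h4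
  set I := Ideal.span (Set.range fun m => map (ev i) (G m)) with hI
  let J : Ideal (MvPolynomial σ ℂ) := RingHom.ker (eval fun s => ev i (P' s))
  have hJ : J.IsPrime := RingHom.ker_isPrime _
  have hIJ : I ≤ J := by
    rw [hI, Ideal.span_le]
    rintro _ ⟨m, rfl⟩
    show eval _ _ = 0
    rw [← hev]
    exact h1 m
  obtain ⟨q, hq, hqJ⟩ := Ideal.exists_minimalPrimes_le hIJ
  have hqp : q.IsPrime := hq.1.1
  have hDI : ∀ k, ∀ x ∈ I, mkDerivation ℂ (fun s => map (ev i) (V k s)) x ∈ I := by
    intro k x hx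
    induction hx using Submodule.span_induction with
    | mem x hx =>
      obtain ⟨m, rfl⟩ := hx
      rw [← map_mkDer]
      exact h4 k m
    | zero => simp
    | add a b _ _ ha hb => rw [map_add]; exact I.add_mem ha hb
    | smul a b hb ha =>
      rw [smul_eq_mul, Derivation.leibniz, smul_eq_mul, smul_eq_mul]
      exact I.add_mem (I.mul_mem_left _ ha) (I.mul_mem_right _ hb)
  have hD0 : ∀ k, ∃ D₀ : Derivation ℂ (MvPolynomial σ ℂ ⧸ q) (MvPolynomial σ ℂ ⧸ q), ∀ x,
      D₀ (Ideal.Quotient.mkₐ ℂ q x) =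
        Ideal.Quotient.mkₐ ℂ q (mkDerivation ℂ (fun s => map (ev i) (V k s)) x) := fun k =>
    ⟨Derivation.liftOfSurjective (f := Ideal.Quotient.mkₐ ℂ q) (Ideal.Quotient.mkₐ_surjective ℂ q)
      (fun x hx => Ideal.Quotient.eq_zero_iff_mem.2
        (der_min _ hq (hDI k) (Ideal.Quotient.eq_zero_iff_mem.1 hx))),
      fun x => Derivation.liftOfSurjective_apply _ _ x⟩
  choose D₀ hD₀ using hD0
  choose D hD using fun k => der_frac (D₀ k)
  let B := MvPolynomial σ ℂ ⧸ q
  let y' : σ → FractionRing B := fun s =>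
    algebraMap B (FractionRing B) (Ideal.Quotient.mkₐ ℂ q (X s))
  have hy : ∀ H : MvPolynomial σ ℂ,
      aeval y' H = algebraMap B (FractionRing B) (Ideal.Quotient.mkₐ ℂ q H) := fun H => by
    have : (aeval y' : MvPolynomial σ ℂ →ₐ[ℂ] FractionRing B) =
        (IsScalarTower.toAlgHom ℂ B (FractionRing B)).comp (Ideal.Quotient.mkₐ ℂ q) := by
      ext s
      rw [aeval_X]
      rfl
    rw [this]
    rfl
  refine ⟨FractionRing B, inferInstance, inferInstance, y', D, fun a => ?_, ?_, fun k s => ?_⟩
  · rw [hy, Ideal.Quotient.mkₐ_eq_mk, Ideal.Quotient.eq_zero_iff_mem.2 (hq.1.2 (h3 a)), map_zero]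
  · rw [hy, Ne, map_eq_zero_iff _ (IsFractionRing.injective B (FractionRing B)),
      Ideal.Quotient.mkₐ_eq_mk, Ideal.Quotient.eq_zero_iff_mem]
    intro h
    apply h2
    rw [hev]
    exact hqJ h
  · rw [hy]
    show D k (algebraMap B (FractionRing B) _) = _
    rw [hD, hD₀, mkDerivation_X]

end desc

/-- The truncated arc with given coefficients. -/
def arc {B : Type} [CommRing B] {N T : ℕ} (y : Fin N × Fin T → B) (j : Fin N) : B⟦X⟧ :=
  ∑ l : Fin T, PowerSeries.C (y (j, l)) * PowerSeries.X ^ (l : ℕ)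

theorem map_arc {B B' : Type} [CommRing B] [CommRing B'] (f : B →+* B') {N T : ℕ}
    (y : Fin N × Fin T → B) (j : Fin N) :
    PowerSeries.map f (arc y j) = arc (fun s => f (y s)) j := by
  simp [arc]

theorem coeff_arc {B : Type} [CommRing B] {N T : ℕ} (y : Fin N × Fin T → B) (j : Fin N) (n : ℕ) :
    PowerSeries.coeff n (arc y j) = if h : n < T then y (j, ⟨n, h⟩) else 0 := by
  simp only [arc, map_sum, PowerSeries.coeff_C_mul, PowerSeries.coeff_X_pow]
  split_ifs with h
  · rw [Finset.sum_eq_single ⟨n, h⟩]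
    · simp
    · intro l _ hl
      rw [if_neg (fun e => hl (Fin.ext e.symm)), mul_zero]
    · simp
  · refine Finset.sum_eq_zero fun l _ => ?_
    rw [if_neg (fun e : n = l => h (e ▸ l.2)), mul_zero]

theorem dvd_sub_arc {B : Type} [CommRing B] {N : ℕ} (T : ℕ) (x : Fin N → B⟦X⟧) (j : Fin N) :
    PowerSeries.X ^ T ∣ x j - arc (fun s : Fin N × Fin T => PowerSeries.coeff s.2 (x s.1)) j := by
  rw [PowerSeries.X_pow_dvd_iff]
  intro m hm
  rw [map_sub, coeff_arc, dif_pos hm, sub_self]

theorem det_span {S : Type} [CommRing S] {N : ℕ} (J : Ideal S) (G : Set (Fin N → S))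
    (r : Fin N → Fin N → S) (hr : ∀ k, r k ∈ Submodule.span S G) (h : (Matrix.of r).det ∉ J) :
    ∃ g : Fin N → Fin N → S, (∀ k, g k ∈ G) ∧ (Matrix.of g).det ∉ J := by
  by_contra hc
  push Not at hc
  apply h
  choose n f g hg using fun k => Submodule.mem_span_set'.1 (hr k)
  have h1 : r = fun k => ∑ i, f k i • (g k i : Fin N → S) := funext fun k => (hg k).symm
  have h2 : (Matrix.of r).det = Matrix.detRowAlternating.toMultilinearMap r := rfl
  rw [h2, h1, MultilinearMap.map_sum]
  refine J.sum_mem fun p _ => ?_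
  rw [MultilinearMap.map_smul_univ, smul_eq_mul]
  exact J.mul_mem_left _ (hc _ fun k => (g k (p k)).2)

/-- Tangent vectors with values in a big field are spanned by polynomial vector fields. -/
theorem tan_span {σ K κ : Type} [Fintype σ] [Field K] [Field κ] [Algebra K κ] (y t : σ → κ)
    (ht : ∀ g : MvPolynomial σ K, aeval y g = 0 → ∑ s, aeval y (pderiv s g) * t s = 0) :
    t ∈ Submodule.span κ {u : σ → κ | ∃ v : σ → MvPolynomial σ K,
      (∀ g, aeval y g = 0 → aeval y (mkDerivation K v g) = 0) ∧ u = fun s => aeval y (v s)} := by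
  classical
  let L := IntermediateField.adjoin K (Set.range y)
  let b := Module.Basis.ofVectorSpace L κ
  have hL : ∀ g : MvPolynomial σ K, aeval y g ∈ L := fun g =>
    (IntermediateField.mem_adjoin_range_iff K y _).2 ⟨g, 1, by simp⟩
  let Sf := Finset.univ.biUnion fun s => (b.repr (t s)).support
  have h1 : t = ∑ β ∈ Sf, b β • fun s => ((b.repr (t s) β : L) : κ) := by
    funext s
    rw [Finset.sum_apply]
    conv_lhs => rw [← b.linearCombination_repr (t s)]
    have hs : (b.repr (t s)).support ⊆ Sf :=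
      Finset.subset_biUnion_of_mem (fun s => (b.repr (t s)).support) (Finset.mem_univ s)
    rw [Finsupp.linearCombination_apply, Finsupp.sum_of_support_subset _ hs _ (by simp)]
    refine Finset.sum_congr rfl fun β _ => ?_
    rw [Pi.smul_apply, smul_eq_mul, mul_comm]
    rfl
  rw [h1]
  refine Submodule.sum_mem _ fun β _ => Submodule.smul_mem _ _ ?_
  have h2 : ∀ s, ∃ p q : MvPolynomial σ K, aeval y q ≠ 0 ∧
      ((b.repr (t s) β : L) : κ) * aeval y q = aeval y p := fun s => by
    obtain ⟨p, q, h⟩ := (IntermediateField.mem_adjoin_range_iff K y _).1 (b.repr (t s) β).2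
    by_cases hq : aeval y q = 0
    · exact ⟨0, 1, by simp, by rw [h, hq]; simp⟩
    · exact ⟨p, q, hq, by rw [h, div_mul_cancel₀ _ hq]⟩
  choose p q hq hpq using h2
  have hΔ : aeval y (∏ s, q s) ≠ 0 := by
    rw [map_prod]
    exact Finset.prod_ne_zero_iff.2 fun s _ => hq s
  have h3 : ∀ s, aeval y (p s * ∏ s' ∈ Finset.univ.erase s, q s') =
      aeval y (∏ s, q s) * ((b.repr (t s) β : L) : κ) := fun s => by
    rw [← Finset.mul_prod_erase _ q (Finset.mem_univ s), map_mul, map_mul, ← hpq]
    ring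
  have h4 : (fun s => ((b.repr (t s) β : L) : κ)) = (aeval y (∏ s, q s))⁻¹ •
      fun s => aeval y (p s * ∏ s' ∈ Finset.univ.erase s, q s') := by
    funext s
    rw [Pi.smul_apply, smul_eq_mul, h3, inv_mul_cancel_left₀ hΔ]
  rw [h4]
  refine Submodule.smul_mem _ _ (Submodule.subset_span ⟨_, fun g hg => ?_, rfl⟩)
  have h5 : ∑ s, (⟨aeval y (pderiv s g), hL _⟩ : L) • t s = 0 := ht g hg
  have h6 := congrArg (fun z => ((b.repr z β : L) : κ)) h5
  simp only [map_sum, map_smul, Finsupp.coe_finsetSum, Finset.sum_apply, Finsupp.smul_apply,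
    smul_eq_mul, map_zero, Finsupp.zero_apply] at h6
  push_cast at h6
  rw [mkDer_eq, map_sum]
  simp only [map_mul (aeval y) (pderiv _ g), h3, mul_left_comm _ (aeval y (∏ s, q s))]
  rw [← Finset.mul_sum, h6, mul_zero]

/-- Choice of `N` basic rows with small determinant order. -/
theorem rows {K κ : Type} [Field K] [Field κ] [Algebra K κ] {N T a : ℕ}
    (y : Fin N × Fin T → κ) (t : Fin N → Fin N × Fin T → κ)
    (ht : ∀ k (g : MvPolynomial (Fin N × Fin T) K), aeval y g = 0 →
      ∑ s, aeval y (pderiv s g) * t k s = 0)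
    (hd : ¬ PowerSeries.X ^ a ∣ (Matrix.of fun k j => arc (t k) j).det) :
    ∃ v : Fin N → Fin N × Fin T → MvPolynomial (Fin N × Fin T) K,
      (∀ k g, aeval y g = 0 → aeval y (mkDerivation K (v k) g) = 0) ∧
      ¬ PowerSeries.X ^ a ∣ (Matrix.of fun k j => arc (fun s => aeval y (v k s)) j).det := by
  let G : Set (Fin N → κ⟦X⟧) := {ρ | ∃ v : Fin N × Fin T → MvPolynomial (Fin N × Fin T) K,
      (∀ g, aeval y g = 0 → aeval y (mkDerivation K v g) = 0) ∧ ρ = arc (fun s => aeval y (v s))}
  have h1 : ∀ t : Fin N × Fin T → κ, (∀ g : MvPolynomial (Fin N × Fin T) K, aeval y g = 0 →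
      ∑ s, aeval y (pderiv s g) * t s = 0) → arc t ∈ Submodule.span κ⟦X⟧ G := by
    intro t ht
    have h := tan_span y t ht
    clear ht
    induction h using Submodule.span_induction with
    | mem u hu =>
      obtain ⟨v, hv, rfl⟩ := hu
      exact Submodule.subset_span ⟨v, hv, rfl⟩
    | zero =>
      have : arc (0 : Fin N × Fin T → κ) = 0 := by funext j; simp [arc]
      rw [this]
      exact Submodule.zero_mem _
    | add u u' _ _ hu hu' =>
      have : arc (u + u') = arc u + arc u' := by
        funext j; simp [arc, add_mul, Finset.sum_add_distrib]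
      rw [this]
      exact Submodule.add_mem _ hu hu'
    | smul e u _ hu =>
      have : arc (e • u) = (PowerSeries.C e : κ⟦X⟧) • arc u := by
        funext j; simp [arc, Finset.mul_sum, mul_assoc]
      rw [this]
      exact Submodule.smul_mem _ _ hu
  obtain ⟨g, hg, hgd⟩ := det_span (Ideal.span {PowerSeries.X ^ a}) G (fun k => arc (t k))
    (fun k => h1 _ (ht k)) (by rwa [Ideal.mem_span_singleton])
  rw [Ideal.mem_span_singleton] at hgd
  choose v hv hgv using hg
  refine ⟨v, hv, ?_⟩
  have : g = fun k j => arc (fun s => aeval y (v k s)) j := funext hgv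
  rwa [this] at hgd

theorem dvd_det_sub {S : Type} [CommRing S] {N : ℕ} (p : S) (A B : Matrix (Fin N) (Fin N) S)
    (h : ∀ i j, p ∣ A i j - B i j) : p ∣ A.det - B.det := by
  rw [← Ideal.mem_span_singleton, ← Ideal.Quotient.eq, RingHom.map_det, RingHom.map_det]
  congr 1
  ext i j
  exact Ideal.Quotient.eq.2 (Ideal.mem_span_singleton.2 (h i j))

theorem dvd_aeval_sub {σ k S : Type} [CommRing k] [CommRing S] [Algebra k S] (p : S)
    (x x' : σ → S) (h : ∀ j, p ∣ x j - x' j) (F : MvPolynomial σ k) :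
    p ∣ aeval x F - aeval x' F := by
  induction F using MvPolynomial.induction_on with
  | C a => simp
  | add f g hf hg =>
    rw [map_add, map_add, add_sub_add_comm]
    exact dvd_add hf hg
  | mul_X f s hf =>
    have : aeval x (f * X s) - aeval x' (f * X s) =
        (aeval x f - aeval x' f) * x s + aeval x' f * (x s - x' s) := by
      simp only [map_mul, aeval_X]
      ring
    rw [this]
    exact dvd_add (hf.mul_right _) ((h s).mul_left _)

/-- Specialisation of the universal arc. -/
theorem spec {R k κ : Type} [CommRing R] [CommRing k] [CommRing κ] [Algebra k κ] (f : R →+* k)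
    {N T : ℕ} (y : Fin N × Fin T → κ) (F : MvPolynomial (Fin N) R) (n : ℕ) :
    aeval y (map f (PowerSeries.coeff n
      (aeval (arc (X : Fin N × Fin T → MvPolynomial (Fin N × Fin T) R)) F))) =
      PowerSeries.coeff n (aeval (arc y) (map f F)) := by
  let ψ : MvPolynomial (Fin N × Fin T) R →+* κ :=
    (aeval y : MvPolynomial (Fin N × Fin T) k →ₐ[k] κ).toRingHom.comp (map f)
  have h : (PowerSeries.map ψ).comp (aeval (arc (X : Fin N × Fin T → MvPolynomial _ R)) :
      MvPolynomial (Fin N) R →ₐ[R] _).toRingHom =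
      (aeval (arc y) : MvPolynomial (Fin N) k →ₐ[k] _).toRingHom.comp (map f) := by
    apply MvPolynomial.ringHom_ext
    · intro r
      simp [ψ, PowerSeries.algebraMap_apply]
    · intro j
      simp [ψ, map_arc]
  have h2 := congrArg (PowerSeries.coeff n) (RingHom.congr_fun h F)
  rw [RingHom.comp_apply, PowerSeries.coeff_map] at h2
  exact h2

theorem spec_det {R k κ : Type} [CommRing R] [CommRing k] [CommRing κ] [Algebra k κ] (f : R →+* k)
    {N T : ℕ} (y : Fin N × Fin T → κ)
    (V : Fin N → Fin N × Fin T → MvPolynomial (Fin N × Fin T) R) (n : ℕ) :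
    aeval y (map f (PowerSeries.coeff n (Matrix.of fun k j => arc (V k) j).det)) =
      PowerSeries.coeff n (Matrix.of fun k j => arc (fun s => aeval y (map f (V k s))) j).det := by
  let ψ : MvPolynomial (Fin N × Fin T) R →+* κ :=
    (aeval y : MvPolynomial (Fin N × Fin T) k →ₐ[k] κ).toRingHom.comp (map f)
  have h : PowerSeries.map ψ (Matrix.of fun k j => arc (V k) j).det =
      (Matrix.of fun k j => arc (fun s => aeval y (map f (V k s))) j).det := by
    rw [RingHom.map_det]
    congr 1
    exact Matrix.ext fun k j => map_arc ψ (V k) j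
  rw [← h, PowerSeries.coeff_map]
  rfl

/-- **T-down** -/
theorem tdown {ι R K : Type} [CommRing R] [Field K] [IsAlgClosed K] {π : R →+* K}
    {ev : ι → R →+* ℂ} {U : Filter ι} (hπ : Function.Surjective π)
    (hU : ∀ r, π r = 0 → ∀ᶠ i in U, ev i r = 0) {κ : Type} [Field κ] [Algebra K κ] {N : ℕ}
    (x : Fin N → κ⟦X⟧) (δ : Fin N → Derivation K κ κ) (a E : ℕ) (w : Fin N → ℕ)
    (hw : ∀ j, PowerSeries.X ^ w j ∣ x j)
    (ha : ¬ PowerSeries.X ^ (a + 1) ∣
      (Matrix.of fun i j => PowerSeries.mk fun n => δ j (PowerSeries.coeff n (x i))).det)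
    (F : MvPolynomial (Fin N) R) (hF : PowerSeries.X ^ E ∣ aeval x (map π F)) :
    ∀ᶠ i in U, ∃ (k' : Type) (_ : Field k') (_ : Algebra ℂ k') (x' : Fin N → k'⟦X⟧)
      (δ' : Fin N → Derivation ℂ k' k'), (∀ j, PowerSeries.X ^ w j ∣ x' j) ∧
      (¬ PowerSeries.X ^ (a + 1) ∣
        (Matrix.of fun i j => PowerSeries.mk fun n => δ' j (PowerSeries.coeff n (x' i))).det) ∧
      PowerSeries.X ^ E ∣ aeval x' (map (ev i) F) := by
  classical
  let T := a + 1 + E
  let y : Fin N × Fin T → κ := fun s => PowerSeries.coeff s.2 (x s.1)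
  have hmk : ∀ {k κ : Type} [Field k] [Field κ] [Algebra k κ] (y : Fin N × Fin T → κ)
      (δ : Derivation k κ κ) (j : Fin N),
      (PowerSeries.mk fun n => δ (PowerSeries.coeff n (arc y j))) = arc (fun s => δ (y s)) j := by
    intro k κ _ _ _ y δ j
    ext n
    rw [PowerSeries.coeff_mk, coeff_arc, coeff_arc]
    split_ifs <;> simp
  have h1 : ¬ PowerSeries.X ^ (a + 1) ∣
      (Matrix.of fun k j => arc (fun s => δ k (y s)) j).det := by
    intro h
    apply ha
    have h2 := dvd_det_sub (PowerSeries.X ^ (a + 1))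
      (Matrix.of fun i j => PowerSeries.mk fun n => δ j (PowerSeries.coeff n (x i)))
      (Matrix.of fun k j => arc (fun s => δ k (y s)) j).transpose (fun i j => by
        rw [PowerSeries.X_pow_dvd_iff]
        intro m hm
        have hm' : m < T := by omega
        simp [coeff_arc, hm', y])
    rw [Matrix.det_transpose] at h2
    exact (dvd_iff_dvd_of_dvd_sub h2).2 h
  obtain ⟨v, hv, hd⟩ := rows (K := K) y (fun k s => δ k (y s)) (fun k g hg => by
    rw [← chain, hg, map_zero]) h1
  choose V hV using fun k s => map_surjective π hπ (v k s)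
  rw [PowerSeries.X_pow_dvd_iff] at hd
  push Not at hd
  obtain ⟨m, hm, hd⟩ := hd
  have hFy : PowerSeries.X ^ E ∣ aeval (arc y) (map π F) :=
    (dvd_iff_dvd_of_dvd_sub (dvd_aeval_sub _ x (arc y) (fun j =>
      (pow_dvd_pow _ (by omega)).trans (dvd_sub_arc T x j)) (map π F))).1 hF
  have h := desc hπ hU y (τ := (Fin N × Fin T) ⊕ Fin E)
    (Sum.elim (fun s => if (s.2 : ℕ) < w s.1 then X s else 0)
      fun n => PowerSeries.coeff n (aeval (arc (X : Fin N × Fin T → MvPolynomial _ R)) F))
    (by
      rintro (s | n)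
      · simp only [Sum.elim_inl]
        split_ifs with hs
        · rw [map_X, aeval_X]
          exact PowerSeries.X_pow_dvd_iff.1 (hw s.1) _ hs
        · simp
      · rw [Sum.elim_inr, spec]
        exact PowerSeries.X_pow_dvd_iff.1 hFy _ n.2)
    (PowerSeries.coeff m (Matrix.of fun k j => arc (V k) j).det)
    (by rw [spec_det]; simpa only [hV] using hd) V (by simpa only [hV] using hv)
  filter_upwards [h] with i ⟨k', _, _, y', D, hZ, hc, hD⟩
  refine ⟨k', inferInstance, inferInstance, arc y', D, fun j => ?_, fun hdv => ?_, ?_⟩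
  · rw [PowerSeries.X_pow_dvd_iff]
    intro n hn
    rw [coeff_arc]
    split_ifs with hT
    · simpa [hn] using hZ (Sum.inl (j, ⟨n, hT⟩))
    · rfl
  · apply hc
    rw [spec_det]
    simp only [hmk, hD] at hdv
    rw [← Matrix.det_transpose]
    exact PowerSeries.X_pow_dvd_iff.1 hdv m hm
  · rw [PowerSeries.X_pow_dvd_iff]
    intro n hn
    rw [← spec]
    exact hZ (Sum.inr ⟨n, hn⟩)

end

end Vale.Agent.P283R.Td
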