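import Vale.Agent.P283M.U.Alg
import Mathlib.FieldTheory.IsAlgClosed.Basic
import Mathlib.RingTheory.MvPowerSeries.Trunc
import Mathlib.RingTheory.MvPowerSeries.Order
import Mathlib.Algebra.Polynomial.Lifts
import Mathlib.Order.Filter.Ultrafilter.Basic
import Mathlib.Data.Finsupp.Weight
import Mathlib.RingTheory.Polynomial.Basic

/-!
# Ultrapowers of fields and limits of power series
-/

open MvPowerSeries Filter

noncomputable section

namespace Vale.Agent.P283R.Uf

variable {ι C K σ : Type*}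

/-- `π` presents `K` as the ultrapower of `C` along `𝒰` -/
structure Up [Field C] [Field K] [Algebra C K] (𝒰 : Ultrafilter ι) (π : (ι → C) →ₐ[C] K) :
    Prop where
  onto : Function.Surjective π
  ker : ∀ r, π r = 0 ↔ ∀ᶠ i in (𝒰 : Filter ι), r i = 0

/-- evaluation at level `i` -/
abbrev ev [CommRing C] (i : ι) : (ι → C) →+* C := Pi.evalRingHom (fun _ => C) i

section up

variable [Field C] [Field K] [Algebra C K] {𝒰 : Ultrafilter ι} {π : (ι → C) →ₐ[C] K}

theorem Up.eq (h : Up 𝒰 π) {r s : ι → C} : π r = π s ↔ ∀ᶠ i in (𝒰 : Filter ι), r i = s i := by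
  rw [← sub_eq_zero, ← map_sub, h.ker]
  simp only [Pi.sub_apply, sub_eq_zero]

theorem Up.ne (h : Up 𝒰 π) {r : ι → C} : π r ≠ 0 ↔ ∀ᶠ i in (𝒰 : Filter ι), r i ≠ 0 := by
  rw [Ne, h.ker, Ultrafilter.eventually_not]

theorem Up.isAlgClosed [IsAlgClosed C] (h : Up 𝒰 π) : IsAlgClosed K := by
  refine IsAlgClosed.of_exists_root _ fun p hp hi => ?_
  obtain ⟨q, e, hd, hm⟩ := Polynomial.lifts_and_natDegree_eq_and_monic
    (f := (π : (ι → C) →+* K)) (p := p)
    ((Polynomial.lifts_iff_coeff_lifts _).2 fun n => h.onto _) hp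
  have h0 : 0 < q.natDegree := hd ▸ hi.natDegree_pos
  have h1 : ∀ i, ∃ a, (q.map (ev i)).IsRoot a := fun i => IsAlgClosed.exists_root _ (by
    rw [Polynomial.degree_eq_natDegree (hm.map _).ne_zero, hm.natDegree_map]
    exact_mod_cast h0.ne')
  choose r hr using h1
  refine ⟨π r, ?_⟩
  have h2 : q.eval r = 0 := funext fun i => by
    have := hr i
    rw [Polynomial.IsRoot, show r i = ev i r from rfl, Polynomial.eval_map,
      Polynomial.eval₂_at_apply] at this
    exact this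
  rw [← e, show π r = (π : (ι → C) →+* K) r from rfl, Polynomial.eval_map,
    Polynomial.eval₂_at_apply, h2, map_zero]

end up

/-- **the ultrapower** of an algebraically closed field -/
theorem exists_up {ι C : Type} [Field C] [IsAlgClosed C] [CharZero C] (𝒰 : Ultrafilter ι) :
    ∃ (K : Type) (_ : Field K) (_ : Algebra C K) (_ : IsAlgClosed K) (_ : CharZero K)
      (π : (ι → C) →ₐ[C] K), Up 𝒰 π := by
  classical
  let I : Ideal (ι → C) := P283M.U.nul (𝒰 : Filter ι) ev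
  have hI : ∀ r, r ∈ I ↔ ∀ᶠ i in (𝒰 : Filter ι), r i = 0 := fun r => Iff.rfl
  have hm : I.IsMaximal := by
    refine Ideal.isMaximal_iff.2 ⟨fun h => ?_, fun J r hJ hr hrJ => ?_⟩
    · obtain ⟨i, hi⟩ := ((hI _).1 h).exists
      exact one_ne_zero hi
    · have h1 : 1 - r⁻¹ * r ∈ I := (hI _).2 ((Ultrafilter.eventually_not.2 fun h =>
        hr ((hI _).2 h)).mono fun i hi => by simp [inv_mul_cancel₀ hi])
      simpa using J.add_mem (hJ h1) (J.mul_mem_left r⁻¹ hrJ)
  let _ : Field ((ι → C) ⧸ I) := Ideal.Quotient.field I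
  have hU : Up 𝒰 (Ideal.Quotient.mkₐ C I) :=
    ⟨Ideal.Quotient.mk_surjective, fun r => Ideal.Quotient.eq_zero_iff_mem.trans (hI r)⟩
  exact ⟨(ι → C) ⧸ I, inferInstance, inferInstance, hU.isAlgClosed,
    (RingHom.charZero_iff (algebraMap C _).injective).1 inferInstance, _, hU⟩

section big

variable [CommRing C]

/-- a family of series as one series with coefficients in the ring of families -/
def big (f : ι → MvPowerSeries σ C) : MvPowerSeries σ (ι → C) := fun d i => coeff d (f i)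

theorem coeff_big (f : ι → MvPowerSeries σ C) (d : σ →₀ ℕ) (i : ι) :
    coeff d (big f) i = coeff d (f i) := rfl

theorem map_big (f : ι → MvPowerSeries σ C) (i : ι) : map (ev i) (big f) = f i := by
  ext d; rfl

theorem map_trunc [Finite σ] {A B : Type*} [CommRing A] [CommRing B] (j : A →+* B) (k : ℕ)
    (F : MvPowerSeries σ A) :
    MvPolynomial.map j (truncTotal k F) = truncTotal k (map j F) := by
  ext d
  rw [MvPolynomial.coeff_map, coeff_truncTotal_eq_ite, coeff_truncTotal_eq_ite, coeff_map]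
  split_ifs <;> simp

theorem map_trunc_big [Finite σ] (f : ι → MvPowerSeries σ C) (k : ℕ) (i : ι) :
    MvPolynomial.map (ev i) (truncTotal k (big f)) = truncTotal k (f i) := by
  rw [map_trunc, map_big]

end big

section lim

variable [Field C] [Field K] [Algebra C K] {𝒰 : Ultrafilter ι} {π : (ι → C) →ₐ[C] K}

/-- the limit series -/
def lim (π : (ι → C) →ₐ[C] K) (f : ι → MvPowerSeries σ C) : MvPowerSeries σ K :=
  map (π : (ι → C) →+* K) (big f)

theorem coeff_lim (f : ι → MvPowerSeries σ C) (d : σ →₀ ℕ) :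
    coeff d (lim π f) = π fun i => coeff d (f i) := rfl

theorem map_trunc_lim [Finite σ] (f : ι → MvPowerSeries σ C) (k : ℕ) :
    MvPolynomial.map (π : (ι → C) →+* K) (truncTotal k (big f)) = truncTotal k (lim π f) :=
  map_trunc _ _ _

theorem Up.coeff_eq_zero (h : Up 𝒰 π) (f : ι → MvPowerSeries σ C) (d : σ →₀ ℕ) :
    coeff d (lim π f) = 0 ↔ ∀ᶠ i in (𝒰 : Filter ι), coeff d (f i) = 0 := h.ker _

theorem Up.coeff_ne_zero (h : Up 𝒰 π) (f : ι → MvPowerSeries σ C) (d : σ →₀ ℕ) :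
    coeff d (lim π f) ≠ 0 ↔ ∀ᶠ i in (𝒰 : Filter ι), coeff d (f i) ≠ 0 := h.ne

end lim

section const

variable (𝒰 : Ultrafilter ι)

/-- a family with values in a finite set is constant along the ultrafilter -/
theorem const_of_finite {α : Type*} {S : Set α} (hS : S.Finite) {a : ι → α}
    (h : ∀ᶠ i in (𝒰 : Filter ι), a i ∈ S) : ∃ c ∈ S, ∀ᶠ i in (𝒰 : Filter ι), a i = c := by
  have : ∀ᶠ i in (𝒰 : Filter ι), ∃ c ∈ S, a i = c := h.mono fun i hi => ⟨_, hi, rfl⟩
  exact (Ultrafilter.eventually_exists_mem_iff hS).1 this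

theorem exists_of_finite {α : Type*} {S : Set α} (hS : S.Finite) {p : ι → α → Prop}
    (h : ∀ᶠ i in (𝒰 : Filter ι), ∃ c ∈ S, p i c) :
    ∃ c ∈ S, ∀ᶠ i in (𝒰 : Filter ι), p i c :=
  (Ultrafilter.eventually_exists_mem_iff hS).1 h

theorem const_nat {a : ι → ℕ} {B : ℕ} (h : ∀ᶠ i in (𝒰 : Filter ι), a i ≤ B) :
    ∃ c ≤ B, ∀ᶠ i in (𝒰 : Filter ι), a i = c :=
  const_of_finite 𝒰 (Set.finite_Iic B) h

/-- a common exponent of bounded degree -/
theorem exists_coeff [Finite σ] [CommRing C] {f : ι → MvPowerSeries σ C} {B : ℕ}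
    (h : ∀ᶠ i in (𝒰 : Filter ι), ∃ d : σ →₀ ℕ, d.degree ≤ B ∧ coeff d (f i) ≠ 0) :
    ∃ d : σ →₀ ℕ, d.degree ≤ B ∧ ∀ᶠ i in (𝒰 : Filter ι), coeff d (f i) ≠ 0 :=
  exists_of_finite 𝒰 (Finsupp.finite_of_degree_le B) h

end const

section low

variable [Field C] [Field K] [Algebra C K] {𝒰 : Ultrafilter ι} {π : (ι → C) →ₐ[C] K}

/-- bounded order passes to the limit -/
theorem Up.exists_coeff [Finite σ] (hπ : Up 𝒰 π) {f : ι → MvPowerSeries σ C} {B : ℕ}
    (h : ∀ᶠ i in (𝒰 : Filter ι), ∃ d : σ →₀ ℕ, d.degree ≤ B ∧ coeff d (f i) ≠ 0) :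
    ∃ d : σ →₀ ℕ, d.degree ≤ B ∧ coeff d (lim π f) ≠ 0 ∧
      ∀ᶠ i in (𝒰 : Filter ι), coeff d (f i) ≠ 0 :=
  let ⟨d, h1, h2⟩ := Uf.exists_coeff 𝒰 h
  ⟨d, h1, (hπ.coeff_ne_zero f d).2 h2, h2⟩

/-- in low degrees the supports are those of the limit -/
theorem Up.supp [Finite σ] (hπ : Up 𝒰 π) (f : ι → MvPowerSeries σ C) (k : ℕ) :
    ∀ᶠ i in (𝒰 : Filter ι), ∀ d : σ →₀ ℕ, d.degree ≤ k →
      (coeff d (f i) = 0 ↔ coeff d (lim π f) = 0) := by
  refine (eventually_all_finite (Finsupp.finite_of_degree_le k)).2 fun d _ => ?_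
  by_cases h : coeff d (lim π f) = 0
  · exact ((hπ.coeff_eq_zero f d).1 h).mono fun i hi => iff_of_true hi h
  · exact ((hπ.coeff_ne_zero f d).1 h).mono fun i hi => iff_of_false hi h

end low

/-- **a finite family of sequences** comes from a noetherian ring with generic points -/
theorem fg {ι C : Type*} {A α : Type} [CommRing A] [CommRing C] [IsNoetherianRing A] [Finite α]
    (l : Filter ι) [l.NeBot] (s : ι → A →+* C) (c : α → ι → C) :
    ∃ (A' : Type) (_ : CommRing A') (_ : IsNoetherianRing A') (j : A →+* A') (s' : ι → A' →+* C)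
      (γ : α → A'), (∀ a, (∀ᶠ i in l, s' i a = 0) → a = 0) ∧
      ∀ᶠ i in l, (s' i).comp j = s i ∧ ∀ a, s' i (γ a) = c a i := by
  obtain ⟨s', h1, h2⟩ := P283M.U.exists_quot l fun i =>
    MvPolynomial.eval₂Hom (σ := α) (s i) fun a => c a i
  refine ⟨_, inferInstance, inferInstance, (Ideal.Quotient.mk _).comp MvPolynomial.C, s',
    fun a => Ideal.Quotient.mk _ (MvPolynomial.X a), h1, h2.mono fun i hi => ⟨?_, fun a => ?_⟩⟩
  · rw [← RingHom.comp_assoc, hi]; ext a; simp
  · have := RingHom.congr_fun hi (MvPolynomial.X a)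
    simpa using this

/-- generic points give an embedding in the ultrapower -/
theorem Up.emb [Field C] [Field K] [Algebra C K] {𝒰 : Ultrafilter ι} {π : (ι → C) →ₐ[C] K}
    (h : Up 𝒰 π) {A : Type*} [CommRing A] (s : ι → A →+* C)
    (gen : ∀ a, (∀ᶠ i in (𝒰 : Filter ι), s i a = 0) → a = 0) :
    ∃ t : A →+* K, Function.Injective t ∧ ∀ a, t a = π fun i => s i a :=
  ⟨(π : (ι → C) →+* K).comp (RingHom.pi s), (injective_iff_map_eq_zero _).2 fun a ha =>
    gen a ((h.ker _).1 ha), fun _ => rfl⟩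

/-- **the universal polynomial** of degree `< k` of a family of series -/
theorem univ_poly {ι C K : Type*} {A σ : Type} [Finite σ] [Field C] [Field K] [Algebra C K]
    [CommRing A] [IsNoetherianRing A] {𝒰 : Ultrafilter ι} {π : (ι → C) →ₐ[C] K} (h : Up 𝒰 π)
    (s : ι → A →+* C) (f : ι → MvPowerSeries σ C) (k : ℕ) :
    ∃ (A' : Type) (_ : CommRing A') (_ : IsNoetherianRing A') (j : A →+* A') (s' : ι → A' →+* C)
      (t : A' →+* K) (F : MvPolynomial σ A'), (∀ a, (∀ᶠ i in (𝒰 : Filter ι), s' i a = 0) → a = 0) ∧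
      Function.Injective t ∧ (∀ a, t a = π fun i => s' i a) ∧
      MvPolynomial.map t F = truncTotal k (lim π f) ∧
      ∀ᶠ i in (𝒰 : Filter ι), (s' i).comp j = s i ∧
        MvPolynomial.map (s' i) F = truncTotal k (f i) := by
  classical
  have : Finite {d : σ →₀ ℕ | d.degree ≤ k} := (Finsupp.finite_of_degree_le k).to_subtype
  obtain ⟨A', _, _, j, s', γ, gen, hs⟩ := fg (α := {d : σ →₀ ℕ | d.degree ≤ k})
    (𝒰 : Filter ι) s fun d i => coeff d.1 (f i)
  obtain ⟨t, ht, et⟩ := h.emb s' gen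
  let G : MvPowerSeries σ A' := fun d => if hd : d.degree ≤ k then γ ⟨d, hd⟩ else 0
  have hG : ∀ d (hd : Finsupp.degree d ≤ k), coeff d G = γ ⟨d, hd⟩ := fun d hd => dif_pos hd
  refine ⟨A', inferInstance, inferInstance, j, s', t, truncTotal k G, gen, ht, et, ?_,
    hs.mono fun i hi => ⟨hi.1, ?_⟩⟩
  · ext d
    rw [MvPolynomial.coeff_map, coeff_truncTotal_eq_ite, coeff_truncTotal_eq_ite]
    split_ifs with hd
    · rw [hG d hd.le, et, coeff_lim, h.eq]
      exact hs.mono fun i hi => hi.2 _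
    · exact map_zero _
  · ext d
    rw [MvPolynomial.coeff_map, coeff_truncTotal_eq_ite, coeff_truncTotal_eq_ite]
    split_ifs with hd
    · rw [hG d hd.le, hi.2]
    · exact map_zero _

end Vale.Agent.P283R.Uf
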