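import Vale.Agent.P283R.Co.St
import Vale.Agent.P283R.Co.Uf

/-!
# P283R, CORE: the ultrapower embeds into the complex numbers
-/

open Filter MvPowerSeries Cardinal

noncomputable section

namespace Vale.Agent.P283R.Co

/-- a field over `ℂ` of cardinality at most the continuum embeds into `ℂ` -/
theorem emb_of_card (K : Type) [Field K] (j : ℂ →+* K) (h : #K ≤ 𝔠) : Nonempty (K →+* ℂ) := by
  have : CharZero K := (RingHom.charZero_iff j.injective).1 inferInstance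
  have h1 : 𝔠 ≤ #K := Cardinal.mk_complex ▸ Cardinal.mk_le_of_injective j.injective
  have h2 : #(AlgebraicClosure K) = #ℂ := by
    rw [Cardinal.mk_complex]
    refine le_antisymm ((Algebra.IsAlgebraic.cardinalMk_le_max K _).trans
      (max_le h aleph0_le_continuum)) (h1.trans (Cardinal.mk_le_of_injective
        (algebraMap K (AlgebraicClosure K)).injective))
  obtain ⟨e⟩ := IsAlgClosed.ringEquiv_of_equiv_of_charZero (K := AlgebraicClosure K) (L := ℂ)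
    (by rw [h2, Cardinal.mk_complex]; exact aleph0_lt_continuum) (Cardinal.eq.1 h2)
  exact ⟨e.toRingHom.comp (algebraMap K _)⟩

/-- a field of finite transcendence degree over `ℂ` embeds into `ℂ` -/
theorem emb_of_trdeg (K : Type) [Field K] [Algebra ℂ K] (h : Algebra.trdeg ℂ K ≤ 𝔠) :
    Nonempty (K →+* ℂ) := by
  refine emb_of_card K (algebraMap ℂ K) ?_
  obtain ⟨s, hs⟩ := exists_isTranscendenceBasis ℂ K
  have := hs.isAlgebraic
  refine (Algebra.IsAlgebraic.cardinalMk_le_max (Algebra.adjoin ℂ (Set.range ((↑) : s → K))) K).trans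
    (max_le ((Algebra.cardinalMk_adjoin_le ℂ _).trans (max_le (max_le Cardinal.mk_complex.le ?_)
      aleph0_le_continuum)) aleph0_le_continuum)
  exact Cardinal.mk_range_le.trans (hs.cardinalMk_eq_trdeg.le.trans h)

variable (𝒰 : Ultrafilter ℕ)

/-- the class of a sequence -/
def ucl : (ℕ → ℂ) →+* UK 𝒰 := Germ.coeRingHom _

theorem ucl_apply (r : ℕ → ℂ) : ucl 𝒰 r = (r : UK 𝒰) := rfl

theorem ucl_onto : Function.Surjective (ucl 𝒰) := fun a => Germ.inductionOn a fun r => ⟨r, rfl⟩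

theorem ucl_eq {r s : ℕ → ℂ} : ucl 𝒰 r = ucl 𝒰 s ↔ ∀ᶠ i in (𝒰 : Filter ℕ), r i = s i :=
  Germ.coe_eq

theorem ucl_eq_zero {r : ℕ → ℂ} : ucl 𝒰 r = 0 ↔ ∀ᶠ i in (𝒰 : Filter ℕ), r i = 0 :=
  Germ.coe_eq

theorem ucl_ne_zero {r : ℕ → ℂ} : ucl 𝒰 r ≠ 0 ↔ ∀ᶠ i in (𝒰 : Filter ℕ), r i ≠ 0 := by
  rw [Ne, ucl_eq_zero, Ultrafilter.eventually_not]

/-- the constants -/
def ucst : ℂ →+* UK 𝒰 := (ucl 𝒰).comp (algebraMap ℂ (ℕ → ℂ))

/-- the ultrapower as an algebra (not an instance) -/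
abbrev ukAlg : Algebra ℂ (UK 𝒰) := (ucst 𝒰).toAlgebra

/-- the class of a sequence as a map of algebras -/
def uclA : letI := ukAlg 𝒰; (ℕ → ℂ) →ₐ[ℂ] UK 𝒰 :=
  letI := ukAlg 𝒰; { ucl 𝒰 with commutes' := fun _ => rfl }

theorem up_ucl : letI := ukAlg 𝒰; Uf.Up 𝒰 (uclA 𝒰) :=
  letI := ukAlg 𝒰; ⟨ucl_onto 𝒰, fun _ => ucl_eq_zero 𝒰⟩

theorem uk_algClosed : IsAlgClosed (UK 𝒰) := letI := ukAlg 𝒰; (up_ucl 𝒰).isAlgClosed

theorem uk_charZero : CharZero (UK 𝒰) := (RingHom.charZero_iff (ucst 𝒰).injective).1 inferInstance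

theorem emb : EMB := fun 𝒰 => emb_of_card _ (ucst 𝒰) <|
  (Cardinal.mk_le_of_surjective (ucl_onto 𝒰)).trans (by simp)

variable {N : ℕ} (f : ℕ → MvPowerSeries (Fin N) ℂ)

theorem coeff_ulim (d : Fin N →₀ ℕ) : coeff d (ulim 𝒰 f) = ucl 𝒰 fun i => coeff d (f i) := rfl

theorem ulim_eq : ulim 𝒰 f = map (ucl 𝒰) (Uf.big f) := rfl

theorem ulim_eq_lim : letI := ukAlg 𝒰; ulim 𝒰 f = Uf.lim (uclA 𝒰) f := rfl

theorem coeff_ulim_eq_zero (d : Fin N →₀ ℕ) :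
    coeff d (ulim 𝒰 f) = 0 ↔ ∀ᶠ i in (𝒰 : Filter ℕ), coeff d (f i) = 0 := ucl_eq_zero 𝒰

theorem coeff_ulim_ne_zero (d : Fin N →₀ ℕ) :
    coeff d (ulim 𝒰 f) ≠ 0 ↔ ∀ᶠ i in (𝒰 : Filter ℕ), coeff d (f i) ≠ 0 := ucl_ne_zero 𝒰

theorem map_trunc_ulim (k : ℕ) :
    MvPolynomial.map (ucl 𝒰) (truncTotal k (Uf.big f)) = truncTotal k (ulim 𝒰 f) :=
  Uf.map_trunc _ _ _

/-- in low degrees the supports are those of the limit -/
theorem supp_ulim (k : ℕ) : ∀ᶠ i in (𝒰 : Filter ℕ), ∀ d : Fin N →₀ ℕ, d.degree ≤ k →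
    (coeff d (f i) = 0 ↔ coeff d (ulim 𝒰 f) = 0) :=
  letI := ukAlg 𝒰; (up_ucl 𝒰).supp f k

/-- the germ of a family of points -/
def gpt {A : Type} [CommRing A] (s : ℕ → A →+* ℂ) : A →+* UK 𝒰 := (ucl 𝒰).comp (RingHom.pi s)

theorem gpt_apply {A : Type} [CommRing A] (s : ℕ → A →+* ℂ) (a : A) :
    gpt 𝒰 s a = ucl 𝒰 fun i => s i a := rfl

theorem Gen.inj {A : Type} [CommRing A] {𝒰 : Ultrafilter ℕ} {s : ℕ → A →+* ℂ} (h : Gen 𝒰 s) :
    Function.Injective (gpt 𝒰 s) :=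
  (injective_iff_map_eq_zero _).2 fun a ha => h a ((ucl_eq_zero 𝒰).1 ha)

theorem Gen.isDomain {A : Type} [CommRing A] {𝒰 : Ultrafilter ℕ} {s : ℕ → A →+* ℂ}
    (h : Gen 𝒰 s) : IsDomain A := P283M.U.isDomain_of_gen 𝒰 s h

/-- **the universal polynomial** of degree `< k` -/
theorem univ_pol (k : ℕ) : ∃ (A : Type) (_ : CommRing A) (_ : IsNoetherianRing A) (_ : Algebra ℚ A)
    (s : ℕ → A →+* ℂ) (F : MvPolynomial (Fin N) A), Gen 𝒰 s ∧
      MvPolynomial.map (gpt 𝒰 s) F = truncTotal k (ulim 𝒰 f) ∧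
      ∀ᶠ i in (𝒰 : Filter ℕ), MvPolynomial.map (s i) F = truncTotal k (f i) := by
  let _ := ukAlg 𝒰
  obtain ⟨A, _, _, j, s, t, F, gen, -, et, h1, h2⟩ := Uf.univ_poly (A := ℚ) (up_ucl 𝒰)
    (fun _ => algebraMap ℚ ℂ) f k
  have : t = gpt 𝒰 s := RingHom.ext et
  exact ⟨A, inferInstance, inferInstance, j.toAlgebra, s, F, gen, this ▸ h1,
    h2.mono fun i hi => hi.2⟩

end Vale.Agent.P283R.Co
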