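import Vale.Agent.P283R.U.St
import Vale.Agent.P283R.Co.St

/-!
# Orders along an arc that factors through a monomial chart
-/

open MvPowerSeries

namespace Vale.Agent.P283R.Co

attribute [-instance] HahnSeries.powerSeriesAlgebra

variable {σ : Type} [Fintype σ] [DecidableEq σ]

section

variable {R A k₀ : Type} [CommRing R] [IsDomain R] [CommRing A] [CommRing k₀]
  [Algebra k₀ (HahnSeries ℝ R)]

omit [IsDomain R] in
theorem exists_ord {a : HahnSeries ℝ R} (h : a ≠ 0) : ∃ w : ℝ, a.orderTop = w := by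
  obtain ⟨w, hw⟩ := WithTop.ne_top_iff_exists.1 (HahnSeries.orderTop_ne_top.2 h)
  exact ⟨w, hw.symm⟩

omit [IsDomain R] in
theorem ne_of_det {x : σ → HahnSeries ℝ R}
    {θ : σ → Derivation k₀ (HahnSeries ℝ R) (HahnSeries ℝ R)}
    (h : (Matrix.of fun j l => θ l (x j)).det ≠ 0) (j : σ) : x j ≠ 0 := fun e =>
  h (Matrix.det_eq_zero_of_row_eq_zero j fun l => by simp [e])

omit [DecidableEq σ] in
/-- the order of a unit times a monomial -/
theorem ord_um (s : A →+* R) {y : σ → HahnSeries ℝ R} (hy : Pos y) {w : σ → ℝ}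
    (hw : ∀ j, (y j).orderTop = w j) {u : MvPowerSeries σ A} (hu : IsUnit u) (m : σ →₀ ℕ) :
    (ev y (map s (u * monomial m 1))).orderTop = (∑ j, m j * w j : ℝ) := by
  rw [map_mul, map_monomial, map_one, orderTop_ev_mon hy _ m hw, Finsupp.sum_fintype _ _ (by simp)]
  rw [constantCoeff_map]
  exact ((hu.map (constantCoeff (σ := σ) (R := A))).map s).ne_zero

omit [DecidableEq σ] in
theorem ord_um' (s : A →+* R) {y : σ → HahnSeries ℝ R} (hy : Pos y) {u : MvPowerSeries σ A}
    (hu : IsUnit u) (m : σ →₀ ℕ) :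
    (ev y (map s (u * monomial m 1))).orderTop = (m.prod fun j e => y j ^ e).orderTop := by
  rw [map_mul, map_monomial, map_one, ev_mul hy, HahnSeries.orderTop_mul, orderTop_ev_unit hy,
    zero_add, ev_monomial hy, one_smul]
  rw [constantCoeff_map]
  exact ((hu.map (constantCoeff (σ := σ) (R := A))).map s).ne_zero

/-- the orders along an arc through a chart with monomial Jacobian -/
theorem chart (s : A →+* R) {y : σ → HahnSeries ℝ R} (hy : Pos y)
    {θ : σ → Derivation k₀ (HahnSeries ℝ R) (HahnSeries ℝ R)} (hθ : ∀ l, Ctr (θ l))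
    (hs : ∀ l c, θ l (algebraMap R _ (s c)) = 0) (G : σ → MvPowerSeries σ A)
    {u : MvPowerSeries σ A} (hu : IsUnit u) {ga : σ →₀ ℕ}
    (hJ : (Matrix.of fun i j => pderiv A j (G i)).det = u * monomial ga 1)
    (h0 : (Matrix.of fun i l => θ l (ev y (map s (G i)))).det ≠ 0) :
    ∃ (w : σ → ℝ) (a : ℝ), (∀ j, 0 < w j) ∧ (∀ j, (y j).orderTop = w j) ∧
      (Matrix.of fun j l => θ l (y j)).det.orderTop = a ∧ ∑ j, w j ≤ a ∧
      (Matrix.of fun i l => θ l (ev y (map s (G i)))).det.orderTop =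
        (∑ j, ga j * w j + a : ℝ) := by
  rw [det_der_ev hy s hθ hs G] at h0 ⊢
  have h1 := right_ne_zero_of_mul h0
  choose w hw using fun j => exists_ord (ne_of_det h1 j)
  obtain ⟨a, ha⟩ := exists_ord h1
  refine ⟨w, a, fun j => ?_, hw, ha, ?_, ?_⟩
  · have := hy j
    rw [hw] at this
    exact_mod_cast this
  · have : Ge (∑ j, w j) (Matrix.of fun j l => θ l (y j)).det :=
      ge_det fun j l => (hθ l).ge (le_of_eq (hw j).symm)
    unfold Ge at this
    rw [ha] at this
    exact_mod_cast this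
  · rw [HahnSeries.orderTop_mul, hJ, ord_um s hy hw hu, ha, WithTop.coe_add]

end

section

variable {k K : Type} [Field k] [Field K]

/-- change of the field of coefficients -/
def hm (φ : k →+* K) : HahnSeries ℝ k →+* HahnSeries ℝ K where
  toFun a := a.map φ
  map_one' := HahnSeries.map_one φ.toMonoidWithZeroHom
  map_mul' _ _ := HahnSeries.map_mul φ.toNonUnitalRingHom
  map_zero' := by ext; simp
  map_add' _ _ := HahnSeries.map_add φ.toAddMonoidHom

theorem coeff_hm (φ : k →+* K) (a : HahnSeries ℝ k) (g : ℝ) :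
    (hm φ a).coeff g = φ (a.coeff g) := rfl

theorem orderTop_hm (φ : k →+* K) (a : HahnSeries ℝ k) : (hm φ a).orderTop = a.orderTop := by
  refine le_antisymm (HahnSeries.le_orderTop_iff_forall.2 fun g hg => ?_)
    (HahnSeries.le_orderTop_iff_forall.2 fun g hg => ?_)
  · have := HahnSeries.coeff_eq_zero_of_lt_orderTop hg
    rwa [coeff_hm, _root_.map_eq_zero] at this
  · rw [coeff_hm, HahnSeries.coeff_eq_zero_of_lt_orderTop hg, map_zero]

theorem thl_hm (φ : k →+* K) (l : ℝ →+ k) (a : HahnSeries ℝ k) :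
    thl (k := K) (φ.toAddMonoidHom.comp l) 0 (hm φ a) = hm φ (thl (k := k) l 0 a) := by
  ext g
  simp [coeff_thl, coeff_hm]

omit [Fintype σ] [DecidableEq σ] in
theorem Pos.hm {y : σ → HahnSeries ℝ k} (hy : Pos y) (φ : k →+* K) : Pos fun j => hm φ (y j) :=
  fun j => by rw [orderTop_hm]; exact hy j

theorem det_hm (φ : k →+* K) (l : σ → (ℝ →+ k)) (y : σ → HahnSeries ℝ k) :
    (Matrix.of fun j i => thl (k := K) (φ.toAddMonoidHom.comp (l i)) 0 (hm φ (y j))).det =
      hm φ (Matrix.of fun j i => thl (k := k) (l i) 0 (y j)).det := by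
  rw [RingHom.map_det]
  congr 1
  ext1 j i
  simp only [Matrix.of_apply, RingHom.mapMatrix_apply, Matrix.map_apply, thl_hm]

omit [DecidableEq σ] in
theorem ev_subst_map {A B : Type} [CommRing A] [CommRing B] (ρ : A →+* B) (t : B →+* k)
    {y : σ → HahnSeries ℝ k} (hy : Pos y) {G : σ → MvPowerSeries σ B}
    (hG : ∀ j, constantCoeff (G j) = 0) (F : MvPowerSeries σ A) :
    ev (fun j => ev y (map t (G j))) (map (t.comp ρ) F) = ev y (map t ((map ρ F).subst G)) := by
  have h := (_root_.P283R.U.loc_sb ρ G hG).ev_map t hy F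
  simp only [_root_.P283R.U.sb_X] at h
  rw [← h]
  simp [_root_.P283R.U.sb]

/-- all orders along an arc through a monomial chart -/
theorem chart_all {B : Type} [CommRing B] (t : B →+* k) {y : σ → HahnSeries ℝ k} (hy : Pos y)
    (l : σ → (ℝ →+ k)) {G : σ → MvPowerSeries σ B} (hG : ∀ j, constantCoeff (G j) = 0)
    {u : MvPowerSeries σ B} (hu : IsUnit u) {ga : σ →₀ ℕ}
    (hJ : (Matrix.of fun i j => pderiv B j (G i)).det = u * monomial ga 1)
    {x : σ → HahnSeries ℝ k} (hx : ∀ j, x j = ev y (map t (G j)))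
    (h0 : (Matrix.of fun j i => thl (k := k) (l i) 0 (x j)).det ≠ 0) :
    ∃ (w : σ → ℝ) (a : ℝ), (∀ j, 0 < w j) ∧
      (Matrix.of fun j i => thl (k := k) (l i) 0 (x j)).det.orderTop = a ∧
      ∑ j, (ga j + 1) * w j ≤ a ∧
      (∀ (j : σ) (v : MvPowerSeries σ B) (m : σ →₀ ℕ), IsUnit v → G j = v * monomial m 1 →
        (x j).orderTop = (∑ i, m i * w i : ℝ)) ∧
      ∀ (A : Type) [CommRing A] (ρ : A →+* B) (F : MvPowerSeries σ A) (v : MvPowerSeries σ B)
        (m : σ →₀ ℕ), IsUnit v → (map ρ F).subst G = v * monomial m 1 →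
        (ev x (map (t.comp ρ) F)).orderTop = (∑ i, m i * w i : ℝ) := by
  obtain rfl : x = fun j => ev y (map t (G j)) := funext hx
  obtain ⟨w, a, hw, hyw, -, ha, hd⟩ := chart t hy (θ := fun i => thl (k := k) (l i) 0)
    (fun i => ctr_thl _ _) (fun i c => Derivation.map_algebraMap _ _) G hu hJ h0
  refine ⟨w, _, hw, hd, ?_, fun j v m hv e => ?_, fun A _ ρ F v m hv e => ?_⟩
  · simp only [add_mul, one_mul, Finset.sum_add_distrib]
    linarith
  · simp only [e]
    exact ord_um t hy hyw hv m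
  · rw [ev_subst_map ρ t hy hG, e]
    exact ord_um t hy hyw hv m

/-- the same chart arc pushed forward at a second point of the ring of constants -/
theorem push_field (φ : k →+* K) {B : Type} [CommRing B] (t : B →+* k) (T : B →+* K)
    {y : σ → HahnSeries ℝ k} (hy : Pos y) (l : σ → (ℝ →+ k)) {G : σ → MvPowerSeries σ B}
    (hG : ∀ j, constantCoeff (G j) = 0) (hm1 : ∀ j, _root_.P283R.U.UM (G j))
    (hJ : _root_.P283R.U.UM (Matrix.of fun i j => pderiv B j (G i)).det)
    {x : σ → HahnSeries ℝ k} (hx : ∀ j, x j = ev y (map t (G j)))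
    (h0 : (Matrix.of fun j i => thl (k := k) (l i) 0 (x j)).det ≠ 0) :
    ∃ (X : σ → HahnSeries ℝ K) (L : σ → (ℝ →+ K)), Pos X ∧
      (∀ j, (X j).orderTop = (x j).orderTop) ∧
      (Matrix.of fun j i => thl (k := K) (L i) 0 (X j)).det.orderTop =
        (Matrix.of fun j i => thl (k := k) (l i) 0 (x j)).det.orderTop ∧
      ∀ (A : Type) [CommRing A] (ρ : A →+* B) (F : MvPowerSeries σ A),
        _root_.P283R.U.UM ((map ρ F).subst G) →
        (ev X (map (T.comp ρ) F)).orderTop = (ev x (map (t.comp ρ) F)).orderTop := by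
  obtain rfl : x = fun j => ev y (map t (G j)) := funext hx
  obtain ⟨u, ga, hu, hJ⟩ := hJ
  obtain ⟨w, a, -, hyw, ha, -, hd⟩ := chart t hy (θ := fun i => thl (k := k) (l i) 0)
    (fun i => ctr_thl _ _) (fun i c => Derivation.map_algebraMap _ _) G hu hJ h0
  have hY := hy.hm φ
  have hYw : ∀ j, (hm φ (y j)).orderTop = w j := fun j => by rw [orderTop_hm, hyw]
  refine ⟨fun j => ev (fun j => hm φ (y j)) (map T (G j)),
    fun i => φ.toAddMonoidHom.comp (l i), ?_, fun j => ?_, ?_, fun A _ ρ F hF => ?_⟩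
  · exact pos_ev hY fun j => by rw [constantCoeff_map, hG, map_zero]
  · obtain ⟨v, m, hv, e⟩ := hm1 j
    simp only [e]
    rw [ord_um T hY hYw hv, ord_um t hy hyw hv]
  · rw [hd, det_der_ev hY T (θ := fun i => thl (k := K) (φ.toAddMonoidHom.comp (l i)) 0)
      (fun i => ctr_thl _ _) (fun i c => Derivation.map_algebraMap _ _) G,
      HahnSeries.orderTop_mul, hJ, ord_um T hY hYw hu, det_hm, orderTop_hm, ha, WithTop.coe_add]
  · obtain ⟨v, m, hv, e⟩ := hF
    rw [ev_subst_map ρ T hY hG, ev_subst_map ρ t hy hG, e, ord_um T hY hYw hv,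
      ord_um t hy hyw hv]

end

theorem ev_push {N : ℕ} {A : Type} [CommRing A] {G : Fin N → MvPowerSeries (Fin N) A}
    (hG : ∀ j, constantCoeff (G j) = 0) (t : A →+* ℂ) {y : Fin N → HS} (hy : Pos y)
    (F : MvPowerSeries (Fin N) A) : ev (push G t y) (map t F) = ev y (map t (F.subst G)) := by
  have := ev_subst_map (RingHom.id A) t hy hG F
  rw [RingHom.comp_id, map_id] at this
  exact this

theorem jd_push {N : ℕ} {A : Type} [CommRing A] (G : Fin N → MvPowerSeries (Fin N) A)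
    (t : A →+* ℂ) {y : Fin N → HS} (hy : Pos y) (l : Fin N → ℝ →+ ℂ) :
    Jd l (push G t y) = ev y (map t (Matrix.of fun i j => pderiv A j (G i)).det) * Jd l y :=
  det_der_ev hy t (θ := fun i => thl (l i) (0 : Derivation ℂ ℂ ℂ)) (fun _ => ctr_thl _ _)
    (fun _ _ => Derivation.map_algebraMap _ _) G

theorem pos_push {N : ℕ} {A : Type} [CommRing A] {G : Fin N → MvPowerSeries (Fin N) A}
    (hG : ∀ j, constantCoeff (G j) = 0) (t : A →+* ℂ) {y : Fin N → HS} (hy : Pos y) :
    Pos (push G t y) :=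
  pos_ev hy fun j => by rw [constantCoeff_map, hG, map_zero]

theorem ch1 : CH1 := by
  intro N A _ F G α γ μ h t y l a hy ha
  obtain ⟨u, hu, hJ⟩ := h.jac
  have h0 : Jd l (push G t y) ≠ 0 := fun e => by simp [e] at ha
  obtain ⟨w, a', hw, hyw, -, h1, hd⟩ := chart t hy
    (θ := fun i => thl (l i) (0 : Derivation ℂ ℂ ℂ)) (fun i => ctr_thl _ _)
    (fun i c => Derivation.map_algebraMap _ _) G hu hJ h0
  refine ⟨w, hw, fun j => ?_, ?_, ?_⟩
  · obtain ⟨v, hv, e⟩ := h.g j
    simp only [push, e]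
    exact ord_um t hy hyw hv _
  · obtain ⟨v, hv, e⟩ := h.f
    rw [ev_push h.cc t hy, e]
    exact ord_um t hy hyw hv _
  · have h2 : ((∑ j, γ j * w j + a' : ℝ) : WithTop ℝ) ≤ a := hd ▸ ha
    rw [WithTop.coe_le_coe] at h2
    simp only [add_mul, one_mul, Finset.sum_add_distrib]
    linarith

theorem ch2 : CH2 := by
  intro N A _ F G α γ μ h t t' y l hy
  refine ⟨pos_push h.cc t hy, fun j => ?_, ?_, ?_⟩
  · obtain ⟨v, hv, e⟩ := h.g j
    simp only [push, e]
    rw [ord_um' t hy hv, ord_um' t' hy hv]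
  · obtain ⟨v, hv, e⟩ := h.f
    rw [ev_push h.cc t hy, ev_push h.cc t' hy, e, ord_um' t hy hv, ord_um' t' hy hv]
  · obtain ⟨v, hv, e⟩ := h.jac
    rw [jd_push G t hy, jd_push G t' hy, HahnSeries.orderTop_mul, HahnSeries.orderTop_mul, e,
      ord_um' t hy hv, ord_um' t' hy hv]

end Vale.Agent.P283R.Co
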