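import Vale.Agent.P283R.U.Hom
import Vale.Agent.P283R.Co.St

/-!
# P283R, step 4: a monomial chart is realised by an arc at any integral weight
-/

open MvPowerSeries Finsupp

namespace P283R.Rz

open P283R.U

noncomputable section

section ext

variable {K S κ : Type} [CommRing K] [CommRing S] [IsDomain S] [Field κ] [Algebra K S]
  [Algebra S κ] [Algebra K κ] [IsScalarTower K S κ] [IsFractionRing S κ]

/-- the first order deformation given by a derivation -/
def dual (κ : Type) [Field κ] [Algebra S κ] (d : Derivation K S S) :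
    S →+* TrivSqZeroExt κ κ where
  toFun s := TrivSqZeroExt.inl (algebraMap S κ s) + TrivSqZeroExt.inr (algebraMap S κ (d s))
  map_one' := by ext <;> simp
  map_mul' a b := by
    ext
    · simp
    · simp [mul_comm, -DualNumber.inr_eq_smul_eps]
  map_zero' := by ext <;> simp
  map_add' a b := by ext <;> simp [-DualNumber.inr_eq_smul_eps]

theorem exists_ext (d : Derivation K S S) :
    ∃ D : Derivation K κ κ, ∀ s, D (algebraMap S κ s) = algebraMap S κ (d s) := by
  have hu : ∀ y : nonZeroDivisors S, IsUnit (dual κ d y) := fun y => by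
    rw [TrivSqZeroExt.isUnit_iff_isUnit_fst]
    have : algebraMap S κ y ≠ 0 := IsFractionRing.to_map_ne_zero_of_mem_nonZeroDivisors y.2
    simp [dual, this, -DualNumber.inr_eq_smul_eps]
  let L : κ →+* TrivSqZeroExt κ κ := IsLocalization.lift hu
  have hL : ∀ s, L (algebraMap S κ s) = dual κ d s := fun s => IsLocalization.lift_eq hu s
  have h1 : ∀ a, (L a).fst = a := fun a => by
    have : (TrivSqZeroExt.fstHom κ κ κ).toRingHom.comp L = RingHom.id κ :=
      IsLocalization.ringHom_ext (nonZeroDivisors S) (RingHom.ext fun s => by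
        simp [hL, dual])
    exact congr($this a)
  have hm : ∀ a b, (L (a * b)).snd = a * (L b).snd + b * (L a).snd := fun a b => by
    rw [map_mul, TrivSqZeroExt.snd_mul, h1, h1]
    simp [mul_comm]
  have hc : ∀ c : K, (L (algebraMap K κ c)).snd = 0 := fun c => by
    rw [IsScalarTower.algebraMap_apply K S κ, hL]
    simp [dual]
  refine ⟨Derivation.mk' ⟨⟨fun a => (L a).snd, fun a b => by simp⟩, fun c a => ?_⟩
    fun a b => hm a b, fun s => ?_⟩
  · simp only [Algebra.smul_def, hm, hc, RingHom.id_apply, mul_zero, add_zero]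
  · show (L _).snd = _
    simp [hL, dual, -DualNumber.inr_eq_smul_eps]

/-- a derivation acting on the coefficients -/
def cw (D : Derivation K κ κ) : Derivation K (PowerSeries κ) (PowerSeries κ) :=
  Derivation.mk'
    { toFun := fun f => PowerSeries.mk fun n => D (PowerSeries.coeff n f)
      map_add' := fun f g => by ext n; simp
      map_smul' := fun c f => by ext n; simp }
    fun f g => by
      ext n
      simp only [LinearMap.coe_mk, AddHom.coe_mk, PowerSeries.coeff_mk, PowerSeries.coeff_mul,
        map_sum, Derivation.leibniz, smul_eq_mul, map_add, Finset.sum_add_distrib]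
      congr 1
      rw [← Finset.Nat.sum_antidiagonal_swap]
      simp

theorem coeff_cw (D : Derivation K κ κ) (f : PowerSeries κ) (n : ℕ) :
    PowerSeries.coeff n (cw D f) = D (PowerSeries.coeff n f) := by
  simp [cw]

theorem cw_X (D : Derivation K κ κ) : cw D PowerSeries.X = 0 := by
  ext n
  rw [coeff_cw, PowerSeries.coeff_X]
  split_ifs <;> simp

end ext

section grade

variable {σ B : Type} [CommRing B] (w : σ → ℕ)

theorem whc_mul (n : ℕ) (F G : MvPowerSeries σ B) :
    weightedHomogeneousComponent w n (F * G) = ∑ p ∈ Finset.HasAntidiagonal.antidiagonal n,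
      weightedHomogeneousComponent w p.1 F * weightedHomogeneousComponent w p.2 G := by
  classical
  ext d
  simp only [map_sum, coeff_mul, coeff_weightedHomogeneousComponent]
  rw [Finset.sum_comm]
  split_ifs with h
  · refine Finset.sum_congr rfl fun a ha => ?_
    rw [Finset.HasAntidiagonal.mem_antidiagonal] at ha
    rw [Finset.sum_eq_single (weight w a.1, weight w a.2)]
    · simp
    · rintro ⟨p, q⟩ _ hb
      by_cases h1 : weight w a.1 = p
      · have h2 : weight w a.2 ≠ q := fun h2 => hb (by rw [h1, h2])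
        simp [h2]
      · simp [h1]
    · intro hb
      exact absurd (by rw [Finset.HasAntidiagonal.mem_antidiagonal, ← map_add, ha, h]) hb
  · refine (Finset.sum_eq_zero fun a ha => Finset.sum_eq_zero fun p hp => ?_).symm
    rw [Finset.HasAntidiagonal.mem_antidiagonal] at ha hp
    by_cases h1 : weight w a.1 = p.1
    · have h2 : weight w a.2 ≠ p.2 := fun h2 => h (by rw [← ha, map_add, h1, h2, hp])
      simp [h2]
    · simp [h1]

theorem whc_monomial (n : ℕ) (m : σ →₀ ℕ) (c : B) :
    weightedHomogeneousComponent w n (monomial m c) =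
      if weight w m = n then monomial m c else 0 := by
  classical
  ext d
  rw [coeff_weightedHomogeneousComponent]
  by_cases e : d = m
  · subst e
    split_ifs <;> simp
  · split_ifs <;> simp [coeff_monomial, e]

/-- the grading: `y ↦ y t ^ w` -/
def gr : MvPowerSeries σ B →+* PowerSeries (MvPowerSeries σ B) where
  toFun F := PowerSeries.mk fun n => weightedHomogeneousComponent w n F
  map_one' := by
    ext1 n
    rw [PowerSeries.coeff_mk, ← monomial_zero_one, whc_monomial, PowerSeries.coeff_one]
    simp [eq_comm]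
  map_mul' F G := by
    ext1 n
    simp [PowerSeries.coeff_mul, whc_mul]
  map_zero' := by ext1 n; simp
  map_add' F G := by ext1 n; simp

theorem coeff_gr (F : MvPowerSeries σ B) (n : ℕ) :
    PowerSeries.coeff n (gr w F) = weightedHomogeneousComponent w n F :=
  PowerSeries.coeff_mk n fun n => weightedHomogeneousComponent w n F

theorem gr_monomial (m : σ →₀ ℕ) (c : B) :
    gr w (monomial m c) = PowerSeries.C (monomial m c) * PowerSeries.X ^ weight w m := by
  ext1 n
  rw [coeff_gr, whc_monomial, PowerSeries.coeff_C_mul, PowerSeries.coeff_X_pow]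
  simp [eq_comm]

theorem gr_C (c : B) : gr w (C c) = PowerSeries.C (C c) := by
  rw [← monomial_zero_eq_C_apply, gr_monomial]
  simp

theorem pderiv_whc (l : σ) (n : ℕ) (F : MvPowerSeries σ B) :
    pderiv B l (weightedHomogeneousComponent w n F) =
      if w l ≤ n then weightedHomogeneousComponent w (n - w l) (pderiv B l F) else 0 := by
  classical
  ext d
  have e : weight w (d + single l 1) = weight w d + w l := by
    rw [map_add, weight_single]
    simp
  rw [coeff_pderiv, coeff_weightedHomogeneousComponent, e]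
  split_ifs with h1 h2 h2
  · rw [coeff_weightedHomogeneousComponent, if_pos (by omega), coeff_pderiv]
  · omega
  · rw [coeff_weightedHomogeneousComponent, if_neg (by omega), zero_mul]
  · simp

end grade

/-- **realisation** of a chart at the weight `w` -/
theorem real {K B σ : Type} [Field K] [CommRing B] [IsDomain B] [Fintype σ] [DecidableEq σ]
    {j : K →+* B} {ψ : MvPowerSeries σ K →+* MvPowerSeries σ B} (hψ : Loc j ψ) (w : σ → ℕ) :
    ∃ (κ : Type) (_ : Field κ) (_ : Algebra K κ) (g : MvPowerSeries σ B →+* PowerSeries κ)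
      (δ : σ → Derivation K κ κ),
      (∀ (u : MvPowerSeries σ B) (m : σ →₀ ℕ), IsUnit u →
        (g (u * monomial m 1)).order = weight w m) ∧
      (Matrix.of fun i l => cw (δ l) (g (ψ (X i)))).det =
        PowerSeries.X ^ (∑ l, w l) * g (jac ψ) ∧
      (∀ p : MvPolynomial σ K, g (ψ p) = MvPolynomial.aeval (fun i => g (ψ (X i))) p) ∧
      ∀ m : ℕ, (∀ i, PowerSeries.X ^ m ∣ g (ψ (X i))) → ∀ (n : ℕ) (F : MvPowerSeries σ K),
        Van n F → PowerSeries.X ^ (n * m) ∣ g (ψ F) := by
  let _ : Algebra K B := j.toAlgebra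
  have : IsDomain (MvPowerSeries σ B) := NoZeroDivisors.to_isDomain _
  let κ := FractionRing (MvPowerSeries σ B)
  choose D hD using fun l : σ =>
    exists_ext (K := K) (S := MvPowerSeries σ B) (κ := κ) ((pderiv B l).restrictScalars K)
  let ι : PowerSeries (MvPowerSeries σ B) →+* PowerSeries κ := PowerSeries.map (algebraMap (MvPowerSeries σ B) κ)
  let g : (MvPowerSeries σ B) →+* PowerSeries κ := ι.comp (gr w)
  have hθ : ∀ l F, cw (D l) (g F) = PowerSeries.X ^ w l * g (pderiv B l F) := fun l F => by
    ext n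
    rw [coeff_cw, PowerSeries.coeff_X_pow_mul']
    simp only [g, ι, RingHom.comp_apply, PowerSeries.coeff_map, coeff_gr, hD]
    rw [Derivation.restrictScalars_apply, pderiv_whc]
    split_ifs <;> simp
  refine ⟨κ, inferInstance, inferInstance, g, D,
    fun u m hu => ?_, ?_, fun p => ?_, fun m hm n => ?_⟩
  · have h1 : algebraMap (MvPowerSeries σ B) κ (monomial m 1) ≠ 0 := by
      rw [Ne, IsFractionRing.to_map_eq_zero_iff]
      intro h
      simpa using congr(coeff m $h)
    rw [map_mul, PowerSeries.order_mul, PowerSeries.order_zero_of_unit (hu.map g), zero_add]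
    simp only [g, ι, RingHom.comp_apply, gr_monomial, map_mul, map_pow, PowerSeries.map_C,
      PowerSeries.map_X]
    rw [PowerSeries.order_mul, PowerSeries.order_X_pow,
      PowerSeries.order_zero_of_unit ((isUnit_iff_ne_zero.2 h1).map PowerSeries.C), zero_add]
  · simp only [hθ]
    rw [← Finset.prod_pow_eq_pow_sum, jac, RingHom.map_det, ← Matrix.det_mul_row]
    rfl
  · induction p using MvPolynomial.induction_on with
    | C a =>
      rw [MvPolynomial.coe_C, hψ.c, MvPolynomial.aeval_C]
      simp only [g, ι, RingHom.comp_apply, gr_C, PowerSeries.map_C]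
      rw [PowerSeries.algebraMap_apply, IsScalarTower.algebraMap_apply K (MvPowerSeries σ B) κ,
        MvPowerSeries.algebraMap_apply]
      rfl
    | add p q hp hq => rw [MvPolynomial.coe_add, map_add, map_add, map_add, hp, hq]
    | mul_X p i hp =>
      rw [MvPolynomial.coe_mul, MvPolynomial.coe_X, map_mul, map_mul, map_mul, hp,
        MvPolynomial.aeval_X]
  · induction n with
    | zero => intro F _; simp
    | succ n ih =>
      intro F hF
      obtain ⟨G, hG, rfl⟩ := hF.dec
      rw [map_sum, map_sum]
      refine Finset.dvd_sum fun i _ => ?_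
      rw [map_mul, map_mul, add_mul, one_mul, add_comm, pow_add]
      exact mul_dvd_mul (hm i) (ih _ (hG i))

theorem dvd_of_order {κ : Type} [Field κ] {f : PowerSeries κ} {n : ℕ} (h : f.order = n) :
    PowerSeries.X ^ n ∣ f :=
  PowerSeries.X_pow_dvd_iff.2 fun m hm => PowerSeries.coeff_of_lt_order m (by
    rw [h]; exact_mod_cast hm)

theorem not_dvd_of_order {κ : Type} [Field κ] {f : PowerSeries κ} {n : ℕ} (h : f.order = n) :
    ¬ PowerSeries.X ^ (n + 1) ∣ f := fun h' => by
  have := PowerSeries.nat_le_order f (n + 1) (PowerSeries.X_pow_dvd_iff.1 h')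
  rw [h] at this
  exact absurd (by exact_mod_cast this) (Nat.not_succ_le_self n)

end

end P283R.Rz

namespace Vale.Agent.P283R.Co

open _root_.P283R.U _root_.P283R.Rz

/-- the arc of a chart -/
theorem arc_of {N : ℕ} {k A : Type} [Field k] [CommRing A] [IsDomain A] {ι : k →+* A}
    {ψ : MvPowerSeries (Fin N) k →+* MvPowerSeries (Fin N) A} (hψ : Loc ι ψ)
    {γ : Fin N →₀ ℕ} {μ : Fin N → Fin N →₀ ℕ} (hg : ∀ j, UM (ψ (X j)) (μ j)) (hj : UM (jac ψ) γ)
    (w : Fin N → ℕ) (hw : ∀ j, 0 < ∑ i, μ j i * w i) (f : MvPowerSeries (Fin N) k) (E : ℕ)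
    (hf : E = 0 ∨ f = 0 ∨ ∃ α, UM (ψ f) α ∧ E ≤ ∑ i, α i * w i) :
    IR k f (∑ i, (γ i + 1) * w i) E fun j => ∑ i, μ j i * w i := by
  obtain ⟨κ, _, _, g, δ, ho, hd, hp, hv⟩ := real hψ w
  have hu : ∀ {F m}, UM F m → (g F).order = ((∑ i, m i * w i : ℕ) : ℕ∞) := by
    rintro F m ⟨u, hu, rfl⟩
    rw [ho u m hu, weight_eq_sum]
    rfl
  refine ⟨κ, inferInstance, inferInstance, fun j => g (ψ (X j)), δ,
    ⟨hw, fun j => dvd_of_order (hu (hg j)), not_dvd_of_order ?_⟩, ?_⟩
  · refine (congrArg PowerSeries.order hd).trans ?_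
    rw [PowerSeries.order_mul, PowerSeries.order_X_pow, hu hj, ← Nat.cast_add,
      ← Finset.sum_add_distrib]
    exact congrArg _ (Finset.sum_congr rfl fun i _ => by ring)
  · rcases hf with rfl | rfl | ⟨α, hα, hE⟩
    · simp
    · simp
    · have h1 := hv 1 (fun i => (pow_dvd_pow _ (hw i)).trans (dvd_of_order (hu (hg i)))) E _
        (van_sub_trunc E f)
      rw [mul_one, map_sub, map_sub, hp] at h1
      exact (dvd_sub_right ((pow_dvd_pow _ hE).trans (dvd_of_order (hu hα)))).1 h1

theorem ch3 : CH3 := fun N k A _ _ _ ι f G α γ μ h w hw => by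
  have e : ∀ j, sb ι G h.cc (X j) = G j := sb_X ι G h.cc
  refine arc_of (loc_sb ι G h.cc) (fun j => (e j).symm ▸ h.g j) ?_ w hw f _
    (Or.inr (Or.inr ⟨α, ?_, le_rfl⟩))
  · simpa only [jac, e] using h.jac
  · simpa [sb] using h.f

theorem mon : MON := fun N k _ f w hw => by
  have h : ∀ (f : MvPowerSeries (Fin N) k) E, E = 0 ∨ f = 0 → IR k f (∑ j, w j) E w :=
    fun f E hf => by
    have := arc_of (loc_id (σ := Fin N) (A := k)) (γ := 0) (μ := fun j => single j 1)
      (fun j => ⟨1, isUnit_one, by simp [X]⟩)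
      ⟨1, isUnit_one, by rw [jac_of_X _ fun _ => rfl]; simp⟩ w
      (fun j => by simpa [single_apply] using hw j) f E (hf.imp_right Or.inl)
    simpa [single_apply] using this
  exact ⟨h f 0 (Or.inl rfl), fun E => h 0 E (Or.inr rfl)⟩

end Vale.Agent.P283R.Co
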