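import Vale.Agent.P283R.Co.Ev1
import Vale.Agent.P283R.U.Hom

/-!
# Evaluation at Hahn series and substitutions over a change of coefficients
-/

open MvPowerSeries P283R.U

attribute [-instance] HahnSeries.powerSeriesAlgebra

namespace Vale.Agent.P283R.Co

variable {R : Type*} [CommRing R] {A B : Type} [CommRing A] [CommRing B] {σ τ : Type}

theorem van_iff {n : ℕ} {F : MvPowerSeries σ A} : Van n F ↔ (n : ℕ∞) ≤ F.order :=
  ⟨nat_le_order, fun h m hm => coeff_of_lt_order (lt_of_lt_of_le (by exact_mod_cast hm) h)⟩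

/-- evaluation with a change of coefficients, as a ring morphism -/
noncomputable def evs [Finite σ] {x : σ → HahnSeries ℝ R} (hx : Pos x) (s : A →+* R) :
    MvPowerSeries σ A →+* HahnSeries ℝ R := (evH hx).toRingHom.comp (map s)

theorem evs_apply [Finite σ] {x : σ → HahnSeries ℝ R} (hx : Pos x) (s : A →+* R)
    (F : MvPowerSeries σ A) : evs hx s F = ev x (map s F) := rfl

/-- every ring morphism with constants to order `≥ 0` and variables to positive order is
continuous -/
theorem ge_hom [Fintype σ] {e : MvPowerSeries σ A →+* HahnSeries ℝ R} (h0 : ∀ F, Ge 0 (e F))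
    {δ : ℝ} (h : ∀ j, Ge δ (e (X j))) :
    ∀ (n : ℕ) (F : MvPowerSeries σ A), Van n F → Ge (n * δ) (e F)
  | 0, F, _ => by simpa using h0 F
  | n + 1, F, hF => by
    obtain ⟨G, hG, rfl⟩ := hF.dec
    rw [map_sum]
    refine Ge.sum fun i _ => ?_
    rw [map_mul]
    exact ((h i).mul (ge_hom h0 h n _ (hG i))).mono (le_of_eq (by push_cast; ring))

/-- uniqueness of arcs -/
theorem arc_ext [Fintype σ] {e : MvPowerSeries σ A →+* HahnSeries ℝ R} (h0 : ∀ F, Ge 0 (e F))
    {x : σ → HahnSeries ℝ R} (hx : Pos x) {s : A →+* R}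
    (hc : ∀ a, e (C a) = algebraMap R _ (s a)) (hX : ∀ j, e (X j) = x j)
    (F : MvPowerSeries σ A) : e F = ev x (map s F) := by
  obtain ⟨δ, hδ, h⟩ := hx.exists_ge
  refine ext_poly (φ := e.toAddMonoidHom) (ψ := (evs hx s).toAddMonoidHom) 0 hδ
    (fun k F hF => ?_) (fun k F hF => ?_) (fun p => ?_) F
  · rw [sub_zero]; exact ge_hom h0 (fun j => hX j ▸ h j) k F (van_iff.2 hF)
  · rw [sub_zero]; exact ge_ev hδ h (hF.trans (le_order_map s))
  · change e p = evs hx s p
    induction p using MvPolynomial.induction_on with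
    | C a => rw [MvPolynomial.coe_C, hc, evs_apply, map_C, ev_C hx]
    | add p q hp hq => rw [MvPolynomial.coe_add, map_add, map_add, hp, hq]
    | mul_X p i hp =>
      rw [MvPolynomial.coe_mul, MvPolynomial.coe_X, map_mul, map_mul, hp, hX, evs_apply hx s (X i),
        map_X, ev_X hx]

section

variable [Fintype σ] [Finite τ] {j : A →+* B} {ψ : MvPowerSeries σ A →+* MvPowerSeries τ B}
  {y : τ → HahnSeries ℝ R}

omit [Fintype σ] in
theorem pos_loc (h : Loc j ψ) (hy : Pos y) (s : B →+* R) :
    Pos fun i => ev y (map s (ψ (X i))) :=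
  pos_ev hy fun i => by rw [constantCoeff_map, h.x, map_zero]

/-- the value of a substitution -/
theorem ev_loc (h : Loc j ψ) (hy : Pos y) (s : B →+* R) (F : MvPowerSeries σ A) :
    ev y (map s (ψ F)) = ev (fun i => ev y (map s (ψ (X i)))) (map (s.comp j) F) :=
  arc_ext (e := (evs hy s).comp ψ) (fun _ => ge_ev_zero _) (pos_loc h hy s)
    (fun a => by rw [RingHom.comp_apply, h.c, evs_apply, map_C, ev_C hy]; rfl) (fun _ => rfl) F

end

theorem ev_ren [Fintype σ] {y : Option σ → HahnSeries ℝ R} (hy : Pos y) (s : A →+* R)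
    (F : MvPowerSeries σ A) :
    ev y (map s (ren σ A F)) = ev (fun i => y (some i)) (map s F) := by
  rw [ev_loc loc_ren hy s]
  simp only [ren_X, map_X, ev_X hy, RingHom.comp_id]

/-- the Jacobian along an arc -/
theorem det_der_jac [Fintype σ] [DecidableEq σ] {k : Type*} [CommRing k]
    [Algebra k (HahnSeries ℝ R)] {y : σ → HahnSeries ℝ R} (hy : Pos y) (s : B →+* R)
    {θ : σ → Derivation k (HahnSeries ℝ R) (HahnSeries ℝ R)} (hθ : ∀ l, Ctr (θ l))
    (hs : ∀ l c, θ l (algebraMap R _ (s c)) = 0) (ψ : MvPowerSeries σ A →+* MvPowerSeries σ B) :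
    (Matrix.of fun i l => θ l (ev y (map s (ψ (X i))))).det =
      ev y (map s (jac ψ)) * (Matrix.of fun i l => θ l (y i)).det :=
  det_der_ev hy s hθ hs fun i => ψ (X i)

/-- the order of the value of a monomial times a series with a nonzero constant term -/
theorem orderTop_evs_mon [Fintype σ] [IsDomain R] {y : σ → HahnSeries ℝ R} (hy : Pos y)
    (s : A →+* R) {U : MvPowerSeries σ A} (hU : s (constantCoeff U) ≠ 0) (m : σ →₀ ℕ) {w : σ → ℝ}
    (hw : ∀ i, (y i).orderTop = w i) :
    (ev y (map s (U * monomial m 1))).orderTop = (∑ i, m i * w i : ℝ) := by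
  rw [map_mul, map_monomial, map_one, orderTop_ev_mon hy (by rwa [constantCoeff_map]) m hw,
    Finsupp.sum_fintype _ _ (by simp)]

/-- division by an element of smaller order: `a = b * (c + y)` with `y` of positive order -/
theorem exists_quot {K : Type*} [Field K] {a b : HahnSeries ℝ K} (h : b.orderTop ≤ a.orderTop) :
    ∃ (c : K) (y : HahnSeries ℝ K), 0 < y.orderTop ∧ a = b * (algebraMap K _ c + y) ∧
      (b.orderTop < a.orderTop → c = 0) := by
  by_cases hb : b = 0
  · have ha : a = 0 := by simpa [hb] using h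
    exact ⟨0, 0, by simp, by simp [ha], fun _ => rfl⟩
  have e : (a / b).orderTop + b.orderTop = a.orderTop := by
    rw [← HahnSeries.orderTop_mul, div_mul_cancel₀ _ hb]
  have hb' := HahnSeries.orderTop_ne_top.2 hb
  have h0 : 0 ≤ (a / b).orderTop := by
    rw [← e] at h
    exact (WithTop.add_le_add_iff_right hb').1 (by rwa [zero_add])
  refine ⟨(a / b).coeff 0, a / b - algebraMap K _ ((a / b).coeff 0), ?_, ?_, fun h' => ?_⟩
  · refine lt_of_le_of_ne (Ge.sub (r := 0) h0 (ge_algebraMap _)) fun h1 => ?_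
    refine HahnSeries.coeff_orderTop_ne h1.symm ?_
    rw [HahnSeries.coeff_sub, Algebra.algebraMap_eq_smul_one]; simp
  · rw [add_sub_cancel, mul_div_cancel₀ _ hb]
  · refine HahnSeries.coeff_eq_zero_of_lt_orderTop ?_
    rw [← e] at h'
    exact (WithTop.add_lt_add_iff_right hb').1 (by rwa [WithTop.coe_zero, zero_add])

end Vale.Agent.P283R.Co
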