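import Vale.Agent.P283R.Co.St
import Vale.Agent.P283R.Co.Uf

/-!
# P283R, CORE: from the limit up to the truncated ideals of the levels
-/

attribute [-instance] HahnSeries.powerSeriesAlgebra

open Filter MvPowerSeries

noncomputable section

namespace Vale.Agent.P283R.Co

/-- a family of endomorphisms acts on the ultrapower -/
theorem up_germ (𝒰 : Ultrafilter ℕ) (σ : ℕ → ℂ →+* ℂ) : ∃ τ : UK 𝒰 →+* UK 𝒰,
    ∀ r : ℕ → ℂ, τ (r : UK 𝒰) = ((fun i => σ i (r i) : ℕ → ℂ) : UK 𝒰) := by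
  let π : (ℕ → ℂ) →+* UK 𝒰 := Germ.coeRingHom (𝒰 : Filter ℕ)
  have hπ : Function.Surjective π := fun a => Germ.inductionOn a fun r => ⟨r, rfl⟩
  let g : (ℕ → ℂ) →+* UK 𝒰 := π.comp (RingHom.pi fun i => (σ i).comp (Pi.evalRingHom _ i))
  have hk : RingHom.ker π ≤ RingHom.ker g := fun r hr => by
    have h1 : r =ᶠ[(𝒰 : Filter ℕ)] 0 := Germ.coe_eq.1 hr
    refine Germ.coe_eq.2 (h1.mono fun i hi => ?_)
    show σ i (r i) = 0
    rw [hi]; exact map_zero _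
  exact ⟨π.liftOfSurjective hπ ⟨g, hk⟩, fun r => π.liftOfSurjective_comp_apply hπ ⟨g, hk⟩ r⟩

/-- **TU** -/
theorem tu_of (hU : RU) (h2 : CH2) (hE : EMB) : TU := by
  classical
  intro N Q n k C c₀ 𝒰 f hQ hf hL
  by_contra hc
  have hc' := Ultrafilter.eventually_not.2 hc
  have hd : ∀ i, ∃ (a E : ℝ) (w : Fin N → ℝ) (μ B : ℝ) (σ : ℂ →+* ℂ) (x : Fin N → HS)
      (l : Fin N → ℝ →+ ℂ), Pos x ∧ (¬ LT Q n k C c₀ (truncTotal k (f i)) →
        (∀ j, Ge (w j) (x j)) ∧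
        Ge E (ev x (map σ ((truncTotal k (f i) : MvPolynomial (Fin N) ℂ) :
          MvPowerSeries (Fin N) ℂ))) ∧ (Jd l x).orderTop ≤ (a : WithTop ℝ) ∧ 0 < μ ∧
        (∀ j, μ ≤ w j) ∧ E ≤ k * μ ∧ (∀ c ∈ C, B ≤ ∑ j, (c j : ℝ) * w j) ∧
        ¬ E / Q + B / n + c₀ * μ ≤ a) := fun i => by
    by_cases hi : LT Q n k C c₀ (truncTotal k (f i))
    · exact ⟨0, 0, 0, 0, 0, RingHom.id _, 0, 0, fun j => by simp, fun h => absurd hi h⟩
    · have hi' := hi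
      simp only [LT, not_forall] at hi'
      obtain ⟨a, E, w, μ, B, ⟨σ, x, l, p1, p2, p3, p4⟩, q1, q2, q3, q4, q5⟩ := hi'
      exact ⟨a, E, w, μ, B, σ, x, l, p1, fun _ => ⟨p2, p3, p4, q1, q2, q3, q4, q5⟩⟩
  choose a E w μ B σ x l hx hv using hd
  have : Finite {d : Fin N →₀ ℕ | d.degree < k} :=
    ((Finsupp.finite_of_degree_le k).subset fun d (h : d.degree < k) => h.le).to_subtype
  obtain ⟨A, _, _, j, s, γ, gen, hs⟩ := Uf.fg (α := {d : Fin N →₀ ℕ | d.degree < k})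
    (𝒰 : Filter ℕ) (fun _ => algebraMap ℚ ℂ) fun d i => σ i (coeff d.1 (f i))
  let _ : Algebra ℚ A := j.toAlgebra
  obtain ⟨F, hF⟩ : ∃ F : MvPowerSeries (Fin N) A, ∀ d, coeff d F =
      if h : d.degree < k then γ ⟨d, h⟩ else 0 :=
    ⟨fun d => if h : d.degree < k then γ ⟨d, h⟩ else 0, fun _ => rfl⟩
  have hF0 : F ≠ 0 := by
    rintro rfl
    refine hf (MvPolynomial.ext _ _ fun d => ?_)
    rw [coeff_truncTotal_eq_ite, MvPolynomial.coeff_zero]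
    split_ifs with h
    · refine Germ.coe_eq.2 (hs.mono fun i hi => ?_)
      have h1 := hF d
      rw [dif_pos h, map_zero] at h1
      have h3 := hi.2 ⟨d, h⟩
      rw [← h1, map_zero] at h3
      exact (map_eq_zero (σ i)).1 h3.symm
    · rfl
  obtain ⟨A', _, ι, s', G, α, γ', ν, x', -, hC, hr⟩ := hU N A 𝒰 s gen x hx F hF0
  obtain ⟨e⟩ := hE 𝒰
  obtain ⟨τ, hτ⟩ := up_germ 𝒰 σ
  let t : A' →+* ℂ := e.comp ((Germ.coeRingHom (𝒰 : Filter ℕ)).comp (RingHom.pi s'))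
  have ht : map t (map ι F) = ((truncTotal k (map (e.comp τ) (ulim 𝒰 f)) :
      MvPolynomial (Fin N) ℂ) : MvPowerSeries (Fin N) ℂ) := by
    ext d
    rw [coeff_map, coeff_map, MvPolynomial.coeff_coe, coeff_truncTotal_eq_ite, hF]
    split_ifs with h
    · rw [coeff_map, RingHom.comp_apply e τ]
      refine congrArg e (Eq.trans ?_ (hτ _).symm)
      refine Germ.coe_eq.2 ((hs.and hr).mono fun i hi => ?_)
      exact (RingHom.congr_fun hi.2.1 _).trans (hi.1.2 ⟨d, h⟩)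
    · rw [map_zero, map_zero]
  obtain ⟨i, ⟨hi, h1⟩, h3, h4, h5⟩ := ((hc'.and hs).and hr).exists
  obtain ⟨p2, p3, p4, q1, q2, q3, q4, q5⟩ := hv i hi
  have hs' : map (s' i) (map ι F) = map (σ i) ((truncTotal k (f i) : MvPolynomial (Fin N) ℂ) :
      MvPowerSeries (Fin N) ℂ) := by
    ext d
    rw [coeff_map, coeff_map, coeff_map, MvPolynomial.coeff_coe, coeff_truncTotal_eq_ite, hF]
    split_ifs with h
    · exact (RingHom.congr_fun h3 _).trans (h1.2 ⟨d, h⟩)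
    · rw [map_zero, map_zero, map_zero]
  obtain ⟨r1, r2, r3, r4⟩ := h2 N A' _ G α γ' ν hC t (s' i) (x' i) (l i) h4
  rw [← h5] at r2 r3 r4
  have g1 : ∀ j, Ge (w i j) (push G t (x' i) j) := fun j => (p2 j).trans_eq (r2 j).symm
  refine q5 (hL _ _ _ _ _ ⟨e.comp τ, _, l i, r1, g1, ?_, r4.trans_le p4⟩ q1 q2 q4)
  have g2 := (ge_ev_trunc q1 (fun j => (g1 j).mono (q2 j)) (map (e.comp τ) (ulim 𝒰 f)) k).mono q3
  rw [hs', ht, ev_coe r1] at r3
  have g3 := g2.add (a := _ - _) (p3.trans_eq r3.symm)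
  rwa [sub_add_cancel] at g3

end Vale.Agent.P283R.Co
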