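import Vale.Agent.P283R.Co.All0
import Vale.Agent.P283R.Co.Tw

/-!
# P283R, CORE: the theorems
-/

namespace Vale.Agent.P283R.Co

theorem tw : TW := tw_of ap

theorem pp : PP := pp_of td tw

theorem ob : OB := ob_of td tw

theorem lim : LIM := lim_tw tw

/-- **TT** -/
theorem tt : TT := tt_tw tw

end Vale.Agent.P283R.Co
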