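import Vale.Agent.P283R.Co.St

/-!
# P283R, CORE: clause (a) and multiples
-/

open Filter MvPowerSeries
open Vale.Agent.P287D (Pl FF kap)

noncomputable section

namespace Vale.Agent.P283R.Co

theorem oa_of (pa : PA) : OA := by
  intro N Q n k C c₀ g h F _ _ hF z hz P μ E B l
  refine le_of_forall_pos_le_add fun η hη => ?_
  refine h _ E (fun j => P.ord (z j)) μ B (pa N F hF z hz P (fun j => ?_) g E η hη l.eg)
    l.pos l.mu l.ek l.bc
  exact_mod_cast l.pos.trans_le (l.mu j)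

theorem sum_scl {N : ℕ} (r : ℕ) (c : Fin N → ℕ) (w : Fin N → ℝ) :
    ∑ j, ((r • c) j : ℝ) * w j = r * ∑ j, (c j : ℝ) * w j := by
  rw [Finset.mul_sum]
  refine Finset.sum_congr rfl fun j _ => ?_
  rw [Pi.smul_apply, smul_eq_mul, Nat.cast_mul, mul_assoc]

theorem scl : SCL := by
  classical
  intro N Q n r M b f hn hr hq ⟨C, c₀, ρ, k, h0, h1, h2, h3, h4, h5⟩
  have r0 : (0 : ℝ) < r := by exact_mod_cast hr
  have n0 : (0 : ℝ) < n := by exact_mod_cast hn
  refine ⟨C.image fun c => r • c, c₀, ρ, k, h0, h1, ?_, ?_, ?_, ?_⟩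
  · intro c' hc'
    obtain ⟨c, hc, rfl⟩ := Finset.mem_image.1 hc'
    have := M.zsmul_mem (h2 c hc) (r : ℤ)
    refine (congrArg (· ∈ M) (funext fun j => ?_)).mp this
    rw [Nat.mul_div_assoc r hq]
    simp only [Pi.smul_apply, smul_eq_mul, Nat.cast_mul]
    ring
  · intro F _ _ hF z hz P μ E B l
    have := h3 F hF z hz P μ E (B / r) ⟨l.pos, l.mu, l.ek, l.eg, fun c hc => by
      rw [div_le_iff₀' r0, ← sum_scl]
      exact l.bc _ (Finset.mem_image_of_mem _ hc)⟩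
    rwa [div_div, ← Nat.cast_mul] at this
  · obtain ⟨P, μ, E, B, l, a1, a2⟩ := h4
    refine ⟨P, μ, E, r * B, ⟨l.pos, l.mu, l.ek, l.eg, fun c' hc' => ?_⟩, ?_, a2⟩
    · obtain ⟨c, hc, rfl⟩ := Finset.mem_image.1 hc'
      rw [sum_scl]
      exact mul_le_mul_of_nonneg_left (l.bc c hc) r0.le
    · rwa [Nat.cast_mul, mul_div_mul_left _ _ r0.ne']
  · intro w hw
    obtain ⟨c, hc, a⟩ := h5 w hw
    refine ⟨_, Finset.mem_image_of_mem _ hc, ?_⟩
    rw [sum_scl, Nat.cast_mul, mul_assoc]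
    exact mul_le_mul_of_nonneg_left a r0.le

end Vale.Agent.P283R.Co
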