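import Vale.Agent.P283R.Co.St

/-!
# P283R, CORE: clause (b)
-/

open Filter MvPowerSeries

noncomputable section

namespace Vale.Agent.P283R.Co

theorem ob_of (hD : TD) (hW : TW) : OB := by
  intro N Q n C c₀ 𝒰 f hN _ _ _ hA
  obtain ⟨a, E, w, μ, B, hI, hμ, hw, hB, ha⟩ := hA
  refine ⟨a / μ, max E ⌈(E : ℝ) / μ⌉₊, fun k hk => ?_⟩
  have hEk : E ≤ k := le_trans (le_max_left _ _) hk
  have hEμ : (E : ℝ) ≤ k * μ := by
    have h1 : (⌈(E : ℝ) / μ⌉₊ : ℝ) ≤ k := by exact_mod_cast le_trans (le_max_right _ _) hk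
    exact (div_le_iff₀ hμ).1 ((Nat.le_ceil _).trans h1)
  have hw0 : ∀ j, 0 < ((1 : ℕ) : ℤ) * w j + (0 : Fin N → ℤ) j := by
    intro j
    have h1 : (0 : ℝ) < w j := hμ.trans_le (hw j)
    have h2 : 0 < w j := by exact_mod_cast h1
    simpa using h2
  filter_upwards [hD N 𝒰 f a E w hI] with i hi
  obtain ⟨P, e, v, he, -, hv, hz, hA0, hg⟩ := hW N (f i) a E w hN hi ⊥ 0 0 1 k one_pos hEk
    (fun m _ => by simp) hw0 (fun m _ _ => by simp)
  have he' : (0 : ℝ) < e := by exact_mod_cast he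
  have hz' : ∀ j, (e : ℝ) * (P.ord (z0 N j) : ℝ) = v j := by
    intro j
    have h1 : (e : ℤ) * P.ord (z0 N j) = v j := by simpa using hz j
    exact_mod_cast h1
  have hv' : ∀ j, (w j : ℝ) / e ≤ (P.ord (z0 N j) : ℝ) := by
    intro j
    rw [div_le_iff₀ he', mul_comm, hz' j]
    exact_mod_cast hv j
  have hA1 : A0 (z0 N) P ≤ (a : ℝ) / e := by
    rw [le_div_iff₀ he', mul_comm]
    simpa using hA0
  refine ⟨P, μ / e, E / e, B / e, ⟨div_pos hμ he', fun j => ?_, ?_, ?_, fun c hc => ?_⟩, ?_, ?_⟩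
  · exact (div_le_div_of_nonneg_right (hw j) he'.le).trans (hv' j)
  · rw [← mul_div_assoc]
    exact div_le_div_of_nonneg_right hEμ he'.le
  · refine hg.imp id fun h => ?_
    rw [div_le_iff₀ he', mul_comm]
    have h1 : (E : ℤ) ≤ e * P.ord (MvPolynomial.aeval (z0 N) (truncTotal k (f i))) := by
      simpa using h
    exact_mod_cast h1
  · refine (div_le_div_of_nonneg_right (hB c hc) he'.le).trans ?_
    rw [Finset.sum_div]
    refine Finset.sum_le_sum fun j _ => ?_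
    rw [mul_div_assoc]
    exact mul_le_mul_of_nonneg_left (hv' j) (Nat.cast_nonneg _)
  · refine hA1.trans ((div_le_div_of_nonneg_right ha he'.le).trans (le_of_eq ?_))
    ring
  · refine hA1.trans (le_of_eq ?_)
    field_simp

end Vale.Agent.P283R.Co
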