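import Vale.Agent.P283R.Co.Pa
import Vale.Agent.P283R.Co.St
import Vale.Agent.P287D.Gf.One

/-!
# From a place to a Hahn arc over the complex numbers
-/

attribute [-instance] HahnSeries.powerSeriesAlgebra

open Set MvPowerSeries Cardinal
open Vale.Agent.P287D Vale.Agent.P287D.Cb
open Vale.Agent.P285N.Brep (jac Fr)
open Vale.Agent.P297Z
open Finsupp (single)

namespace Vale.Agent.P283R.Pa

variable {K : Type} [Field K] [Algebra ℂ K] {P : Pl K} {f g : K} {n : ℕ}

theorem fs_ind {σ : Type} {p : (σ →₀ ℕ) → Prop} (h0 : p 0)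
    (hs : ∀ α i, p α → p (α + single i 1)) (α : σ →₀ ℕ) : p α := by
  induction α using Finsupp.induction with
  | zero => exact h0
  | single_add a b f h1 h2 ih =>
    clear h1 h2
    induction b with
    | zero => simpa using ih
    | succ b hb =>
      rw [Finsupp.single_add, add_right_comm]
      exact hs _ _ hb

theorem exists_dm {D : Fin n → Derivation ℂ K K} (hc : ∀ i j x, D i (D j x) = D j (D i x)) :
    ∃ E : (Fin n →₀ ℕ) → K →ₗ[ℂ] K, (∀ f, E 0 f = f) ∧
      ∀ α i f, E (α + single i 1) f = E α (D i f) := by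
  let φ : Fin n → Multiplicative ℕ →* Module.End ℂ K := fun i => powersHom _ (D i : K →ₗ[ℂ] K)
  have h : Pairwise fun i j => ∀ x y, Commute (φ i x) (φ j y) := fun i j _ x y =>
    Commute.pow_pow (LinearMap.ext (hc i j)) _ _
  refine ⟨fun α => MonoidHom.noncommPiCoprod φ h fun i => Multiplicative.ofAdd (α i), fun f => ?_,
    fun α i f => ?_⟩
  · have : (fun i => Multiplicative.ofAdd ((0 : Fin n →₀ ℕ) i)) = 1 := rfl
    beta_reduce
    rw [this, map_one]; rfl
  · have : (fun j => Multiplicative.ofAdd ((α + single i 1 : Fin n →₀ ℕ) j)) =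
        (fun j => Multiplicative.ofAdd (α j)) * Pi.mulSingle i (Multiplicative.ofAdd 1) := by
      funext j
      by_cases e : j = i
      · subst e; simp [ofAdd_add]
      · simp [e]
    beta_reduce
    rw [this, map_mul, MonoidHom.noncommPiCoprod_mulSingle]
    simp [φ]

/-- the Taylor series in all the coordinates -/
theorem exists_tayM {D : Fin n → Derivation ℂ K K} (hc : ∀ i j x, D i (D j x) = D j (D i x))
    (hD : ∀ i, ∀ f ∈ P.ring, D i f ∈ P.ring) :
    ∃ Φ : P.ring →+* MvPowerSeries (Fin n) P.κ, (∀ f, constantCoeff (Φ f) = P.rd f) ∧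
      ∀ i f, pderiv P.κ i (Φ f) = Φ ⟨D i f, hD i f f.2⟩ := by
  have := cz P
  obtain ⟨E, e0, e1⟩ := exists_dm hc
  have em : ∀ α, ∀ f ∈ P.ring, E α f ∈ P.ring := fun α => by
    induction α using fs_ind with
    | h0 => exact fun f hf => by rwa [e0]
    | hs α i ih => exact fun f hf => by rw [e1]; exact ih _ (hD i f hf)
  let T : K → MvPowerSeries (Fin n) P.κ := fun f α =>
    P.rd (E α f) / ∏ i, ((α i).factorial : P.κ)
  have tc : ∀ f α, coeff α (T f) = P.rd (E α f) / ∏ i, ((α i).factorial : P.κ) := fun _ _ => rfl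
  have t0 : ∀ f, constantCoeff (T f) = P.rd f := fun f => by
    rw [← coeff_zero_eq_constantCoeff_apply, tc, e0]; simp
  have ne : ∀ k : ℕ, ((k : P.κ) + 1) ≠ 0 := fun k => Nat.cast_add_one_ne_zero k
  have td : ∀ i f, pderiv P.κ i (T f) = T (D i f) := fun i f => by
    ext α
    have h2 : ∏ j, (((α + single i 1 : Fin n →₀ ℕ) j).factorial : P.κ) =
        (∏ j, ((α j).factorial : P.κ)) * (α i + 1) := by
      rw [← Finset.mul_prod_erase _ _ (Finset.mem_univ i),
        ← Finset.mul_prod_erase _ (fun j => ((α j).factorial : P.κ)) (Finset.mem_univ i),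
        Finset.prod_congr rfl (g := fun j => ((α j).factorial : P.κ)) fun j hj => by
          simp [Finset.ne_of_mem_erase hj]]
      simp [Nat.factorial_succ]; ring
    rw [coeff_pderiv, tc, tc, e1, h2, div_mul_eq_div_div, div_mul_cancel₀ _ (ne _)]
  have ta : ∀ f ∈ P.ring, ∀ g ∈ P.ring, T (f + g) = T f + T g := fun f hf g hg => by
    ext α
    rw [map_add, tc, tc, tc, map_add, rd_add (em α f hf) (em α g hg), add_div]
  have tm : ∀ α, ∀ f ∈ P.ring, ∀ g ∈ P.ring, coeff α (T (f * g)) = coeff α (T f * T g) :=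
    fun α => by
    induction α using fs_ind with
    | h0 =>
      intro f hf g hg
      rw [coeff_zero_eq_constantCoeff_apply, coeff_zero_eq_constantCoeff_apply, map_mul, t0, t0,
        t0, rd_mul hf hg]
    | hs α i ih =>
      intro f hf g hg
      refine mul_right_cancel₀ (ne (α i)) ?_
      rw [← coeff_pderiv, ← coeff_pderiv, td, Derivation.leibniz, Derivation.leibniz, td, td,
        smul_eq_mul, smul_eq_mul, smul_eq_mul, smul_eq_mul,
        ta _ (mul_mem hf (hD i g hg)) _ (mul_mem hg (hD i f hf)), map_add, map_add,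
        ih _ hf _ (hD i g hg), ih _ hg _ (hD i f hf)]
  have z : T 0 = 0 := by
    ext α
    rw [tc, map_zero, (rd_eq_zero (zero_mem _)).2 mx_zero, zero_div, map_zero]
  refine ⟨⟨⟨⟨fun f => T f, pderiv.ext (fun i => ?_) ?_⟩, fun f g => ?_⟩, z,
    fun f g => ta _ f.2 _ g.2⟩, fun f => t0 f, fun i f => td i f⟩
  · change pderiv _ i (T 1) = _
    rw [td, Derivation.map_one_eq_zero, z, pderiv_one]
  · change constantCoeff (T 1) = _
    rw [t0, rd_one, map_one]
  · ext α
    exact tm α _ f.2 _ g.2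

/-- the expansion at a place in all the adapted coordinates -/
theorem exists_expM (hK : FF K (n + 1)) (P : Pl K) :
    ∃ (Φ : P.ring →+* MvPowerSeries (Fin (n + 1)) P.κ) (D : Fin (n + 1) → Derivation ℂ K K)
      (hD : ∀ i, ∀ f ∈ P.ring, D i f ∈ P.ring),
      (∀ y : Fin (n + 1) → K, kap y P = P.ord (jac D y)) ∧
      (∀ y : Fin (n + 1) → K, AlgebraicIndependent ℂ y → jac D y ≠ 0) ∧
      (∀ c, Φ ⟨algebraMap ℂ K c, P.con c⟩ = C (algebraMap ℂ P.κ c)) ∧
      (∀ f : P.ring, (f : K) ≠ 0 → ∃ v, constantCoeff v ≠ 0 ∧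
        Φ f = v * monomial (single 0 (P.ord (f : K)).toNat) 1) ∧
      ∀ i f, pderiv P.κ i (Φ f) = Φ ⟨D i f, hD i f f.2⟩ := by
  have := cz P
  obtain ⟨u, a⟩ := exists_ada hK P
  obtain ⟨D, h⟩ := a.ad hK
  obtain ⟨Φ, h0, h1⟩ := exists_tayM (P := P) (comm h.fr) h.pre
  have hc : ∀ f : P.ring, (∀ i, D i f = 0) → Φ f = C (P.rd f) := fun f hf =>
    pderiv.ext (fun i => by
      rw [h1, pderiv_C, ← map_zero Φ]; exact congrArg Φ (Subtype.ext (hf i))) (by simp [h0])
  have hX : Φ ⟨P.t, t_mem P⟩ = X 0 := by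
    refine pderiv.ext (fun i => ?_) ?_
    · have e : D i P.t = if i = 0 then 1 else 0 := by simpa using h.fr.dual i 0
      rw [h1]
      by_cases i0 : i = 0
      · subst i0
        rw [pderiv_X_self, ← map_one Φ]
        exact congrArg Φ (Subtype.ext (by simpa using e))
      · rw [pderiv_X_of_ne (Ne.symm i0), ← map_zero Φ]
        exact congrArg Φ (Subtype.ext (by simpa [i0] using e))
    · rw [h0, constantCoeff_X]
      exact (rd_eq_zero a.mx.mem).2 a.mx
  refine ⟨Φ, D, h.pre, kap_eq h, fun y hy => (jac_ne_iff h.fr y).2 hy, fun c => ?_,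
    fun f f0 => ?_, h1⟩
  · rw [hc _ fun i => Derivation.map_algebraMap _ c, rd_const]
  · have k0 := Pl.ord_nonneg_of_mem _ f.2
    have hp : P.t ^ (P.ord (f : K)).toNat ≠ 0 := pow_ne_zero _ a.ne
    have v0 : P.ord (f / P.t ^ (P.ord (f : K)).toNat) = 0 := by
      rw [Pl.ord_div _ f0 hp, Pl.ord_pow, a.ord]; omega
    have vm := mem_ord v0.ge
    refine ⟨Φ ⟨_, vm⟩, ?_, ?_⟩
    · rw [h0, Ne, rd_eq_zero vm, mx_iff, v0]
      simp [f0, hp]
    · rw [← X_pow_eq, ← hX, ← map_pow, ← map_mul]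
      exact congrArg Φ (Subtype.ext (div_mul_cancel₀ _ hp).symm)

theorem exists_emb (hK : FF K n) (P : Pl K) : Nonempty (P.κ →+* ℂ) := by
  have := cz P
  have hc : #P.κ ≤ 𝔠 := (mk_le_of_surjective (f := P.rd) fun a =>
    (rd_surj a).imp fun _ h => h.2).trans hK.card
  have h1 : 𝔠 ≤ #(AlgebraicClosure P.κ) := mk_complex ▸ mk_le_of_injective
    ((algebraMap P.κ (AlgebraicClosure P.κ)).comp (algebraMap ℂ P.κ)).injective
  have h2 : #(AlgebraicClosure P.κ) ≤ 𝔠 :=
    (Algebra.IsAlgebraic.cardinalMk_le_max P.κ _).trans (max_le hc aleph0_le_continuum)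
  obtain ⟨e⟩ := IsAlgClosed.ringEquiv_of_equiv_of_charZero (K := AlgebraicClosure P.κ) (L := ℂ)
    (aleph0_lt_continuum.trans_le h1) (Cardinal.eq.1 ((le_antisymm h2 h1).trans mk_complex.symm))
  exact ⟨e.toRingHom.comp (algebraMap _ _)⟩

theorem exists_wts (n : ℕ) {η : ℝ} (hη : 0 < η) : ∃ (w : Fin (n + 1) → ℝ)
    (l : Fin (n + 1) → ℝ →+ ℂ), w 0 = 1 ∧ (∀ j, 0 < w j) ∧ ∑ j, w j ≤ 1 + η ∧
      ∀ i j, l j (w i) = if i = j then 1 else 0 := by
  obtain ⟨e, he⟩ := exists_linearIndependent_of_le_rank (R := ℚ) (M := ℝ) (n := n + 1)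
    (by rw [Real.rank_rat_real]; exact (natCast_lt_aleph0.trans aleph0_lt_continuum).le)
  have e0 := he.ne_zero
  have hδ : 0 < η / (n + 1) := by positivity
  have hq : ∀ i, ∃ q : ℚ, 0 < q * (e i / e 0) ∧ q * (e i / e 0) < η / (n + 1) := fun i => by
    have h0 : e i / e 0 ≠ 0 := div_ne_zero (e0 i) (e0 0)
    rcases h0.lt_or_gt with h | h
    · obtain ⟨q, h1, h2⟩ := exists_rat_btwn (div_neg_of_pos_of_neg hδ h)
      exact ⟨q, mul_pos_of_neg_of_neg h2 h, (div_lt_iff_of_neg h).1 h1⟩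
    · obtain ⟨q, h1, h2⟩ := exists_rat_btwn (div_pos hδ h)
      exact ⟨q, mul_pos h1 h, (lt_div_iff₀ h).1 h2⟩
  choose q q0 q1 using hq
  let c : Fin (n + 1) → ℚ := Fin.cons 1 fun i => q i.succ
  have c0 : ∀ i, c i ≠ 0 := Fin.cases one_ne_zero fun i h => by
    have := q0 i.succ
    rw [show q i.succ = 0 from h] at this
    simp at this
  have h1 : LinearIndependent ℚ fun i => c i • (e i / e 0) :=
    (he.map' (LinearMap.mulRight ℚ (e 0)⁻¹) (LinearMap.ker_eq_bot.2
      (mul_left_injective₀ (inv_ne_zero (e0 0))))).units_smul fun i => Units.mk0 (c i) (c0 i)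
  obtain ⟨g, hg⟩ := LinearMap.exists_leftInverse_of_injective _ (LinearMap.ker_eq_bot.2 h1)
  refine ⟨fun i => c i • (e i / e 0), fun j => (Rat.castHom ℂ).toAddMonoidHom.comp
    ((Finsupp.lapply (R := ℚ) j).comp g).toAddMonoidHom, by simp [c, e0 0],
    Fin.cases (by simp [c, e0 0]) fun i => by simpa [c, Rat.smul_def] using q0 i.succ, ?_,
    fun i j => ?_⟩
  · rw [Fin.sum_univ_succ]
    have : ∑ i : Fin n, c i.succ • (e i.succ / e 0) ≤ ∑ _i : Fin n, η / (n + 1) :=
      Finset.sum_le_sum fun i _ => by simpa [c, Rat.smul_def] using (q1 i.succ).le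
    have h3 : (n : ℝ) * (η / (n + 1)) ≤ η := by
      rw [← mul_div_assoc, div_le_iff₀ (by positivity)]; nlinarith
    simp only [Finset.sum_const, Finset.card_univ, Fintype.card_fin, nsmul_eq_mul] at this
    have h4 : c 0 • (e 0 / e 0) = 1 := by simp [c, e0 0]
    linarith
  · have := LinearMap.congr_fun hg (single i 1)
    simp only [LinearMap.comp_apply, Finsupp.linearCombination_single, one_smul,
      LinearMap.id_apply] at this
    change ((g (c i • (e i / e 0)) j : ℚ) : ℂ) = _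
    rw [this, Finsupp.single_apply]
    split_ifs <;> simp

open Co in
/-- **PA** -/
theorem _root_.Vale.Agent.P283R.Co.pa : Co.PA := by
  intro N F _ _ hF z hz P hP g E η hη hg
  rcases N with _ | n
  · exact (no_pl hF P).elim
  obtain ⟨Φ, D, hD, hk, hj, hc, ho, hd⟩ := exists_expM hF P
  obtain ⟨j⟩ := exists_emb hF P
  obtain ⟨w, l, w0, wp, ws, hl⟩ := exists_wts n hη
  let y : Fin (n + 1) → HS := fun i => HahnSeries.single (w i) 1
  have yo : ∀ i, (y i).orderTop = w i := fun i => HahnSeries.orderTop_single one_ne_zero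
  have hy : Pos y := fun i => by rw [yo]; exact_mod_cast wp i
  have zm : ∀ i, z i ∈ P.ring := fun i => mem_ord (hP i).le
  let ψ : P.ring →+* HS := ((evH hy).toRingHom.comp (map j)).comp Φ
  have po : ∀ f : P.ring, (f : F) ≠ 0 → (ψ f).orderTop = ((P.ord (f : F) : ℝ) : WithTop ℝ) :=
    fun f f0 => by
    obtain ⟨v, v0, e⟩ := ho f f0
    change (ev y (map j (Φ f))).orderTop = _
    rw [e, map_mul, map_monomial, map_one, orderTop_ev_mon hy (by simpa using v0) _ yo,
      Finsupp.sum_single_index (by simp), w0, mul_one]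
    have := Pl.ord_nonneg_of_mem _ f.2
    rw [← Int.cast_natCast, Int.toNat_of_nonneg this]
  let x : Fin (n + 1) → HS := fun i => ψ ⟨z i, zm i⟩
  have xo : ∀ i, (x i).orderTop = ((P.ord (z i) : ℝ) : WithTop ℝ) := fun i =>
    po _ (hz.ne_zero i)
  have hx : Pos x := fun i => by rw [xo]; exact_mod_cast hP i
  have ea : ∀ p : MvPolynomial (Fin (n + 1)) ℂ, ∃ h : MvPolynomial.aeval z p ∈ P.ring,
      ev x (map (j.comp (algebraMap ℂ P.κ)) (p : MvPowerSeries _ ℂ)) = ψ ⟨_, h⟩ := fun p => by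
    induction p using MvPolynomial.induction_on with
    | C c =>
      refine ⟨by rw [MvPolynomial.aeval_C]; exact P.con c, ?_⟩
      rw [MvPolynomial.coe_C, map_C, ev_C hx]
      simp only [MvPolynomial.aeval_C]
      change _ = ev y (map j (Φ _))
      rw [hc, map_C, ev_C hy]; rfl
    | add p q hp hq =>
      obtain ⟨h1, e1⟩ := hp
      obtain ⟨h2, e2⟩ := hq
      refine ⟨by rw [map_add]; exact add_mem h1 h2, ?_⟩
      rw [MvPolynomial.coe_add, map_add, ev_add, e1, e2, ← map_add]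
      exact congrArg ψ (Subtype.ext (map_add _ p q).symm)
    | mul_X p i hp =>
      obtain ⟨h1, e1⟩ := hp
      refine ⟨by rw [map_mul, MvPolynomial.aeval_X]; exact mul_mem h1 (zm i), ?_⟩
      rw [MvPolynomial.coe_mul, map_mul, ev_mul hx, e1, MvPolynomial.coe_X, map_X, ev_X hx,
        ← map_mul]
      exact congrArg ψ (Subtype.ext (by simp))
  refine ⟨j.comp (algebraMap ℂ P.κ), x, l, hx, fun i => (xo i).ge, ?_, ?_⟩
  · obtain ⟨h, e⟩ := ea g
    rw [e]
    by_cases g0 : MvPolynomial.aeval z g = 0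
    · have : (⟨_, h⟩ : P.ring) = 0 := Subtype.ext g0
      rw [this, map_zero]; exact ge_zero E
    · rcases hg with rfl | hg
      · exact (g0 (map_zero _)).elim
      · unfold Ge
        rw [po _ g0]; exact_mod_cast hg
  · have jm : jac D z ∈ P.ring := det_mem _ fun a b => hD _ _ (zm b)
    have e1 := det_der_ev hy j (θ := fun r => thl (l r) (0 : Derivation ℂ ℂ ℂ))
      (fun r => ctr_thl _ _) (fun r c => by
        rw [HahnSeries.algebraMap_apply, HahnSeries.C_apply, thl_single]; simp)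
      fun i => Φ ⟨z i, zm i⟩
    have e2 : (Matrix.of fun a b => pderiv P.κ b (Φ ⟨z a, zm a⟩)).det = Φ ⟨jac D z, jm⟩ := by
      let A : Matrix (Fin (n + 1)) (Fin (n + 1)) P.ring := Matrix.of fun a b => ⟨D a (z b), hD _ _ (zm b)⟩
      have : (⟨jac D z, jm⟩ : P.ring) = A.det := Subtype.ext (P.ring.subtype.map_det A).symm
      rw [this, Φ.map_det, ← Matrix.det_transpose]
      exact congrArg Matrix.det (Matrix.ext fun a b => hd a _)
    have e3 : (Matrix.of fun a r => thl (l r) (0 : Derivation ℂ ℂ ℂ) (y a)) = Matrix.diagonal y := by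
      ext1 a r
      rw [Matrix.of_apply, thl_single, hl, Matrix.diagonal_apply]
      split_ifs <;> simp [y]
    change (Matrix.of fun i r => thl (l r) (0 : Derivation ℂ ℂ ℂ) (ev y (map j (Φ _)))).det.orderTop ≤ _
    rw [e1, e2, e3, Matrix.det_diagonal, HahnSeries.orderTop_mul, orderTop_prod]
    change (ψ _).orderTop + _ ≤ _
    rw [po _ (hj z hz), Finset.sum_congr rfl fun i _ => yo i, ← WithTop.coe_sum, ← WithTop.coe_add,
      WithTop.coe_le_coe, A0, hk]
    linarith

end Vale.Agent.P283R.Pa
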