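import Vale.Agent.P283R.Co.St
import Vale.Agent.P283R.Lp.B

/-!
# P283R, CORE: the inequality (P) for the limit
-/

attribute [-instance] HahnSeries.powerSeriesAlgebra

open Filter MvPowerSeries Finset
open Vale.Agent.P287D (Pl FF kap)
open Vale.Agent.P283.H647 (limLat)

noncomputable section

namespace Vale.Agent.P283R.Co

variable {N : ℕ}

theorem IR.pos {k : Type} [Field k] {f : MvPowerSeries (Fin N) k} {a E : ℕ} {w : Fin N → ℕ}
    (h : IR k f a E w) (j : Fin N) : 0 < w j := by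
  obtain ⟨_, _, _, _, _, h, -⟩ := h
  exact h.pos j

/-- in low degrees the supports lie in the support of the limit -/
theorem supp_ulim_sub (𝒰 : Ultrafilter ℕ) (f : ℕ → MvPowerSeries (Fin N) ℂ) (k : ℕ) :
    ∀ᶠ i in (𝒰 : Filter ℕ), ∀ m : Fin N →₀ ℕ, m.degree ≤ k → coeff m (f i) ≠ 0 →
      coeff m (ulim 𝒰 f) ≠ 0 := by
  refine (eventually_all_finite (Finsupp.finite_of_degree_le k)).2 fun m _ => ?_
  by_cases h : coeff m (ulim 𝒰 f) = 0
  · have h' : ∀ᶠ i in (𝒰 : Filter ℕ), coeff m (f i) = 0 := Germ.coe_eq.1 h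
    exact h'.mono fun i hi h2 => absurd hi h2
  · exact Eventually.of_forall fun i _ => h

/-- one level: the twisted arc is a place to which (H) applies -/
theorem pp_level (tw : TW) {Q : ℕ} {ε : ℝ} {M : AddSubgroup (Fin N → ℤ)}
    {f : MvPowerSeries (Fin N) ℂ} {b χ : Fin N → ℤ} {a E r k : ℕ} {w : Fin N → ℕ} {η : ℝ}
    (hN : 0 < N) (hH : Hy Q ε M f) (hI : IR ℂ f a E w) (hr : 0 < r) (hη : 0 < η) (hEk : E ≤ k)
    (h1 : ∀ m ∈ M, (r : ℤ) ∣ ∑ j, χ j * m j) (h2 : ∀ j, η ≤ w j + (χ j / r : ℝ))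
    (h3 : ∀ m : Fin N →₀ ℕ, m.degree < k → coeff m f ≠ 0 → ∑ j, χ j * m j = ∑ j, χ j * b j)
    (h4 : E + ∑ j, (χ j / r : ℝ) * b j ≤ k * η)
    (h5 : ∀ v : Fin N → ℕ, (∀ j, w j ≤ v j) → ∃ m ∈ M, ∑ j, m j * (r * v j + χ j) ≠ 0) :
    ε ≤ a - (E : ℝ) / Q + ∑ j, (1 - (b j : ℝ) / Q) * (χ j / r) := by
  have r0 : (0 : ℝ) < r := by exact_mod_cast hr
  have h6 : ∀ j, r * η ≤ r * w j + (χ j : ℝ) := fun j => by
    have := mul_le_mul_of_nonneg_left (h2 j) r0.le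
    rwa [mul_add, mul_div_cancel₀ _ r0.ne'] at this
  obtain ⟨P, e, v, he, hZ, hv, ho, hA, hf⟩ := tw N f a E w hN hI M b χ r k hr hEk h1 (fun j => by
    have : (0 : ℝ) < r * w j + (χ j : ℝ) := (mul_pos r0 hη).trans_le (h6 j)
    exact_mod_cast this) h3
  have e0 : (0 : ℝ) < e := by exact_mod_cast he
  have hs : ∑ j, (χ j : ℝ) * b j = r * ∑ j, (χ j / r : ℝ) * b j := by
    rw [mul_sum]
    exact sum_congr rfl fun j _ => by field_simp
  have hL : Low (z0 N) (truncTotal k f) k ∅ P (r * η / e)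
      ((r * E + ∑ j, (χ j : ℝ) * b j) / e) 0 := by
    refine ⟨by positivity, fun j => ?_, ?_, hf.imp id fun h => ?_, fun c hc => by simp at hc⟩
    · rw [div_le_iff₀ e0]
      have a1 : (e : ℝ) * P.ord (z0 N j) = r * v j + χ j := by exact_mod_cast ho j
      have a2 : (w j : ℝ) ≤ v j := by exact_mod_cast hv j
      have := h6 j
      nlinarith
    · rw [← mul_div_assoc, div_le_div_iff_of_pos_right e0, hs]
      nlinarith
    · rw [div_le_iff₀ e0]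
      have : (r : ℝ) * E + ∑ j, (χ j : ℝ) * b j ≤
          e * P.ord (MvPolynomial.aeval (z0 N) (truncTotal k f)) := by exact_mod_cast h
      linarith
  have hm : ∃ m ∈ M, ∑ j, m j * P.ord (z0 N j) ≠ 0 := by
    obtain ⟨m, hm, h⟩ := h5 v hv
    refine ⟨m, hm, fun h0 => h ?_⟩
    rw [← sum_congr rfl fun j _ => congrArg (m j * ·) (ho j)]
    calc ∑ j, m j * ((e : ℤ) * P.ord (z0 N j)) = e * ∑ j, m j * P.ord (z0 N j) := by
          rw [mul_sum]; exact sum_congr rfl fun j _ => by ring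
      _ = 0 := by rw [h0, mul_zero]
  have h7 := hH P r e k _ _ hr he hL hZ hm
  have h8 : (e : ℝ) * (A0 (z0 N) P - (r * E + ∑ j, (χ j : ℝ) * b j) / e / Q) =
      e * A0 (z0 N) P - (r * E + ∑ j, (χ j : ℝ) * b j) / Q := by
    field_simp
  have h9 : r * (a - (E : ℝ) / Q + ∑ j, (1 - (b j : ℝ) / Q) * (χ j / r)) =
      r * a + ∑ j, (χ j : ℝ) - (r * E + ∑ j, (χ j : ℝ) * b j) / Q := by
    have : (r : ℝ) * ∑ j, (1 - (b j : ℝ) / Q) * (χ j / r) =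
        ∑ j, (χ j : ℝ) - (∑ j, (χ j : ℝ) * b j) / Q := by
      rw [mul_sum, sum_div, ← sum_sub_distrib]
      exact sum_congr rfl fun j _ => by field_simp
    rw [mul_add, this]
    ring
  refine le_of_mul_le_mul_left ?_ r0
  rw [h9]
  linarith

/-- **(P) for the limit**, for any family of subgroups and any supply of dual vectors -/
theorem pp_sup (td : TD) (tw : TW) {Q : ℕ} {ε : ℝ} {𝒰 : Ultrafilter ℕ}
    {M : ℕ → AddSubgroup (Fin N → ℤ)} {f : ℕ → MvPowerSeries (Fin N) ℂ} {b : Fin N → ℤ}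
    (hN : 0 < N) (hH : ∀ᶠ i in (𝒰 : Filter ℕ), Hy Q ε (M i) (f i))
    (hb : ∀ m, coeff m (ulim 𝒰 f) ≠ 0 → (fun j => (m j : ℤ) - b j) ∈ limLat 𝒰 M)
    (hS : ∀ (w : Fin N → ℕ) (z : Fin N → ℝ) (η : ℝ), (∀ m ∈ limLat 𝒰 M, ∑ j, z j * m j = 0) →
      0 < η → (∀ j, 2 * η ≤ w j + z j) →
      ∀ᶠ i in (𝒰 : Filter ℕ), ∃ (r : ℕ) (χ : Fin N → ℤ), 0 < r ∧
        (∀ m ∈ M i, (r : ℤ) ∣ ∑ j, χ j * m j) ∧ (∀ m ∈ limLat 𝒰 M, ∑ j, χ j * m j = 0) ∧
        (∀ j, |(χ j / r : ℝ) - z j| < η) ∧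
        ∀ v : Fin N → ℕ, (∀ j, w j ≤ v j) → ∃ m ∈ M i, ∑ j, m j * (r * v j + χ j) ≠ 0) :
    PK Q ε (limLat 𝒰 M) b (ulim 𝒰 f) := by
  intro a E w hI ζ hζ hw
  set D : ℝ := ∑ j, |1 - (b j : ℝ) / Q| * (1 + 2 * |ζ j|) with hD
  have D0 : 0 ≤ D := sum_nonneg fun j _ => by positivity
  refine le_of_forall_pos_le_add fun θ hθ => ?_
  obtain ⟨η, hη, hη1, hη2⟩ : ∃ η : ℝ, 0 < η ∧ η ≤ 1 / 2 ∧ η * D ≤ θ := by
    refine ⟨min (1 / 2) (θ / (D + 1)), lt_min (by norm_num) (by positivity), min_le_left _ _, ?_⟩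
    calc _ ≤ θ / (D + 1) * D := mul_le_mul_of_nonneg_right (min_le_right _ _) D0
      _ ≤ θ / (D + 1) * (D + 1) := mul_le_mul_of_nonneg_left (by linarith) (by positivity)
      _ = θ := by field_simp
  obtain ⟨k, hk⟩ := exists_nat_ge (max (E : ℝ) ((E + ∑ j, (1 + 2 * |ζ j|) * |(b j : ℝ)|) / η))
  have hk1 : E ≤ k := by exact_mod_cast (le_max_left _ _).trans hk
  have hk2 : E + ∑ j, (1 + 2 * |ζ j|) * |(b j : ℝ)| ≤ k * η :=
    (div_le_iff₀ hη).1 ((le_max_right _ _).trans hk)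
  have hw1 : ∀ j, 2 * η ≤ w j + (1 - 2 * η) * ζ j := fun j => by
    have : (1 : ℝ) ≤ w j := by exact_mod_cast hI.pos j
    have := hw j
    nlinarith
  obtain ⟨i, ⟨⟨hHi, hIi⟩, hs⟩, r, χ, hr, h1, h2, h3, h5⟩ :=
    (((hH.and (td N 𝒰 f a E w hI)).and (supp_ulim_sub 𝒰 f k)).and
      (hS w (fun j => (1 - 2 * η) * ζ j) η (fun m hm => by
        simp only [mul_assoc, ← mul_sum, hζ m hm, mul_zero]) hη hw1)).exists
  have h6 : ∀ j, |(χ j / r : ℝ) - ζ j| ≤ η * (1 + 2 * |ζ j|) := fun j => by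
    have e : (χ j / r : ℝ) - ζ j = ((χ j / r : ℝ) - (1 - 2 * η) * ζ j) - 2 * η * ζ j := by ring
    rw [e]
    refine (abs_sub _ _).trans ?_
    rw [abs_mul, abs_of_pos (by positivity : (0 : ℝ) < 2 * η)]
    linarith [h3 j]
  have h7 := pp_level tw hN hHi hIi hr hη hk1 h1 (fun j => by
      linarith [hw1 j, (abs_lt.1 (h3 j)).1]) (b := b) (fun m hm h0 => by
      have := h2 _ (hb m (hs m hm.le h0))
      simp only [mul_sub, sum_sub_distrib] at this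
      exact sub_eq_zero.1 this) (le_trans (add_le_add le_rfl (sum_le_sum fun j _ => by
      refine (le_abs_self _).trans ?_
      rw [abs_mul]
      refine mul_le_mul_of_nonneg_right ?_ (abs_nonneg _)
      have a1 := abs_sub_abs_le_abs_sub (χ j / r : ℝ) (ζ j)
      have a2 := h6 j
      have a3 := abs_nonneg (ζ j)
      nlinarith)) hk2) h5
  have h8 : ∑ j, (1 - (b j : ℝ) / Q) * (χ j / r) ≤
      ∑ j, (1 - (b j : ℝ) / Q) * ζ j + η * D := by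
    rw [hD, mul_sum, ← sum_add_distrib]
    refine sum_le_sum fun j _ => ?_
    have a1 : (1 - (b j : ℝ) / Q) * ((χ j / r : ℝ) - ζ j) ≤
        |1 - (b j : ℝ) / Q| * (η * (1 + 2 * |ζ j|)) := by
      refine (le_abs_self _).trans ?_
      rw [abs_mul]
      exact mul_le_mul_of_nonneg_left (h6 j) (abs_nonneg _)
    nlinarith
  linarith

/-- **(P) for the limit** when no positive vector kills the subgroups -/
theorem pp_pos (td : TD) (tw : TW) {Q : ℕ} {ε : ℝ} {𝒰 : Ultrafilter ℕ}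
    {M : ℕ → AddSubgroup (Fin N → ℤ)} {f : ℕ → MvPowerSeries (Fin N) ℂ} {b : Fin N → ℤ}
    (hN : 0 < N) (hM : ∀ᶠ i in (𝒰 : Filter ℕ), ∀ u : Fin N → ℤ, (∀ j, 0 < u j) →
      ∃ m ∈ M i, ∑ j, m j * u j ≠ 0) (hH : ∀ᶠ i in (𝒰 : Filter ℕ), Hy Q ε (M i) (f i))
    (hb : ∀ m, coeff m (ulim 𝒰 f) ≠ 0 → (fun j => (m j : ℤ) - b j) ∈ limLat 𝒰 M) :
    PK Q ε (limLat 𝒰 M) b (ulim 𝒰 f) := by
  refine pp_sup td tw hN hH hb fun w z η hz hη hw => ?_
  filter_upwards [Lp.densq 𝒰 M z hz hη, hM] with i ⟨r, χ, hr, h1, h2, h3⟩ hi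
  refine ⟨r, χ, hr, h1, h2, h3, fun v hv => hi _ fun j => ?_⟩
  have r0 : (0 : ℝ) < r := by exact_mod_cast hr
  have a1 : (w j : ℝ) ≤ v j := by exact_mod_cast hv j
  have a2 : 0 < v j + (χ j / r : ℝ) := by linarith [hw j, (abs_lt.1 (h3 j)).1]
  have a3 : (0 : ℝ) < r * v j + χ j := by
    have := mul_pos r0 a2
    rwa [mul_add, mul_div_cancel₀ _ r0.ne'] at this
  exact_mod_cast a3

theorem Fi.pos {M : AddSubgroup (Fin N → ℤ)} (h : Fi M) (hN : 0 < N) (u : Fin N → ℤ)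
    (hu : ∀ j, 0 < u j) : ∃ m ∈ M, ∑ j, m j * u j ≠ 0 := by
  obtain ⟨r, hr, h⟩ := h
  refine ⟨_, h ⟨0, hN⟩, ?_⟩
  rw [sum_eq_single ⟨0, hN⟩ (fun j _ hj => by simp [Pi.single_eq_of_ne hj]) (by simp)]
  simp only [Pi.single_eq_same]
  exact mul_ne_zero (by exact_mod_cast hr.ne') (hu _).ne'

/-- **PP** -/
theorem pp_of (td : TD) (tw : TW) : PP := fun _ _ _ _ _ _ _ hN _ hF hH hb =>
  pp_pos td tw hN (Eventually.of_forall fun i => (hF i).pos hN) (Eventually.of_forall hH) hb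

end Vale.Agent.P283R.Co
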