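import Vale.Agent.P283R.Co.St
import Vale.Agent.P283R.U.Main
import Mathlib.Analysis.Complex.Polynomial.Basic

/-!
# P283R, CORE: the row RU
-/

attribute [-instance] HahnSeries.powerSeriesAlgebra

namespace Vale.Agent.P283R.Co

theorem ru_of (h : _root_.P283R.U.UStm) : RU := by
  intro N A _ _ _ 𝒰 s hg x hx F hF
  obtain ⟨B, _, _, ρ, t, y, φ, h1, h2, h3, h4, ⟨u, α, h5⟩, ⟨v, γ, h6⟩, h7⟩ :=
    h ℂ ℕ 𝒰 (Fin N) A s x hg hx F hF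
  choose w μ h7 using h7
  exact ⟨B, inferInstance, ρ, t, φ, α, γ, μ, y, h1,
    ⟨h3, fun j => ⟨w j, h7 j⟩, ⟨u, h5⟩, ⟨v, h6⟩⟩,
    h4.mono fun i hi => ⟨hi.1, h2 i, funext hi.2⟩⟩

theorem ru : RU := ru_of _root_.P283R.U.uStm

end Vale.Agent.P283R.Co
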