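import Vale.Agent.P283R.Co.St
import Vale.Agent.P283R.Co.Td
import Vale.Agent.P283R.Co.Uf

/-! The row TD. -/

open Filter MvPowerSeries

noncomputable section

namespace Vale.Agent.P283R.Co

/-- the projection onto the ultrapower -/
def ukPi (𝒰 : Ultrafilter ℕ) : (ℕ → ℂ) →+* UK 𝒰 := Germ.coeRingHom (𝒰 : Filter ℕ)

theorem ukPi_onto (𝒰 : Ultrafilter ℕ) : Function.Surjective (ukPi 𝒰) := fun x =>
  Germ.inductionOn x fun f => ⟨f, rfl⟩

theorem ukPi_ker (𝒰 : Ultrafilter ℕ) (r : ℕ → ℂ) :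
    ukPi 𝒰 r = 0 ↔ ∀ᶠ i in (𝒰 : Filter ℕ), r i = 0 := Germ.coe_eq

theorem uk_closed (𝒰 : Ultrafilter ℕ) : IsAlgClosed (UK 𝒰) := by
  refine IsAlgClosed.of_exists_root _ fun p hp hi => ?_
  obtain ⟨q, e, hd, hm⟩ := Polynomial.lifts_and_natDegree_eq_and_monic
    (f := ukPi 𝒰) (p := p) ((Polynomial.lifts_iff_coeff_lifts _).2 fun n => ukPi_onto 𝒰 _) hp
  have h0 : 0 < q.natDegree := hd ▸ hi.natDegree_pos
  have h1 : ∀ i, ∃ a, (q.map (Uf.ev i)).IsRoot a := fun i => IsAlgClosed.exists_root _ (by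
    rw [Polynomial.degree_eq_natDegree (hm.map _).ne_zero, hm.natDegree_map]
    exact_mod_cast h0.ne')
  choose r hr using h1
  refine ⟨ukPi 𝒰 r, ?_⟩
  have h2 : q.eval r = 0 := funext fun i => by
    have := hr i
    rw [Polynomial.IsRoot, show r i = Uf.ev i r from rfl, Polynomial.eval_map,
      Polynomial.eval₂_at_apply] at this
    exact this
  rw [← e, Polynomial.eval_map, Polynomial.eval₂_at_apply, h2, map_zero]

theorem map_ukPi_big {N : ℕ} (𝒰 : Ultrafilter ℕ) (f : ℕ → MvPowerSeries (Fin N) ℂ) :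
    map (ukPi 𝒰) (Uf.big f) = ulim 𝒰 f := by
  ext d
  rfl

theorem td : TD := by
  rintro N 𝒰 f a E w ⟨κ, _, _, x, δ, h, hF⟩
  have := uk_closed 𝒰
  have h1 := Td.tdown (ev := fun i => Uf.ev i) (U := (𝒰 : Filter ℕ)) (ukPi_onto 𝒰)
    (fun r hr => (ukPi_ker 𝒰 r).1 hr) x δ a E w h.dvd h.jac (truncTotal E (Uf.big f))
    (by rw [Uf.map_trunc, map_ukPi_big]; exact hF)
  filter_upwards [h1] with i ⟨k', _, _, x', δ', h2, h3, h4⟩
  rw [Uf.map_trunc_big] at h4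
  exact ⟨k', inferInstance, inferInstance, x', δ', ⟨h.pos, h2, h3⟩, h4⟩

end Vale.Agent.P283R.Co
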