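import Vale.Agent.P283R.Co.St
import Vale.Agent.P283R.Lp.A

/-!
# P283R, CORE: the vertices, clause (c)
-/

open Finset

namespace Vale.Agent.P283R.Co

theorem ver : VER := by
  intro N Q L b hQ
  obtain ⟨n, V, hn, hV, h⟩ := Lp.vert L fun j => (Q : ℤ) - b j
  have hQ' : (0 : ℝ) < Q := by exact_mod_cast hQ
  have hn' : (0 : ℝ) < n := by exact_mod_cast hn
  refine ⟨Q * n, V, Nat.mul_pos hQ hn, Dvd.intro _ rfl, fun c hc => ?_, ?_⟩
  · have e : (fun j => (c j : ℤ) - ((Q * n : ℕ) : ℤ) + ((Q * n / Q : ℕ) : ℤ) * b j) =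
        fun j => (c j : ℤ) - n * ((Q : ℤ) - b j) := by
      funext j
      rw [Nat.mul_div_cancel_left n hQ]
      push_cast
      ring
    exact e ▸ hV c hc
  · intro ε k _ f hP a E w hw
    have key : ∀ s : ℝ, (∀ c ∈ V, n * s ≤ ∑ j, (c j : ℝ) * (w j : ℝ)) →
        ε + (E : ℝ) / Q + s / Q ≤ a := by
      intro s hs
      obtain ⟨ζ, h1, h2, h3⟩ := h (fun j => (w j : ℝ)) s (fun j => Nat.cast_nonneg _) hs
      have h4 := hP a E w hw ζ h1 h2
      have e : ∑ j, (1 - (b j : ℝ) / Q) * ζ j =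
          (∑ j, ζ j * (((Q : ℤ) - b j : ℤ) : ℝ)) / Q := by
        rw [sum_div]
        refine sum_congr rfl fun j _ => ?_
        push_cast
        field_simp
      have h5 : s / Q ≤ (-∑ j, ζ j * (((Q : ℤ) - b j : ℤ) : ℝ)) / Q :=
        div_le_div_of_nonneg_right h3 hQ'.le
      rw [e] at h4
      rw [neg_div] at h5
      linarith
    rcases V.eq_empty_or_nonempty with rfl | hne
    · have := key (Q * (a - ε - (E : ℝ) / Q + 1)) (by simp)
      rw [mul_div_cancel_left₀ _ hQ'.ne'] at this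
      linarith
    · obtain ⟨c, hc, hm⟩ := V.exists_min_image (fun c => ∑ j, (c j : ℝ) * (w j : ℝ)) hne
      refine ⟨c, hc, ?_⟩
      have := key ((∑ j, (c j : ℝ) * (w j : ℝ)) / n) fun c' hc' => by
        rw [mul_div_cancel₀ _ hn'.ne']
        exact hm c' hc'
      rwa [div_div, mul_comm (n : ℝ), ← Nat.cast_mul] at this

theorem oc_of (hM : MON) : OC := by
  intro N Q n ε C k _ f hQ hn hε hP
  have hQ' : (0 : ℝ) < Q := by exact_mod_cast hQ
  have hn' : (0 : ℝ) < n := by exact_mod_cast hn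
  constructor
  · intro w hw
    have key : ∀ m : ℕ, ∃ c ∈ C, m * (∑ j, (c j : ℝ) * w j - n * ∑ j, w j) ≤ n * N := by
      intro m
      obtain ⟨c, hc, h⟩ := hP _ _ _ (hM N k f (fun j => ⌊m * w j⌋₊ + 1) fun j => Nat.succ_pos _).1
      refine ⟨c, hc, ?_⟩
      have h1 : m * ∑ j, (c j : ℝ) * w j ≤ ∑ j, (c j : ℝ) * ((⌊m * w j⌋₊ + 1 : ℕ) : ℝ) := by
        rw [mul_sum]
        refine sum_le_sum fun j _ => ?_
        rw [mul_left_comm]
        refine mul_le_mul_of_nonneg_left ?_ (Nat.cast_nonneg _)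
        push_cast
        exact (Nat.lt_floor_add_one _).le
      have h2 : ((∑ j, (⌊m * w j⌋₊ + 1) : ℕ) : ℝ) ≤ m * ∑ j, w j + N := by
        rw [mul_sum, Nat.cast_sum]
        calc _ ≤ ∑ j, (m * w j + 1) := sum_le_sum fun j _ => by
              push_cast
              exact add_le_add_left (Nat.floor_le (mul_nonneg (Nat.cast_nonneg _) (hw j))) 1
          _ = _ := by rw [sum_add_distrib]; simp
      have h3 : (∑ j, (c j : ℝ) * ((⌊m * w j⌋₊ + 1 : ℕ) : ℝ)) / n ≤ m * ∑ j, w j + N := by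
        rw [Nat.cast_zero, zero_div] at h
        linarith
      rw [div_le_iff₀ hn'] at h3
      nlinarith
    by_contra hc
    push Not at hc
    obtain ⟨c₁, hc₁, -⟩ := key 0
    obtain ⟨c, h1, hm⟩ :=
      C.exists_min_image (fun c => ∑ j, (c j : ℝ) * w j - n * ∑ j, w j) ⟨c₁, hc₁⟩
    have h0 := sub_pos.2 (hc c h1)
    obtain ⟨m, hm'⟩ := exists_nat_gt (n * N / (∑ j, (c j : ℝ) * w j - n * ∑ j, w j))
    obtain ⟨c', h2, h3⟩ := key m
    rw [div_lt_iff₀ h0] at hm'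
    have := mul_le_mul_of_nonneg_left (hm c' h2) (Nat.cast_nonneg (α := ℝ) m)
    linarith
  · rintro rfl
    obtain ⟨c, -, h⟩ := hP _ (Q * N) _ ((hM N k 0 (fun _ => 1) fun _ => Nat.one_pos).2 _)
    have h1 : 0 ≤ (∑ j, (c j : ℝ) * ((1 : ℕ) : ℝ)) / n :=
      div_nonneg (sum_nonneg fun j _ => by positivity) hn'.le
    rw [Nat.cast_mul, mul_div_cancel_left₀ _ hQ'.ne'] at h
    simp only [sum_const, card_univ, Fintype.card_fin, smul_eq_mul, mul_one] at h
    linarith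

end Vale.Agent.P283R.Co
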