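import Vale.Agent.P283R.Co.Fin
import Vale.Agent.P283R.Co.Ap2
import Vale.Agent.P283R.Co.Att
import Vale.Agent.P283R.Co.Ch
import Vale.Agent.P283R.Co.Emb
import Vale.Agent.P283R.Co.Oa
import Vale.Agent.P283R.Co.Ob
import Vale.Agent.P283R.Co.Pb
import Vale.Agent.P283R.Co.Pp
import Vale.Agent.P283R.Co.Ru
import Vale.Agent.P283R.Co.Rz
import Vale.Agent.P283R.Co.Tda
import Vale.Agent.P283R.Co.Up
import Vale.Agent.P283R.Co.Ver

/-!
# P283R, CORE: everything from the twist
-/

namespace Vale.Agent.P283R.Co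

theorem att : ATT := att_of ru ch1 ch3 emb

theorem tu : TU := tu_of ru ch2 emb

theorem oa : OA := oa_of pa

theorem oc : OC := oc_of mon

theorem lim_tw (tw : TW) : LIM := lim_of ver oc att tu oa (ob_of td tw)

theorem tt_tw (tw : TW) : TT := tt_of (pp_of td tw) (lim_tw tw) scl

end Vale.Agent.P283R.Co
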