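import Mathlib.RingTheory.HahnSeries.Summable
import Mathlib.RingTheory.MvPowerSeries.Substitution
import Mathlib.RingTheory.MvPowerSeries.Derivative
import Mathlib.Algebra.Order.Archimedean.Real.Basic
import Mathlib.Data.Fintype.Lattice

/-!
# Evaluation of multivariate power series at Hahn series of positive order
-/

open MvPowerSeries

namespace Vale.Agent.P283R.Co

variable {R : Type*} [CommRing R] {σ τ : Type*}

/-- the order of `a` is at least `r` -/
def Ge (r : ℝ) (a : HahnSeries ℝ R) : Prop := (r : WithTop ℝ) ≤ a.orderTop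

theorem ge_iff {r : ℝ} {a : HahnSeries ℝ R} : Ge r a ↔ ∀ g < r, a.coeff g = 0 := by
  simp only [Ge, HahnSeries.le_orderTop_iff_forall, WithTop.coe_lt_coe]

theorem Ge.mono {r s : ℝ} {a : HahnSeries ℝ R} (h : Ge r a) (hs : s ≤ r) : Ge s a :=
  le_trans (WithTop.coe_le_coe.2 hs) h

theorem ge_zero (r : ℝ) : Ge r (0 : HahnSeries ℝ R) := by simp [Ge]

theorem Ge.add {r : ℝ} {a b : HahnSeries ℝ R} (h : Ge r a) (h' : Ge r b) : Ge r (a + b) :=
  le_trans (le_min h h') HahnSeries.min_orderTop_le_orderTop_add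

theorem Ge.neg {r : ℝ} {a : HahnSeries ℝ R} (h : Ge r a) : Ge r (-a) := by
  simpa only [Ge, HahnSeries.orderTop_neg] using h

theorem Ge.sub {r : ℝ} {a b : HahnSeries ℝ R} (h : Ge r a) (h' : Ge r b) : Ge r (a - b) := by
  rw [sub_eq_add_neg]; exact h.add h'.neg

theorem Ge.sum {ι : Type*} {r : ℝ} {s : Finset ι} {a : ι → HahnSeries ℝ R}
    (h : ∀ i ∈ s, Ge r (a i)) : Ge r (∑ i ∈ s, a i) :=
  Finset.sum_induction _ _ (fun _ _ => Ge.add) (ge_zero r) h

theorem Ge.mul {r s : ℝ} {a b : HahnSeries ℝ R} (h : Ge r a) (h' : Ge s b) :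
    Ge (r + s) (a * b) :=
  le_trans (by rw [WithTop.coe_add]; exact add_le_add h h') HahnSeries.orderTop_add_le_mul

theorem Ge.mul0 {r : ℝ} {a b : HahnSeries ℝ R} (h : Ge r a) (h' : Ge 0 b) : Ge r (a * b) := by
  simpa using h.mul h'

theorem Ge.zero_mul {r : ℝ} {a b : HahnSeries ℝ R} (h' : Ge 0 b) (h : Ge r a) : Ge r (b * a) := by
  simpa using h'.mul h

theorem Ge.smul {r : ℝ} {a : HahnSeries ℝ R} (h : Ge r a) (c : R) : Ge r (c • a) :=
  le_trans h (HahnSeries.orderTop_le_orderTop_smul c a)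

theorem ge_single (r : ℝ) (c : R) : Ge r (HahnSeries.single r c) := HahnSeries.orderTop_single_le

theorem ge_one : Ge 0 (1 : HahnSeries ℝ R) := ge_single 0 1

theorem ge_algebraMap (c : R) : Ge 0 (algebraMap R (HahnSeries ℝ R) c) := by
  rw [Algebra.algebraMap_eq_smul_one]; exact ge_one.smul c

theorem Ge.pow {r : ℝ} {a : HahnSeries ℝ R} (h : Ge r a) (n : ℕ) : Ge (n * r) (a ^ n) := by
  induction n with
  | zero => simpa using ge_one
  | succ n ih => rw [pow_succ, Nat.cast_succ, add_mul, one_mul]; exact ih.mul h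

theorem Ge.prod {ι : Type*} {s : Finset ι} {r : ι → ℝ} {a : ι → HahnSeries ℝ R}
    (h : ∀ i ∈ s, Ge (r i) (a i)) : Ge (∑ i ∈ s, r i) (∏ i ∈ s, a i) := by
  classical
  induction s using Finset.induction_on with
  | empty => simpa using ge_one
  | insert i s hi ih =>
    rw [Finset.sum_insert hi, Finset.prod_insert hi]
    exact (h i (by simp)).mul (ih fun j hj => h j (by simp [hj]))

theorem eq_of_ge {δ : ℝ} (hδ : 0 < δ) {a b : HahnSeries ℝ R} (c : ℝ)
    (h : ∀ k : ℕ, Ge (k * δ - c) (a - b)) : a = b := by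
  rw [← sub_eq_zero]
  ext g
  obtain ⟨k, hk⟩ := exists_nat_gt ((g + c) / δ)
  exact ge_iff.1 (h k) g (by rw [div_lt_iff₀ hδ] at hk; linarith)

/-- all the components have positive order -/
def Pos (x : σ → HahnSeries ℝ R) : Prop := ∀ j, 0 < (x j).orderTop

theorem pos_of_ge {x : σ → HahnSeries ℝ R} {δ : ℝ} (hδ : 0 < δ) (h : ∀ j, Ge δ (x j)) : Pos x :=
  fun j => lt_of_lt_of_le (by exact_mod_cast hδ) (h j)

theorem exists_ge {a : HahnSeries ℝ R} (h : 0 < a.orderTop) : ∃ δ > 0, Ge δ a := by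
  by_cases e : a.orderTop = ⊤
  · exact ⟨1, one_pos, by simp [Ge, e]⟩
  · obtain ⟨r, e⟩ := WithTop.ne_top_iff_exists.1 e
    exact ⟨r, by rw [← e] at h; exact_mod_cast h, e.le⟩

theorem Pos.exists_ge [Finite σ] {x : σ → HahnSeries ℝ R} (h : Pos x) :
    ∃ δ > 0, ∀ j, Ge δ (x j) := by
  choose d hd hd' using fun j => Co.exists_ge (h j)
  cases isEmpty_or_nonempty σ
  · exact ⟨1, one_pos, fun j => isEmptyElim j⟩
  · obtain ⟨j, hj⟩ := Finite.exists_min d
    exact ⟨d j, hd j, fun i => (hd' i).mono (hj i)⟩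

theorem ge_mon {x : σ → HahnSeries ℝ R} {δ : ℝ} (h : ∀ j, Ge δ (x j)) (m : σ →₀ ℕ) :
    Ge (m.degree * δ) (m.prod fun j e => x j ^ e) := by
  have := Ge.prod (s := m.support) (r := fun j => m j * δ) fun j _ => (h j).pow (m j)
  rwa [← Finset.sum_mul, ← Nat.cast_sum] at this

variable [Finite σ]

theorem fin_deg (δ g : ℝ) (hδ : 0 < δ) : {m : σ →₀ ℕ | m.degree * δ ≤ g}.Finite := by
  obtain ⟨k, hk⟩ := exists_nat_gt (g / δ)
  refine (Finsupp.finite_of_degree_le k).subset fun m hm => ?_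
  have : (m.degree : ℝ) ≤ k := by
    rw [div_lt_iff₀ hδ] at hk
    exact le_of_mul_le_mul_right (le_trans hm hk.le) hδ
  exact_mod_cast this

/-- the family of the terms of `F (x)` -/
noncomputable def fam (x : σ → HahnSeries ℝ R) (hx : Pos x) (F : MvPowerSeries σ R) :
    HahnSeries.SummableFamily ℝ R (σ →₀ ℕ) where
  toFun m := coeff m F • m.prod fun j e => x j ^ e
  isPWO_iUnion_support' := by
    obtain ⟨δ, hδ, h⟩ := hx.exists_ge
    intro f
    by_contra hf
    push Not at hf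
    have hT : Set.IsPWO (⋃ m ∈ {m : σ →₀ ℕ | m.degree * δ ≤ (f 0 : ℝ)},
        (coeff m F • m.prod fun j e => x j ^ e).support) := by
      rw [← (fin_deg δ _ hδ).coe_toFinset]
      exact (Finset.isPWO_bUnion _).2 fun m _ => HahnSeries.isPWO_support _
    have hm : ∀ n, (f n : ℝ) ∈ ⋃ m ∈ {m : σ →₀ ℕ | m.degree * δ ≤ (f 0 : ℝ)},
        (coeff m F • m.prod fun j e => x j ^ e).support := by
      intro n
      obtain ⟨m, hm⟩ := Set.mem_iUnion.1 (f n).2
      refine Set.mem_biUnion (show m.degree * δ ≤ (f 0 : ℝ) from ?_) hm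
      have h1 : m.degree * δ ≤ (f n : ℝ) := by
        by_contra h2
        exact hm (ge_iff.1 ((ge_mon h m).smul _) _ (not_le.1 h2))
      rcases n.eq_zero_or_pos with rfl | hn
      · exact h1
      · exact h1.trans (not_le.1 (hf 0 n hn)).le
    obtain ⟨a, b, hab, h'⟩ := hT fun n => ⟨f n, hm n⟩
    exact hf a b hab h'
  finite_co_support' g := by
    obtain ⟨δ, hδ, h⟩ := hx.exists_ge
    refine (fin_deg δ g hδ).subset fun m hm => ?_
    by_contra h2
    exact hm (ge_iff.1 ((ge_mon h m).smul _) _ (not_le.1 h2))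

open Classical in
/-- the value `F (x)` of a power series at Hahn series of positive order -/
noncomputable def ev (x : σ → HahnSeries ℝ R) (F : MvPowerSeries σ R) : HahnSeries ℝ R :=
  if hx : Pos x then (fam x hx F).hsum else 0

variable {x : σ → HahnSeries ℝ R}

theorem coeff_ev (hx : Pos x) (F : MvPowerSeries σ R) (g : ℝ) :
    (ev x F).coeff g = ∑ᶠ m, (coeff m F • m.prod fun j e => x j ^ e).coeff g := by
  rw [ev, dif_pos hx, HahnSeries.SummableFamily.coeff_hsum]; rfl

theorem ev_add (F G : MvPowerSeries σ R) : ev x (F + G) = ev x F + ev x G := by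
  by_cases hx : Pos x
  · simp only [ev, dif_pos hx, ← HahnSeries.SummableFamily.hsum_add]
    congr 1
    ext1 m
    exact (congrArg (· • _) (map_add _ _ _)).trans (add_smul _ _ _)
  · simp [ev, hx]

theorem ev_zero : ev x (0 : MvPowerSeries σ R) = 0 := by
  simpa using ev_add (x := x) 0 0

/-- evaluation is additive -/
noncomputable def evA (x : σ → HahnSeries ℝ R) : MvPowerSeries σ R →+ HahnSeries ℝ R :=
  AddMonoidHom.mk' (ev x) ev_add

theorem ev_sub (F G : MvPowerSeries σ R) : ev x (F - G) = ev x F - ev x G := (evA x).map_sub F G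

theorem ev_monomial (hx : Pos x) (m : σ →₀ ℕ) (c : R) :
    ev x (monomial m c) = c • m.prod fun j e => x j ^ e := by
  classical
  ext g
  rw [coeff_ev hx, finsum_eq_single _ m, coeff_monomial_same]
  intro n hn
  rw [coeff_monomial_ne hn, zero_smul, HahnSeries.coeff_zero]

theorem ev_coe (hx : Pos x) (p : MvPolynomial σ R) :
    ev x (p : MvPowerSeries σ R) = MvPolynomial.aeval x p := by
  induction p using MvPolynomial.induction_on' with
  | monomial m c =>
    rw [MvPolynomial.coe_monomial, ev_monomial hx, MvPolynomial.aeval_monomial, Algebra.smul_def]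
  | add p q hp hq => rw [MvPolynomial.coe_add, ev_add, hp, hq, map_add]

theorem ge_ev {δ : ℝ} (hδ : 0 < δ) (h : ∀ j, Ge δ (x j)) {F : MvPowerSeries σ R} {k : ℕ}
    (hF : (k : ℕ∞) ≤ F.order) : Ge (k * δ) (ev x F) := by
  refine ge_iff.2 fun g hg => ?_
  rw [coeff_ev (pos_of_ge hδ h)]
  refine finsum_eq_zero_of_forall_eq_zero fun m => ?_
  by_cases hm : m.degree < k
  · rw [coeff_of_lt_order (lt_of_lt_of_le (by exact_mod_cast hm) hF), zero_smul,
      HahnSeries.coeff_zero]
  · refine ge_iff.1 ((ge_mon h m).smul _) _ (hg.trans_le ?_)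
    have : (k : ℝ) ≤ m.degree := by exact_mod_cast not_lt.1 hm
    gcongr

theorem ge_ev_zero (F : MvPowerSeries σ R) : Ge 0 (ev x F) := by
  by_cases hx : Pos x
  · obtain ⟨δ, hδ, h⟩ := hx.exists_ge
    simpa using ge_ev hδ h (F := F) (k := 0) (by simp)
  · simp [ev, hx, ge_zero]

theorem order_sub_trunc (F : MvPowerSeries σ R) (k : ℕ) :
    (k : ℕ∞) ≤ (F - (truncTotal k F : MvPolynomial σ R)).order :=
  nat_le_order fun d hd => by
    rw [map_sub, MvPolynomial.coeff_coe, coeff_truncTotal _ hd, sub_self]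

theorem ge_ev_trunc {δ : ℝ} (hδ : 0 < δ) (h : ∀ j, Ge δ (x j)) (F : MvPowerSeries σ R) (k : ℕ) :
    Ge (k * δ) (ev x F - MvPolynomial.aeval x (truncTotal k F)) := by
  rw [← ev_coe (pos_of_ge hδ h), ← ev_sub]
  exact ge_ev hδ h (order_sub_trunc F k)

/-- two additive continuous maps which agree on polynomials are equal -/
theorem ext_poly {R' : Type*} [CommRing R'] {φ ψ : MvPowerSeries σ R →+ HahnSeries ℝ R'} {δ : ℝ} (c : ℝ) (hδ : 0 < δ)
    (hφ : ∀ (k : ℕ) F, (k : ℕ∞) ≤ F.order → Ge (k * δ - c) (φ F))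
    (hψ : ∀ (k : ℕ) F, (k : ℕ∞) ≤ F.order → Ge (k * δ - c) (ψ F))
    (h : ∀ p : MvPolynomial σ R, φ p = ψ p) (F : MvPowerSeries σ R) : φ F = ψ F := by
  refine eq_of_ge hδ c fun k => ?_
  have := (hφ k _ (order_sub_trunc F k)).sub (hψ k _ (order_sub_trunc F k))
  rwa [map_sub, map_sub, h, sub_sub_sub_cancel_right] at this

theorem ev_mul (hx : Pos x) (F G : MvPowerSeries σ R) : ev x (F * G) = ev x F * ev x G := by
  obtain ⟨δ, hδ, h⟩ := hx.exists_ge
  refine eq_of_ge hδ 0 fun k => ?_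
  set p := truncTotal k F
  set q := truncTotal k G
  have e : ev x (F * G) - ev x F * ev x G =
      ev x ((F - p) * G) + ev x (p * (G - q)) - (ev x (F - p) * ev x G + ev x p * ev x (G - q)) := by
    have h1 : ev x ((p : MvPowerSeries σ R) * q) = ev x p * ev x q := by
      rw [← MvPolynomial.coe_mul, ev_coe hx, ev_coe hx, ev_coe hx, map_mul]
    rw [sub_mul, mul_sub, ev_sub, ev_sub, ev_sub, ev_sub, h1]; ring
  rw [e, sub_zero]
  have hp := order_sub_trunc F k
  have hq := order_sub_trunc G k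
  refine ((ge_ev hδ h ?_).add (ge_ev hδ h ?_)).sub
    (((ge_ev hδ h hp).mul0 (ge_ev_zero _)).add ((ge_ev_zero _).zero_mul (ge_ev hδ h hq)))
  · exact le_trans (le_trans hp le_self_add) le_order_mul
  · exact le_trans (le_trans hq le_add_self) le_order_mul

theorem ev_C (hx : Pos x) (c : R) : ev x (C c) = algebraMap R _ c := by
  rw [← MvPolynomial.coe_C, ev_coe hx, MvPolynomial.aeval_C]

theorem ev_X (hx : Pos x) (j : σ) : ev x (X j) = x j := by
  rw [← MvPolynomial.coe_X, ev_coe hx, MvPolynomial.aeval_X]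

/-- evaluation as a morphism of algebras -/
noncomputable def evH (hx : Pos x) : MvPowerSeries σ R →ₐ[R] HahnSeries ℝ R where
  toFun := ev x
  map_one' := by rw [← map_one C, ev_C hx, map_one]
  map_mul' := ev_mul hx
  map_zero' := ev_zero
  map_add' := ev_add
  commutes' c := ev_C hx c

theorem evH_apply (hx : Pos x) (F : MvPowerSeries σ R) : evH hx F = ev x F := rfl

end Vale.Agent.P283R.Co
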