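import Vale.Agent.P283R.Co.St
import Mathlib.Order.Filter.Ultrafilter.Basic

/-!
# P283R, CORE: the assembly
-/

open Filter MvPowerSeries
open Vale.Agent.P283.H647 (limLat)

noncomputable section

namespace Vale.Agent.P283R.Co

variable {N : ℕ}

theorem ulim_ne {𝒰 : Ultrafilter ℕ} {f : ℕ → MvPowerSeries (Fin N) ℂ} {m : Fin N →₀ ℕ} :
    coeff m (ulim 𝒰 f) ≠ 0 ↔ ∀ᶠ i in (𝒰 : Filter ℕ), coeff m (f i) ≠ 0 := by
  have e : coeff m (ulim 𝒰 f) = ((fun i => coeff m (f i) : ℕ → ℂ) : UK 𝒰) := rfl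
  rw [e, ← Germ.coe_zero, Ne, Germ.coe_eq, Ultrafilter.eventually_not]
  rfl

theorem lim_of (ver : VER) (oc : OC) (att : ATT) (tu : TU) (oa : OA) (ob : OB) : LIM := by
  intro N Q ε 𝒰 M f b hN hQ hε h
  obtain ⟨n, C, hn, hq, hc, hv⟩ := ver N Q (limLat 𝒰 M) b hQ
  have pv := hv ε _ _ h
  obtain ⟨c3, f0⟩ := oc N Q n ε C _ _ hQ hn hε pv
  obtain ⟨c₀, h0, lb, at'⟩ := att N Q n ε C 𝒰 _ hN hQ hn hε f0 pv
  obtain ⟨ρ, k₀, hb⟩ := ob N Q n C c₀ 𝒰 f hN hQ hn h0.le at'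
  obtain ⟨m, hm⟩ : ∃ m, coeff m (ulim 𝒰 f) ≠ 0 := by
    by_contra e
    exact f0 (MvPowerSeries.ext fun m => by_contra fun e' => e ⟨m, by simpa using e'⟩)
  obtain ⟨k₁, hk₁⟩ := exists_nat_gt ((Q : ℝ) * ρ)
  let k := k₀ + k₁ + (m.degree + 1)
  have t0 : truncTotal k (ulim 𝒰 f) ≠ 0 := fun e => hm (by
    rw [← coeff_truncTotal (ulim 𝒰 f) (n := k) (show m.degree < k by omega), e]
    rfl)
  refine ⟨f0, n, hn, hq, ?_⟩
  have e1 : ∀ᶠ i in (𝒰 : Filter ℕ), Chr Q n (M i) b C :=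
    (eventually_all_finset C).2 fun c hC => hc c hC
  filter_upwards [e1, tu N Q n k C c₀ 𝒰 f hQ t0 lb, hb k (by omega)] with i h1 h2 h3
  refine ⟨C, c₀, ρ, k, h0, hk₁.trans_le ?_, h1, oa N Q n k C c₀ _ h2, h3, c3⟩
  exact_mod_cast (by omega : k₁ ≤ k)

theorem Out.chg {Q n : ℕ} {M : AddSubgroup (Fin N → ℤ)} {b b' : Fin N → ℤ}
    {f : MvPowerSeries (Fin N) ℂ} (h : Out Q n M b f) (e : (fun j => b j - b' j) ∈ M) :
    Out Q n M b' f := by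
  obtain ⟨C, c₀, ρ, k, h0, h1, h2, h3⟩ := h
  refine ⟨C, c₀, ρ, k, h0, h1, fun c hc => ?_, h3⟩
  have := M.sub_mem (h2 c hc) (M.zsmul_mem e ((n / Q : ℕ) : ℤ))
  refine (congrArg (· ∈ M) (funext fun j => ?_)).mp this
  simp only [Pi.sub_apply, Pi.smul_apply, smul_eq_mul]
  ring

theorem tt_of (pp : PP) (lim : LIM) (scl : SCL) : TT := by
  intro N Q ε hN hQ hε
  by_contra hn
  have key : ∀ i : ℕ, ∃ (n : ℕ) (M : AddSubgroup (Fin N → ℤ)) (b : Fin N → ℤ)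
      (f : MvPowerSeries (Fin N) ℂ), 0 < n ∧ Q * i.factorial ∣ n ∧ Fi M ∧ Cos M b f ∧
        Hy Q ε M f ∧ ¬ Out Q n M b f := fun i => by
    by_contra e
    refine hn ⟨Q * i.factorial, Nat.mul_pos hQ i.factorial_pos, Dvd.intro _ rfl,
      fun n h1 h2 M b f h3 h4 h5 => by_contra fun h6 => e ⟨n, M, b, f, h1, h2, h3, h4, h5, h6⟩⟩
  choose n M b f n0 nd fi co hy no using key
  let 𝒰 : Ultrafilter ℕ := hyperfilter ℕ
  by_cases f0 : ulim 𝒰 f = 0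
  · refine (lim N Q ε 𝒰 M f 0 hN hQ hε (pp N Q ε 𝒰 M f 0 hN hQ fi hy fun m hm => ?_)).1 f0
    exact (hm (by rw [f0, map_zero])).elim
  obtain ⟨m, hm⟩ : ∃ m, coeff m (ulim 𝒰 f) ≠ 0 := by
    by_contra e
    exact f0 (MvPowerSeries.ext fun m => by_contra fun e' => e ⟨m, by simpa using e'⟩)
  obtain ⟨-, n₁, h1, h2, h3⟩ := lim N Q ε 𝒰 M f (fun j => m j) hN hQ hε
    (pp N Q ε 𝒰 M f _ hN hQ fi hy fun m' hm' => by
      change ∀ᶠ i in (𝒰 : Filter ℕ), _ ∈ M i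
      filter_upwards [ulim_ne.1 hm, ulim_ne.1 hm'] with i a a'
      have := (M i).sub_mem (co i m' a') (co i m a)
      refine (congrArg (· ∈ M i) (funext fun j => ?_)).mp this
      simp)
  have big : ∀ᶠ i in (𝒰 : Filter ℕ), n₁ ≤ i :=
    hyperfilter_le_cofinite (Nat.cofinite_eq_atTop ▸ eventually_ge_atTop n₁)
  obtain ⟨i, a1, a2, a3⟩ := (h3.and ((ulim_ne.1 hm).and big)).exists
  obtain ⟨r, hr⟩ : n₁ ∣ n i :=
    ((Nat.dvd_factorial h1 a3).trans (Dvd.intro_left _ rfl)).trans (nd i)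
  have r0 : 0 < r := Nat.pos_of_ne_zero fun e => (n0 i).ne' (by rw [hr, e, mul_zero])
  have := scl N Q n₁ r (M i) (b i) (f i) h1 r0 h2 (a1.chg (co i m a2))
  rw [mul_comm, ← hr] at this
  exact no i this

end Vale.Agent.P283R.Co
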