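import Vale.Agent.P283R.Co.St
import Mathlib.LinearAlgebra.Complex.FiniteDimensional

/-!
# P283R, CORE: independent weights and the row `HR0`
-/

attribute [-instance] HahnSeries.powerSeriesAlgebra

noncomputable section

namespace Vale.Agent.P283R.Co

theorem exists_indep (N : ℕ) (η : ℝ) (hη : 0 < η) : ∃ w : Fin (N + 1) → ℝ,
    LinearIndependent ℚ w ∧ w 0 = 1 ∧ (∀ j, 0 < w j) ∧ ∀ j : Fin N, w j.succ < η := by
  induction N with
  | zero =>
    exact ⟨fun _ => 1, (linearIndependent_unique_iff (ι := Fin 1)).2 one_ne_zero, rfl,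
      fun _ => one_pos,
      fun j => j.elim0⟩
  | succ N ih =>
    obtain ⟨w, h1, h2, h3, h4⟩ := ih
    obtain ⟨x, hx⟩ := exists_linearIndependent_snoc_of_lt_rank h1 (by
      rw [Real.rank_rat_real]
      exact lt_of_lt_of_le (Cardinal.natCast_lt_aleph0) Cardinal.aleph0_le_continuum)
    obtain ⟨-, hx'⟩ := linearIndependent_finSnoc.1 hx
    obtain ⟨q, q1, q2⟩ := exists_rat_btwn (show x - η < x by linarith)
    refine ⟨Fin.snoc w (x - q), linearIndependent_finSnoc.2 ⟨h1, fun h => hx' ?_⟩, ?_, ?_, ?_⟩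
    · have : (q : ℝ) ∈ Submodule.span ℚ (Set.range w) := by
        simpa [h2] using Submodule.smul_mem _ q (Submodule.subset_span (R := ℚ)
          (Set.mem_range_self (f := w) 0))
      simpa using add_mem h this
    · simpa using h2
    · intro j
      refine Fin.lastCases ?_ (fun j => ?_) j
      · simpa using q2
      · simpa using h3 j
    · intro j
      refine Fin.lastCases ?_ (fun j => ?_) j
      · rw [Fin.succ_last, Fin.snoc_last]; linarith
      · rw [Fin.succ_castSucc, Fin.snoc_castSucc]; exact h4 j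

/-- the dual functionals of rationally independent real numbers -/
theorem exists_dual {ι : Type} [DecidableEq ι] {w : ι → ℝ} (h : LinearIndependent ℚ w) :
    ∃ l : ι → ℝ →+ ℂ, ∀ i j, l j (w i) = if i = j then 1 else 0 := by
  obtain ⟨g, hg⟩ := LinearMap.exists_leftInverse_of_injective (Finsupp.linearCombination ℚ w)
    (LinearMap.ker_eq_bot.2 h)
  refine ⟨fun j => (algebraMap ℚ ℂ).toAddMonoidHom.comp
    ((Finsupp.lapply j).comp g).toAddMonoidHom, fun i j => ?_⟩
  have := LinearMap.congr_fun hg (Finsupp.single i 1)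
  simp only [LinearMap.comp_apply, Finsupp.linearCombination_single, one_smul,
    LinearMap.id_apply] at this
  change algebraMap ℚ ℂ (g (w i) j) = _
  rw [this, Finsupp.single_apply]
  split_ifs <;> simp

/-- small independent weights with the dual functionals -/
theorem exists_wt (N : ℕ) (η : ℝ) (hη : 0 < η) : ∃ (w : Fin (N + 1) → ℝ)
    (l : Fin (N + 1) → ℝ →+ ℂ), LinearIndependent ℚ w ∧ w 0 = 1 ∧ (∀ j, 0 < w j) ∧
      (∀ j : Fin N, w j.succ < η) ∧ ∀ i j, l j (w i) = if i = j then 1 else 0 := by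
  obtain ⟨w, h1, h2, h3, h4⟩ := exists_indep N η hη
  obtain ⟨l, hl⟩ := exists_dual h1
  exact ⟨w, l, h1, h2, h3, h4, hl⟩

/-- the logarithmic Jacobian of the monomial arc -/
theorem jd_single {N : ℕ} {w : Fin N → ℝ} {l : Fin N → ℝ →+ ℂ}
    (hl : ∀ i j, l j (w i) = if i = j then 1 else 0) :
    Jd l (fun i => HahnSeries.single (w i) 1) = ∏ i, HahnSeries.single (w i) (1 : ℂ) := by
  rw [Jd, ← Matrix.det_diagonal]
  refine congrArg _ (Matrix.ext fun i j => ?_)
  rw [Matrix.of_apply, thl_single, hl, Matrix.diagonal_apply]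
  split_ifs <;> simp

theorem hr0 : HR0 := by
  intro N
  obtain ⟨w, l, -, -, h3, -, hl⟩ := exists_wt N 1 one_pos
  refine ⟨fun i => HahnSeries.single (w i.succ) 1, fun j => l j.succ, fun i => ?_, ?_⟩
  · rw [HahnSeries.orderTop_single one_ne_zero]
    exact_mod_cast h3 _
  · rw [jd_single fun i j => by simpa using hl i.succ j.succ]
    exact Finset.prod_ne_zero_iff.2 fun i _ => HahnSeries.single_ne_zero one_ne_zero

end Vale.Agent.P283R.Co
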