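import Vale.Agent.P287D.Cb.Kap

/-!
# The Taylor expansion at a divisorial place: every place is the order of an arc
-/

open Set PowerSeries
open Vale.Agent.P287D Vale.Agent.P287D.Cb
open Vale.Agent.P285N.Brep (jac Fr)
open Vale.Agent.P297Z

namespace Vale.Agent.P283R.Pa

variable {K : Type} [Field K] [Algebra ℂ K] {P : Pl K} {d : Derivation ℂ K K} {f g : K} {n : ℕ}

theorem cz (P : Pl K) : CharZero P.κ :=
  charZero_of_injective_algebraMap (algebraMap ℂ P.κ).injective

/-- the Taylor series along the derivation `d` -/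
noncomputable def tay (P : Pl K) (d : Derivation ℂ K K) (f : K) : PowerSeries P.κ :=
  PowerSeries.mk fun k => P.rd (d^[k] f) / (k.factorial : P.κ)

theorem it_mem (h : Rg P d) (k : ℕ) : ∀ f ∈ P.ring, d^[k] f ∈ P.ring := by
  induction k with
  | zero => exact fun f hf => hf
  | succ k ih => exact fun f hf => ih _ (h f hf)

theorem it_add (k : ℕ) : ∀ f g : K, d^[k] (f + g) = d^[k] f + d^[k] g := by
  induction k with
  | zero => exact fun f g => rfl
  | succ k ih => intro f g; simp only [Function.iterate_succ_apply, map_add, ih]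

theorem tay_add (h : Rg P d) (hf : f ∈ P.ring) (hg : g ∈ P.ring) :
    tay P d (f + g) = tay P d f + tay P d g := by
  ext k
  simp only [tay, coeff_mk, map_add, it_add, rd_add (it_mem h k f hf) (it_mem h k g hg), add_div]

theorem tay_zero_coeff (f : K) : coeff 0 (tay P d f) = P.rd f := by simp [tay]

theorem tay_succ (k : ℕ) (f : K) :
    coeff (k + 1) (tay P d f) * (k + 1) = coeff k (tay P d (d f)) := by
  have := cz P
  have h1 : ((k : P.κ) + 1) ≠ 0 := Nat.cast_add_one_ne_zero k
  have h2 : (k.factorial : P.κ) ≠ 0 := Nat.cast_ne_zero.2 k.factorial_ne_zero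
  simp only [tay, coeff_mk, Function.iterate_succ_apply, Nat.factorial_succ, Nat.cast_mul,
    Nat.cast_add, Nat.cast_one]
  field_simp

theorem der_tay (f : K) : derivative P.κ (tay P d f) = tay P d (d f) := by
  ext k
  rw [coeff_derivative, tay_succ]

theorem tay_mul (h : Rg P d) (hf : f ∈ P.ring) (hg : g ∈ P.ring) :
    tay P d (f * g) = tay P d f * tay P d g := by
  have := cz P
  ext k
  induction k generalizing f g with
  | zero =>
    rw [tay_zero_coeff, coeff_zero_eq_constantCoeff_apply, map_mul,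
      ← coeff_zero_eq_constantCoeff_apply, ← coeff_zero_eq_constantCoeff_apply, tay_zero_coeff,
      tay_zero_coeff, rd_mul hf hg]
  | succ k ih =>
    have h1 : ((k : P.κ) + 1) ≠ 0 := Nat.cast_add_one_ne_zero k
    refine mul_right_cancel₀ h1 ?_
    rw [tay_succ, ← coeff_derivative, Derivation.leibniz, Derivation.leibniz, der_tay, der_tay,
      smul_eq_mul, smul_eq_mul, smul_eq_mul, smul_eq_mul,
      tay_add h (mul_mem hf (h g hg)) (mul_mem hg (h f hf)), map_add, map_add, ih hf (h g hg),
      ih hg (h f hf)]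

theorem tay_const (e : d f = 0) : tay P d f = C (P.rd f) := by
  have := cz P
  ext k
  rcases k with _ | k
  · rw [tay_zero_coeff, coeff_zero_C]
  · have h1 : ((k : P.κ) + 1) ≠ 0 := Nat.cast_add_one_ne_zero k
    refine mul_right_cancel₀ h1 ?_
    have z : P.rd (0 : K) = 0 := (rd_eq_zero (zero_mem _)).2 mx_zero
    rw [tay_succ, e, coeff_succ_C, zero_mul]
    simp [tay, Function.iterate_fixed (map_zero d), z]

theorem rd_one : P.rd (1 : K) = 1 := by simpa using rd_const (P := P) 1

theorem tay_X (e : d f = 1) (m : Mx P f) : tay P d f = X := by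
  have := cz P
  refine derivative.ext ?_ ?_
  · rw [der_tay, e, tay_const d.map_one_eq_zero, rd_one, derivative_X, map_one]
  · rw [← coeff_zero_eq_constantCoeff_apply, tay_zero_coeff, constantCoeff_X,
      (rd_eq_zero m.mem).2 m]

/-- the Taylor series as a ring homomorphism -/
noncomputable def tayH (h : Rg P d) : P.ring →+* PowerSeries P.κ where
  toFun f := tay P d f
  map_one' := by
    change tay P d 1 = 1
    rw [tay_const d.map_one_eq_zero, rd_one, map_one]
  map_zero' := by
    change tay P d 0 = 0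
    rw [tay_const (map_zero d), (rd_eq_zero (zero_mem _)).2 mx_zero, map_zero]
  map_mul' f g := tay_mul h f.2 g.2
  map_add' f g := tay_add h f.2 g.2

theorem tay_pow (h : Rg P d) (hf : f ∈ P.ring) (k : ℕ) : tay P d (f ^ k) = tay P d f ^ k :=
  map_pow (tayH h) ⟨f, hf⟩ k

theorem tay_fac (h : Rg P d) {π : K} (e : d π = 1) (o : P.ord π = 1) (hf : f ∈ P.ring)
    (f0 : f ≠ 0) : ∃ v : PowerSeries P.κ, constantCoeff v ≠ 0 ∧
      tay P d f = X ^ (P.ord f).toNat * v := by
  have p0 : π ≠ 0 := fun e => by simp [e] at o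
  have m : Mx P π := mx_iff.2 (Or.inr (by rw [o]; omega))
  have k0 := Pl.ord_nonneg_of_mem _ hf
  have hp : π ^ (P.ord f).toNat ≠ 0 := pow_ne_zero _ p0
  have v0 : P.ord (f / π ^ (P.ord f).toNat) = 0 := by
    rw [Pl.ord_div _ f0 hp, Pl.ord_pow, o]; omega
  have vm : f / π ^ (P.ord f).toNat ∈ P.ring := mem_ord v0.ge
  refine ⟨tay P d (f / π ^ (P.ord f).toNat), ?_, ?_⟩
  · rw [← coeff_zero_eq_constantCoeff_apply, tay_zero_coeff, Ne, rd_eq_zero vm, mx_iff, v0]
    simp [f0, hp]
  · rw [← tay_X e m, ← tay_pow h m.mem, ← tay_mul h (pow_mem m.mem _) vm, mul_div_cancel₀ _ hp]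

theorem tay_der (h : Rg P d) {D : Derivation ℂ K K} (c : ∀ x, d (D x) = D (d x))
    {e : P.κ → P.κ} (he : Dr (RingHom.id _) e) (hD : ∀ x ∈ P.ring, e (P.rd x) = P.rd (D x))
    (hf : f ∈ P.ring) (k : ℕ) : e (coeff k (tay P d f)) = coeff k (tay P d (D f)) := by
  have := cz P
  have s : Function.Commute d D := c
  have h2 : (k.factorial : P.κ) ≠ 0 := Nat.cast_ne_zero.2 k.factorial_ne_zero
  have z : e (k.factorial : P.κ)⁻¹ = 0 := inv_mem (natCast_mem he.ker k.factorial)
  simp only [tay, coeff_mk]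
  rw [div_eq_mul_inv, he.mul, z, hD _ (it_mem h k f hf), (s.iterate_left k).eq f]
  simp [div_eq_mul_inv, mul_comm]

theorem comm {t : Fin n → K} {D : Fin n → Derivation ℂ K K} (h : Fr t D) (i j : Fin n) (x : K) :
    D i (D j x) = D j (D i x) := by
  have e := expand (dr_of ⁅D i, D j⁆) (fun c => Derivation.map_algebraMap _ c) h x
  have z : ∀ l, ⁅D i, D j⁆ (t l) = 0 := fun l => by
    rw [Derivation.commutator_apply, h.dual, h.dual]
    split_ifs <;> simp
  simp only [z, zero_mul, Finset.sum_const_zero, Derivation.commutator_apply] at e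
  exact sub_eq_zero.1 e

/-- The expansion at a place: an injective ring homomorphism `T` to power series over the residue
field which preserves the orders and the constants, with the derivations. -/
theorem exists_tay (hK : FF K (n + 1)) (P : Pl K) :
    ∃ (T : P.ring →+* PowerSeries P.κ) (D : Fin (n + 1) → Derivation ℂ K K)
      (E : Fin n → Derivation ℂ P.κ P.κ) (hD : ∀ i, ∀ f ∈ P.ring, D i f ∈ P.ring),
      (∀ y : Fin (n + 1) → K, kap y P = P.ord (jac D y)) ∧
      (∀ y : Fin (n + 1) → K, AlgebraicIndependent ℂ y → jac D y ≠ 0) ∧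
      (∀ c, T ⟨algebraMap ℂ K c, P.con c⟩ = C (algebraMap ℂ P.κ c)) ∧
      (∀ f : P.ring, (f : K) ≠ 0 → ∃ v : PowerSeries P.κ, constantCoeff v ≠ 0 ∧
        T f = X ^ (P.ord (f : K)).toNat * v) ∧
      (∀ f : P.ring, derivative P.κ (T f) = T ⟨D 0 f, hD 0 f f.2⟩) ∧
      ∀ (l : Fin n) (f : P.ring) (k : ℕ),
        E l (coeff k (T f)) = coeff k (T ⟨D l.succ f, hD _ f f.2⟩) := by
  obtain ⟨u, a⟩ := exists_ada hK P
  obtain ⟨D, h⟩ := a.ad hK
  have l := (a.lf h).lg
  choose e h1 h2 using fun i : Fin n => Lg.bar (dr_of (D i.succ)) (l i.succ)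
  have ec : ∀ i c, e i (algebraMap ℂ P.κ c) = 0 := fun i c => by
    rw [← rd_const, h2 i _ (P.con c), Derivation.map_algebraMap]
    exact (rd_eq_zero (zero_mem _)).2 mx_zero
  let E : Fin n → Derivation ℂ P.κ P.κ := fun i => Derivation.mk'
    { toFun := e i
      map_add' := (h1 i).add
      map_smul' := fun c x => by
        rw [Algebra.smul_def, (h1 i).mul, ec, RingHom.id_apply, Algebra.smul_def]; simp }
    fun x y => (h1 i).mul x y
  have r : Rg P (D 0) := h.pre 0
  refine ⟨tayH r, D, E, h.pre, kap_eq h, fun y hy => (jac_ne_iff h.fr y).2 hy, fun c => ?_,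
    fun f f0 => tay_fac r (by simpa using h.fr.dual 0 0) a.ord f.2 f0, fun f => der_tay _,
    fun i f k => tay_der r (comm h.fr 0 i.succ) (h1 i) (h2 i) f.2 k⟩
  change tay P (D 0) _ = _
  rw [tay_const (Derivation.map_algebraMap _ c), rd_const]

end Vale.Agent.P283R.Pa
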