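import Mathlib

/-!
# The Taylor series at a point of a ring with commuting derivations
-/

open MvPowerSeries Finsupp

namespace Vale.Agent.P283R.Pc

variable {σ : Type} [Fintype σ] [DecidableEq σ]

omit [Fintype σ] [DecidableEq σ] in
theorem ind_deg {p : (σ →₀ ℕ) → Prop} (h0 : p 0) (h1 : ∀ β i, p β → p (β + single i 1)) :
    ∀ α, p α := by
  intro α
  induction α using Finsupp.induction with
  | zero => exact h0
  | single_add a b f h2 h3 ih =>
    clear h2 h3
    induction b with
    | zero => simpa using ih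
    | succ b ihb =>
      have := h1 _ a ihb
      rwa [add_right_comm, ← single_add] at this

omit [Fintype σ] [DecidableEq σ] in
theorem coeff_step {F : MvPowerSeries σ ℂ} {β : σ →₀ ℕ} {i : σ}
    (h : coeff β (pderiv ℂ i F) = 0) : coeff (β + single i 1) F = 0 := by
  rw [coeff_pderiv] at h
  exact (mul_eq_zero.1 h).resolve_right (Nat.cast_add_one_ne_zero _)

theorem taylor {R : Type} [CommRing R] [Algebra ℂ R] (D : σ → Derivation ℂ R R)
    (hc : ∀ i j a, D i (D j a) = D j (D i a)) (χ : R →ₐ[ℂ] ℂ) :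
    ∃ T : R →ₐ[ℂ] MvPowerSeries σ ℂ, (∀ a, constantCoeff (T a) = χ a) ∧
      ∀ i a, pderiv ℂ i (T a) = T (D i a) := by
  let ϕ : σ → Multiplicative ℕ →* Module.End ℂ R := fun i => powersHom _ (D i).toLinearMap
  have hϕ : Pairwise fun i j => ∀ x y, Commute (ϕ i x) (ϕ j y) := fun i j _ x y =>
    Commute.pow_pow (LinearMap.ext (hc i j)) _ _
  obtain ⟨E, E0, E1⟩ : ∃ E : (σ →₀ ℕ) → Module.End ℂ R, E 0 = 1 ∧
      ∀ β i, E (β + single i 1) = E β * (D i).toLinearMap := by
    refine ⟨fun α => MonoidHom.noncommPiCoprod ϕ hϕ fun i => .ofAdd (α i), map_one _,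
      fun β i => ?_⟩
    have e : (fun j => Multiplicative.ofAdd ((β + single i 1 : σ →₀ ℕ) j)) =
        (fun j => Multiplicative.ofAdd (β j)) * Pi.mulSingle i (Multiplicative.ofAdd 1) := by
      funext j
      by_cases h : j = i
      · subst h; simp [ofAdd_add]
      · simp [h]
    simp only [e, map_mul, MonoidHom.noncommPiCoprod_mulSingle]
    simp [ϕ]
  let t : R →ₗ[ℂ] MvPowerSeries σ ℂ :=
    { toFun a := fun α => χ (E α a) / ∏ j, ((α j).factorial : ℂ)
      map_add' a b := by
        funext α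
        change χ _ / _ = χ _ / _ + χ _ / _
        rw [map_add, map_add, add_div]
      map_smul' c a := by
        funext α
        change χ _ / _ = c * (χ _ / _)
        rw [map_smul, map_smul, smul_eq_mul, mul_div_assoc] }
  have tc : ∀ a α, coeff α (t a) = χ (E α a) / ∏ j, ((α j).factorial : ℂ) := fun _ _ => rfl
  have t0 : ∀ a, constantCoeff (t a) = χ a := fun a => by
    rw [← coeff_zero_eq_constantCoeff_apply, tc, E0]; simp
  have t1 : ∀ i a, pderiv ℂ i (t a) = t (D i a) := fun i a => by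
    ext β
    rw [coeff_pderiv, tc, tc, E1]
    have e : ∏ j, (((β + single i 1 : σ →₀ ℕ) j).factorial : ℂ) =
        (∏ j, ((β j).factorial : ℂ)) * (β i + 1) := by
      rw [← Finset.mul_prod_erase _ _ (Finset.mem_univ i),
        ← Finset.mul_prod_erase _ (fun j => ((β j).factorial : ℂ)) (Finset.mem_univ i),
        Finset.prod_congr rfl (g := fun j => ((β j).factorial : ℂ)) fun j hj => by
          simp [Finset.ne_of_mem_erase hj]]
      simp [Nat.factorial_succ]
      ring
    have h1 : ((β i : ℂ) + 1) ≠ 0 := Nat.cast_add_one_ne_zero _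
    rw [e, ← div_div, div_mul_cancel₀ _ h1]
    rfl
  have tm : ∀ α a b, coeff α (t (a * b) - t a * t b) = 0 := by
    refine ind_deg (fun a b => by simp [t0]) fun β i ih a b => coeff_step ?_
    have e : pderiv ℂ i (t (a * b) - t a * t b) =
        (t (a * D i b) - t a * t (D i b)) + (t (b * D i a) - t b * t (D i a)) := by
      rw [map_sub, Derivation.leibniz, t1, t1, t1, Derivation.leibniz, map_add]
      simp only [smul_eq_mul]
      ring
    rw [e, map_add, ih, ih, add_zero]
  have t2 : t 1 = 1 := pderiv.ext (fun i => by rw [t1]; simp) (by rw [t0]; simp)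
  exact ⟨AlgHom.ofLinearMap t t2 fun a b => sub_eq_zero.1 (MvPowerSeries.ext fun α => tm α a b),
    t0, t1⟩

theorem exists_hom {κ : Type} [Field κ] [Algebra ℂ κ] (h : Module.rank ℂ κ ≤ Cardinal.aleph0) :
    Nonempty (κ →ₐ[ℂ] ℂ) := by
  have : Algebra.IsAlgebraic ℂ κ := ⟨fun x => by
    by_contra hx
    have h3 := (Transcendental.linearIndependent_sub_inv hx).cardinal_le_rank.trans h
    rw [Cardinal.mk_complex] at h3
    exact absurd h3 (not_le.2 Cardinal.aleph0_lt_continuum)⟩
  exact ⟨IsAlgClosed.lift⟩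

/-- a countably generated algebra has a point on every proper ideal -/
theorem exists_pt {R : Type} [CommRing R] [Algebra ℂ R] (h : Module.rank ℂ R ≤ Cardinal.aleph0)
    (I : Ideal R) (hI : I ≠ ⊤) : ∃ χ : R →ₐ[ℂ] ℂ, ∀ a ∈ I, χ a = 0 := by
  obtain ⟨m, hm, le⟩ := Ideal.exists_le_maximal I hI
  let _ := Ideal.Quotient.field m
  obtain ⟨e⟩ := exists_hom (κ := R ⧸ m)
    (((Ideal.Quotient.mkₐ ℂ m).toLinearMap.rank_le_of_surjective
      (Ideal.Quotient.mkₐ_surjective ℂ m)).trans h)
  refine ⟨e.comp (Ideal.Quotient.mkₐ ℂ m), fun a ha => ?_⟩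
  have : Ideal.Quotient.mkₐ ℂ m a = 0 := Ideal.Quotient.eq_zero_iff_mem.2 (le ha)
  rw [AlgHom.comp_apply, this, map_zero]

theorem rank_le {K : Type} [CommRing K] [Algebra ℂ K] {s : Set K} (hs : s.Countable) :
    Module.rank ℂ (Algebra.adjoin ℂ s) ≤ Cardinal.aleph0 :=
  (Algebra.rank_adjoin_le (R := ℂ) s).trans (max_le hs.le_aleph0 le_rfl)

omit [DecidableEq σ] in
/-- a countable set which is stable under the derivations -/
theorem exists_stab {K : Type} [CommRing K] [Algebra ℂ K] (D : σ → Derivation ℂ K K) {V : Set K}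
    (hV : ∀ i, ∀ a ∈ V, D i a ∈ V) {s : Set K} (hs : s.Countable) (le : s ⊆ V) :
    ∃ s' : Set K, s'.Countable ∧ s ⊆ s' ∧ s' ⊆ V ∧
      ∀ i, ∀ a ∈ Algebra.adjoin ℂ s', D i a ∈ Algebra.adjoin ℂ s' := by
  refine ⟨Set.image2 (fun (l : List σ) a => l.foldr (fun i b => D i b) a) Set.univ s,
    Set.countable_univ.image2 hs _, fun a ha => ⟨[], trivial, a, ha, rfl⟩, ?_, fun i a ha => ?_⟩
  · rintro _ ⟨l, -, a, ha, rfl⟩
    induction l with
    | nil => exact le ha
    | cons i l ih => exact hV i _ ih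
  · induction ha using Algebra.adjoin_induction with
    | mem a ha =>
      obtain ⟨l, -, a, ha, rfl⟩ := ha
      exact Algebra.subset_adjoin ⟨i :: l, trivial, a, ha, rfl⟩
    | algebraMap c => rw [Derivation.map_algebraMap]; exact zero_mem _
    | add a b _ _ ha hb => rw [map_add]; exact add_mem ha hb
    | mul a b ka kb ha hb =>
      rw [Derivation.leibniz]
      exact add_mem (mul_mem ka hb) (mul_mem kb ha)

/-- the restriction of a derivation -/
def resD {K : Type} [CommRing K] [Algebra ℂ K] (D : Derivation ℂ K K) (R : Subalgebra ℂ K)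
    (h : ∀ a ∈ R, D a ∈ R) : Derivation ℂ R R :=
  .mk'
    { toFun a := ⟨D a, h a a.2⟩
      map_add' a b := Subtype.ext (map_add D a.1 b.1)
      map_smul' c a := Subtype.ext (D.map_smul c a.1) }
    fun a b => Subtype.ext (D.leibniz a.1 b.1)

theorem coe_resD {K : Type} [CommRing K] [Algebra ℂ K] (D : Derivation ℂ K K) (R : Subalgebra ℂ K)
    (h : ∀ a ∈ R, D a ∈ R) (a : R) : (resD D R h a : K) = D a := rfl

end Vale.Agent.P283R.Pc
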