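import Vale.Agent.P283R.Co.St
import Vale.Agent.P283R.Co.Pc0
import Vale.Agent.P287D.Cb.Ad

/-!
# From a place to a Hahn arc
-/

attribute [-instance] HahnSeries.powerSeriesAlgebra

open MvPowerSeries Set
open Vale.Agent.P287D Vale.Agent.P287D.Cb
open Vale.Agent.P285N.Brep (jac Fr)
open Vale.Agent.P297Z

noncomputable section

namespace Vale.Agent.P283R.Pc

open Co

variable {K : Type} [Field K] [Algebra ℂ K] {n : ℕ}

theorem comm {t : Fin n → K} {D : Fin n → Derivation ℂ K K} (h : Fr t D) (i j : Fin n) (a : K) :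
    D i (D j a) = D j (D i a) := by
  have e := expand (dr_of ⁅D i, D j⁆) (Derivation.map_algebraMap _) h a
  rw [Finset.sum_eq_zero fun k _ => by
    rw [Derivation.commutator_apply, h.dual, h.dual]
    split_ifs <;> simp] at e
  exact sub_eq_zero.1 e

/-- the Taylor series at a general point of a divisor -/
theorem tay_pl (hK : FF K (n + 1)) (P : Pl K) :
    ∃ (t : Fin (n + 1) → K) (D : Fin (n + 1) → Derivation ℂ K K), Ad P t D ∧
      ∀ s : Set K, s.Countable → s ⊆ P.ring → ∃ (R : Subalgebra ℂ K)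
        (hR : ∀ i, ∀ a ∈ R, D i a ∈ R) (ht : P.t ∈ R)
        (T : R →ₐ[ℂ] MvPowerSeries (Fin (n + 1)) ℂ), s ⊆ R ∧ T ⟨_, ht⟩ = X 0 ∧
        (∀ i a, pderiv ℂ i (T a) = T ⟨D i a, hR i a a.2⟩) ∧
        ∀ (a : R) (k : ℕ), (a : K) / P.t ^ k ∈ P.ring → X 0 ^ k ∣ T a := by
  obtain ⟨u, hu⟩ := exists_ada hK P
  obtain ⟨D, hD⟩ := hu.ad hK
  refine ⟨_, D, hD, fun s hs le => ?_⟩
  obtain ⟨s', c, h1, h2, h3⟩ := exists_stab D (V := P.ring) hD.pre (hs.insert P.t)
    (insert_subset (t_mem P) le)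
  have m : ∀ a ∈ Algebra.adjoin ℂ s', a ∈ P.ring := fun a ha => adj_mem h2 ha
  obtain ⟨χ, hχ⟩ := exists_pt (rank_le c) (RingHom.ker (rdA _ m)) (RingHom.ker_ne_top _)
  obtain ⟨T, T0, T1⟩ := taylor (fun i => resD (D i) _ (h3 i))
    (fun i j a => Subtype.ext (comm hD.fr i j a)) χ
  have ht : P.t ∈ Algebra.adjoin ℂ s' := Algebra.subset_adjoin (h1 (mem_insert _ _))
  have z : ∀ a : Algebra.adjoin ℂ s', Mx P a → χ a = 0 := fun a ha =>
    hχ a ((rd_eq_zero ha.mem).2 ha)
  have dt : ∀ i, D i P.t = if i = 0 then 1 else 0 := fun i => hD.fr.dual i 0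
  refine ⟨_, h3, ht, T, fun a ha => Algebra.subset_adjoin (h1 (mem_insert_of_mem _ ha)), ?_, T1, ?_⟩
  · refine pderiv.ext (fun i => ?_) (by rw [T0, z _ hu.mx]; simp)
    have e : resD (D i) _ (h3 i) ⟨_, ht⟩ = if i = 0 then 1 else 0 := Subtype.ext (by
      rw [coe_resD, dt]
      split_ifs <;> rfl)
    rw [T1, e]
    split_ifs with h
    · rw [h, pderiv_X_self, map_one]
    · rw [pderiv_X_of_ne (Ne.symm h), map_zero]
  · suffices H : ∀ (α : Fin (n + 1) →₀ ℕ) (a : Algebra.adjoin ℂ s') (k : ℕ),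
        (a : K) / P.t ^ k ∈ P.ring → α 0 < k → coeff α (T a) = 0 from
      fun a k h => X_pow_dvd_iff.2 fun α hα => H α a k h hα
    refine ind_deg (fun a k h hk => ?_) fun β i ih a k h hk => coeff_step ?_
    · obtain ⟨k, rfl⟩ := Nat.exists_eq_add_one_of_ne_zero hk.ne'
      rw [coeff_zero_eq_constantCoeff_apply, T0]
      refine z a ?_
      have := mul_mem h (pow_mem (t_mem P) k)
      rwa [pow_succ, div_mul_eq_mul_div, mul_comm (a : K), mul_div_mul_left _ _
        (pow_ne_zero k P.t_ne)] at this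
    · obtain ⟨k, rfl⟩ := Nat.exists_eq_add_one_of_ne_zero (Nat.ne_zero_of_lt hk)
      obtain ⟨b, hb, e⟩ : ∃ b ∈ P.ring, (a : K) = P.t ^ (k + 1) * b :=
        ⟨_, h, (mul_div_cancel₀ _ (pow_ne_zero _ P.t_ne)).symm⟩
      have e2 : D i a = P.t ^ (k + 1) * D i b + b * ((k + 1 : ℕ) * (P.t ^ k * D i P.t)) := by
        rw [e, Derivation.leibniz, Derivation.leibniz_pow]
        simp
      have := P.t_ne
      rw [T1]
      by_cases hi : i = 0
      · refine ih _ k ?_ (by simpa [hi] using hk)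
        have e3 : D i a / P.t ^ k = P.t * D i b + b * (k + 1 : ℕ) := by
          rw [e2, dt, if_pos hi]
          field_simp
          ring
        rw [coe_resD, e3]
        exact add_mem (mul_mem (t_mem P) (hD.pre i b hb)) (mul_mem hb (natCast_mem _ _))
      · refine ih _ (k + 1) ?_ (by simpa [hi] using hk)
        have e3 : D i a / P.t ^ (k + 1) = D i b := by
          rw [e2, dt, if_neg hi]
          field_simp
          simp
        rw [coe_resD, e3]
        exact hD.pre i b hb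

/-- small independent weights -/
theorem wt (n : ℕ) {η : ℝ} (hη : 0 < η) : ∃ (w : Fin (n + 1) → ℝ) (l : Fin (n + 1) → ℝ →+ ℂ),
    w 0 = 1 ∧ (∀ j, 0 < w j) ∧ ∑ j, w j ≤ 1 + η ∧ ∀ i j, l j (w i) = if i = j then 1 else 0 := by
  obtain ⟨τ, ⟨h0, h1⟩, hτ⟩ : ∃ τ ∈ Ioo (0 : ℝ) (min 1 (η / (n + 1))), Transcendental ℚ τ := by
    by_contra! h
    have c := (Algebraic.countable ℚ ℝ).mono
      (s₁ := Ioo (0 : ℝ) (min 1 (η / (n + 1)))) fun τ hτ => not_not.1 (h τ hτ)
    rw [← Cardinal.le_aleph0_iff_set_countable, Cardinal.mk_Ioo_real (by positivity)] at c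
    exact absurd c (not_le.2 Cardinal.aleph0_lt_continuum)
  obtain ⟨h1, h2⟩ := lt_min_iff.1 h1
  have li : LinearIndependent ℚ fun j : Fin (n + 1) => τ ^ (j : ℕ) := by
    have := (Polynomial.basisMonomials ℚ).linearIndependent.map'
      (Polynomial.aeval τ).toLinearMap (LinearMap.ker_eq_bot.2 (transcendental_iff_injective.1 hτ))
    simpa [Function.comp_def] using this.comp _ (Fin.val_injective (n := n + 1))
  obtain ⟨g, hg⟩ := (Fintype.linearCombination ℚ fun j : Fin (n + 1) => τ ^ (j : ℕ))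
    |>.exists_leftInverse_of_injective (LinearMap.ker_eq_bot.2 li.fintypeLinearCombination_injective)
  refine ⟨fun j => τ ^ (j : ℕ), fun j => (Rat.castHom ℂ).toAddMonoidHom.comp
    ((LinearMap.proj j).comp g).toAddMonoidHom, by simp, fun j => by positivity, ?_, fun i j => ?_⟩
  · rw [Fin.sum_univ_succ]
    have : ∑ j : Fin n, τ ^ (j.succ : ℕ) ≤ n * τ := by
      simpa using Finset.sum_le_card_nsmul Finset.univ (fun j : Fin n => τ ^ (j.succ : ℕ)) τ
        fun j _ => pow_le_of_le_one h0.le h1.le (by simp)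
    rw [lt_div_iff₀ (by positivity)] at h2
    simp only [Fin.val_zero, pow_zero]
    nlinarith
  · have := congrFun (LinearMap.congr_fun hg (Pi.single i 1)) j
    simp only [LinearMap.comp_apply, Fintype.linearCombination_apply_single, one_smul,
      LinearMap.id_apply] at this
    change ((g (τ ^ (i : ℕ)) j : ℚ) : ℂ) = _
    rw [this, Pi.single_apply]
    by_cases h : i = j
    · simp [h]
    · simp [h, Ne.symm h]

/-- from a place to a Hahn arc -/
theorem place_hahn {N : ℕ} (hK : FF K N) {z : Fin N → K} (hz : AlgebraicIndependent ℂ z) (P : Pl K)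
    (hP : ∀ j, 0 < P.ord (z j)) {η : ℝ} (hη : 0 < η) :
    ∃ (x : Fin N → HS) (l : Fin N → ℝ →+ ℂ), Pos x ∧
      (∀ p : MvPolynomial (Fin N) ℂ, Ge (P.ord (MvPolynomial.aeval z p)) (MvPolynomial.aeval x p)) ∧
      (Jd l x).orderTop ≤ ((A0 z P + η : ℝ) : WithTop ℝ) := by
  obtain _ | n := N
  · exact (no_pl hK P).elim
  obtain ⟨t, D, hD, H⟩ := tay_pl hK P
  have zm : ∀ j, z j ∈ P.ring := fun j => mem_ord (hP j).le
  have J0 := (jac_ne_iff hD.fr z).2 hz
  have Jm : jac D z ∈ P.ring := det_mem _ fun i j => hD.pre _ _ (zm j)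
  obtain ⟨k, hk⟩ := Int.eq_ofNat_of_zero_le (Pl.ord_nonneg_of_mem _ Jm)
  have t0 := pow_ne_zero k P.t_ne
  have v0 : P.ord (jac D z / P.t ^ k) = 0 := by
    rw [Pl.ord_div _ J0 t0, Pl.ord_pow, P.ord_t, hk]; simp
  obtain ⟨R, hR, ht, T, le, T0, T1, T2⟩ := H
    (insert (jac D z / P.t ^ k) (insert (jac D z / P.t ^ k)⁻¹ (range z)))
    (((countable_range z).insert _).insert _)
    (insert_subset (mem_ord v0.ge) (insert_subset (inv_mem_ord v0) (range_subset_iff.2 zm)))
  obtain ⟨w, l, w0, wp, ws, wl⟩ := wt n hη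
  let y : Fin (n + 1) → HS := fun i => HahnSeries.single (w i) 1
  have oy : ∀ i, (y i).orderTop = w i := fun i => HahnSeries.orderTop_single one_ne_zero
  have hy : Pos y := fun i => by rw [oy]; exact_mod_cast wp i
  let z' : Fin (n + 1) → R := fun j => ⟨z j, le (.inr (.inr ⟨j, rfl⟩))⟩
  have G : ∀ a : R, (a : K) ∈ P.ring → Ge (P.ord (a : K)) (ev y (T a)) := fun a ha => by
    obtain ⟨m, hm⟩ := Int.eq_ofNat_of_zero_le (Pl.ord_nonneg_of_mem _ ha)
    obtain ⟨G, hG⟩ := T2 a m (mem_ord (by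
      by_cases a0 : (a : K) = 0
      · simp [a0]
      · rw [Pl.ord_div _ a0 (pow_ne_zero _ P.t_ne), Pl.ord_pow, P.ord_t, hm]; simp))
    have e : ev y (X 0 ^ m) = y 0 ^ m := by
      rw [← evH_apply hy, map_pow, evH_apply, ev_X hy]
    rw [hG, ev_mul hy, e, hm]
    exact (((ge_single (w 0) (1 : ℂ)).pow m).mul0 (ge_ev_zero G)).mono (by simp [w0])
  have hx : Pos fun j => ev y (T (z' j)) := fun j =>
    lt_of_lt_of_le (by exact_mod_cast hP j) (G (z' j) (zm j))
  refine ⟨_, l, hx, fun p => ?_, ?_⟩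
  · have e1 : ((MvPolynomial.aeval z' p : R) : K) = MvPolynomial.aeval z p :=
      congr($(MvPolynomial.comp_aeval z' R.val) p)
    have e2 : ev y (T (MvPolynomial.aeval z' p)) = _ :=
      congr($(MvPolynomial.comp_aeval z' ((evH hy).comp T)) p)
    have := G (MvPolynomial.aeval z' p) (e1 ▸ adj_mem (range_subset_iff.2 zm)
      (by rw [Algebra.adjoin_range_eq_range_aeval]; exact ⟨p, rfl⟩))
    rwa [e1, e2] at this
  · have e := det_der_ev hy (RingHom.id ℂ) (θ := fun j => thl (l j) (0 : Derivation ℂ ℂ ℂ))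
      (fun j => ctr_thl _ _) (fun j c => Derivation.map_algebraMap _ c) fun j => T (z' j)
    simp only [MvPowerSeries.map_id, RingHom.id_apply] at e
    let v : R := ⟨_, le (.inl rfl)⟩
    have e1 : (Matrix.of fun i j => pderiv ℂ j (T (z' i))).det = T v * monomial (.single 0 k) 1 := by
      have e2 : (Matrix.of fun i j => (⟨D j (z' i), hR j _ (z' i).2⟩ : R)).det =
          v * ⟨_, ht⟩ ^ k := Subtype.ext (by
        have := R.val.map_det (Matrix.of fun i j => (⟨D j (z' i), hR j _ (z' i).2⟩ : R))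
        refine this.trans ?_
        change _ = jac D z / P.t ^ k * P.t ^ k
        rw [div_mul_cancel₀ _ t0, jac, ← Matrix.det_transpose]
        rfl)
      rw [← X_pow_eq, ← T0, ← map_pow, ← map_mul, ← e2, T.map_det]
      congr 1
      ext1 i j
      exact T1 j (z' i)
    have u : constantCoeff (T v) ≠ 0 := by
      have : v * ⟨_, le (.inr (.inl rfl))⟩ = 1 :=
        Subtype.ext (mul_inv_cancel₀ (div_ne_zero J0 t0))
      exact (((IsUnit.of_mul_eq_one _ this).map T).map constantCoeff).ne_zero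
    have e3 : (Matrix.of fun j i => thl (l i) (0 : Derivation ℂ ℂ ℂ) (y j)) = .diagonal y := by
      ext1 j i
      rw [Matrix.of_apply, thl_single, wl, Matrix.diagonal_apply]
      split_ifs <;> simp [y]
    rw [Jd, e, e1, e3, HahnSeries.orderTop_mul, orderTop_ev_mon hy u _ oy, Matrix.det_diagonal,
      orderTop_prod, Finset.sum_congr rfl fun i _ => oy i, ← WithTop.coe_sum, ← WithTop.coe_add,
      WithTop.coe_le_coe, A0, kap_eq hD, hk, Finsupp.sum_single_index (by simp), w0]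
    push_cast
    linarith

end Vale.Agent.P283R.Pc

namespace Vale.Agent.P283R.Co

theorem pa : PA := fun N F _ _ hF z hz P hP g E η hη hg => by
  obtain ⟨x, l, hx, h1, h2⟩ := Pc.place_hahn hF hz P hP hη
  refine ⟨RingHom.id ℂ, x, l, hx, fun j => by simpa using h1 (.X j), ?_, h2⟩
  rw [MvPowerSeries.map_id, RingHom.id_apply, ev_coe hx]
  rcases hg with rfl | hg
  · rw [map_zero]; exact ge_zero _
  · exact (h1 g).mono hg

end Vale.Agent.P283R.Co
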